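import Vale.Agent.P251.G.FinSum

/-!
# P093, part N2 (block 2D): the Euler characteristic of finite cell spaces

`HasChi X m` is the relation generated in the same way as `FC`, with an integer: the (reduced, or
compactly supported) Euler characteristic of `X⁺` is `m`.
-/

open CategoryTheory MonoidalCategory Limits Vale.Agent.P251.G Vale.Agent.P251.G.LC Topology

namespace Vale.Agent.P093.N2

/-- `X` is a finite cell space with (compactly supported) Euler characteristic `m`. -/
inductive HasChi : LC → ℤ → Prop
  | empty : HasChi (LC.of Empty) 0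
  | sph (n : ℕ) : HasChi (Sph n) ((-1) ^ n)
  | hequiv {X Y : LC} {m : ℤ} : HasChi X m → HEquiv X Y → HasChi Y m
  | ext {A B : LC} {i : A ⟶ B} {a c : ℤ} : Cofib i → HasChi A a → HasChi (cof i) c →
      HasChi B (a + c)

namespace HasChi

variable {X Y A B U Z : LC} {m n a c : ℤ}

theorem fc (h : HasChi X m) : FC X := by
  induction h with
  | empty => exact FC.empty
  | sph n => exact FC.sph n
  | hequiv _ h ih => exact ih.hequiv h
  | ext hi _ _ ihA ihC => exact FC.ext hi ihA ihC

theorem exists_of_fc (h : FC X) : ∃ m, HasChi X m := by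
  induction h with
  | empty => exact ⟨0, .empty⟩
  | sph n => exact ⟨_, .sph n⟩
  | hequiv _ h ih =>
    obtain ⟨m, hm⟩ := ih
    exact ⟨m, hm.hequiv h⟩
  | ext hi _ _ ihA ihC =>
    obtain ⟨a, ha⟩ := ihA
    obtain ⟨c, hc⟩ := ihC
    exact ⟨a + c, .ext hi ha hc⟩

theorem cast (h : HasChi X m) (e : m = n) : HasChi X n := e ▸ h

theorem of_iso (h : HasChi X m) (e : X ≅ Y) : HasChi Y m := h.hequiv (HEquiv.of_iso e)

theorem of_homeo (h : HasChi X m) (e : X ≃ₜ Y) : HasChi Y m := h.of_iso (ofHomeo e)

theorem of_contr (h : Contr X) : HasChi X 0 := HasChi.empty.hequiv h.hequiv.symm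

theorem of_isEmpty (X : LC) [IsEmpty X] : HasChi X 0 := of_contr (contr_of_isEmpty X)

theorem unit : HasChi (𝟙_ LC) 1 := by
  refine ((HasChi.sph 0).cast (by norm_num)).of_homeo (Y := LC.of Unit) ?_
  exact
    { toFun := fun _ => ()
      invFun := fun _ => default
      left_inv := fun _ => Subsingleton.elim _ _
      right_inv := fun _ => rfl
      continuous_toFun := continuous_const
      continuous_invFun := continuous_const }

theorem of_unique (X : LC) [Unique X] : HasChi X 1 := by
  refine unit.of_homeo (X := LC.of Unit) ?_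
  exact
    { toFun := fun _ => default
      invFun := fun _ => ()
      left_inv := fun _ => rfl
      right_inv := fun _ => Subsingleton.elim _ _
      continuous_toFun := continuous_const
      continuous_invFun := continuous_const }

theorem of_ext {i : A ⟶ B} (hi : Cofib i) (hA : HasChi A a) (e : LC.cof i ≅ U) (hU : HasChi U c) :
    HasChi B (a + c) := HasChi.ext hi hA (hU.of_iso e.symm)

theorem tensor_sph (h : HasChi Y n) (k : ℕ) : HasChi (Y ⊗ Sph k) (n * (-1) ^ k) := by
  induction h with
  | empty =>
    have : IsEmpty (LC.of Empty ⊗ Sph k : LC) := inferInstanceAs (IsEmpty (Empty × (Fin k → ℝ)))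
    exact (of_isEmpty _).cast (by ring)
  | sph n => exact ((HasChi.sph (n + k)).of_iso (sphTensor n k).symm).cast (by ring)
  | hequiv _ h ih => exact ih.hequiv (h.tensor (HEquiv.refl (Sph k)))
  | @ext A B i a c hi _ _ ihA ihC =>
    exact (HasChi.ext (hi.whiskerRight (Sph k)) ihA
      (ihC.of_iso (cofWhiskerRight i (Sph k)).symm)).cast (by ring)

/-- the Euler characteristic is multiplicative -/
theorem tensor (hX : HasChi X m) (hY : HasChi Y n) : HasChi (X ⊗ Y) (m * n) := by
  induction hX with
  | empty =>
    have : IsEmpty (LC.of Empty ⊗ Y : LC) := inferInstanceAs (IsEmpty (Empty × Y))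
    exact (of_isEmpty _).cast (by ring)
  | sph k => exact ((hY.tensor_sph k).of_iso (β_ Y (Sph k))).cast (by ring)
  | hequiv _ h ih => exact ih.hequiv (h.tensor (HEquiv.refl Y))
  | @ext A B i a c hi _ _ ihA ihC =>
    exact (HasChi.ext (hi.whiskerRight Y) ihA (ihC.of_iso (cofWhiskerRight i Y).symm)).cast
      (by ring)

theorem line : HasChi RR (-1) := by
  refine ((HasChi.sph 1).cast (by norm_num)).of_homeo (Y := LC.of ℝ) ?_
  exact Homeomorph.funUnique (Fin 1) ℝ

theorem halfLine : HasChi HH 0 := of_contr contr_HH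

theorem susp (h : HasChi X m) : HasChi (X ⊗ RR) (-m) := (h.tensor line).cast (by ring)

/-- the mapping cone of a morphism of finite cell spaces -/
theorem cone (hX : HasChi X m) (hY : HasChi Y n) (f : X ⟶ Y) : HasChi (LC.cone f) (n - m) :=
  (of_ext (cofib_coneInr f) hY (cofConeInr f) hX.susp).cast (by ring)

/-- the strict cofibre of a cofibration -/
theorem cof {i : A ⟶ B} (hi : Cofib i) (hA : HasChi A m) (hB : HasChi B n) :
    HasChi (LC.cof i) (n - m) :=
  (hA.cone hB i).hequiv (isHEquiv_coneToCof hi).hequiv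

/-- closed-open decompositions -/
theorem of_closed_open {Z Y U : LC} (z : Z → Y) (hz : IsClosedEmbedding z) (u : U → Y)
    (hu : IsOpenEmbedding u) (h : IsCompl (Set.range z) (Set.range u)) (hi : Cofib (ofClosed z hz))
    (hZ : HasChi Z m) (hU : HasChi U n) : HasChi Y (m + n) :=
  of_ext hi hZ (cofClosedOpen z hz u hu h) hU

/-- the disjoint union -/
theorem sum (hX : HasChi X m) (hY : HasChi Y n) : HasChi (LC.sum X Y) (m + n) := by
  have h := isPushout_sum X Y isZero_empty (0 : LC.of Empty ⟶ X) (0 : LC.of Empty ⟶ Y)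
  have h1 : Cofib (0 : LC.of Empty ⟶ X) := cofib_of_isEmpty _
  exact (of_ext (h1.pushout h) hY (cofPushout h).symm
    ((HasChi.empty).cof h1 hX)).cast (by ring)

/-- finitely many copies of `X` -/
theorem finProd (hX : HasChi X m) : ∀ k : ℕ, HasChi (finProd X k) (k * m)
  | 0 => by
    have : IsEmpty (LC.finProd X 0 : LC) := inferInstanceAs (IsEmpty (Fin 0 × X))
    exact (of_isEmpty _).cast (by simp)
  | k + 1 =>
    (of_ext (cofib_finCast X k) (finProd hX k) (cofFinCast X k) hX).cast (by push_cast; ring)

end HasChi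

end Vale.Agent.P093.N2
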