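import Vale.Agent.P251.M.SpaceConn
import Vale.Agent.P251.I.CofTriangle
import Vale.Agent.P251.G.PowLC
import Vale.Agent.P093.N2.HasChi
import Vale.Agent.P093.N2.ChiNum

/-!
# P093, part N2: thick classes of objects of `T` and spaces

* `Cl P` : the class `P` of objects of `T` is thick (zero, shifts, extensions, retracts);
* `Cl.tensorS` : `P K → P (K ⊗ S Y)` for every finite cell space `Y`;
* `Cl.pow` : `P (S X) → P (S (X^J))` for `J` finite and nonempty;
* `Cl.section_of_zero` : if `S B ⟶ S E` is zero then `S B` is a retract of the desuspension of the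
  cofibre.
-/

open CategoryTheory MonoidalCategory Limits Pretriangulated Topology

set_option linter.unusedSectionVars false

universe v u

namespace Vale.Agent.P093.N2

open Vale.Agent.P251.T Vale.Agent.P251.G Vale.Agent.P251.G.LC Vale.Agent.P251.I
  Vale.Agent.P251.M

variable {T : Type u} [Category.{v} T] [Preadditive T] [HasZeroObject T]
    [HasShift T ℤ] [∀ n : ℤ, (shiftFunctor T n).Additive] [Pretriangulated T]

/-- `P` is a thick class of objects -/
structure Cl (P : T → Prop) : Prop where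
  zero : ∀ {X : T}, IsZero X → P X
  shift : ∀ {X : T}, P X → P (X⟦(1 : ℤ)⟧)
  of_shift : ∀ {X : T}, P (X⟦(1 : ℤ)⟧) → P X
  ext : ∀ {X Y Z : T} {f : X ⟶ Y} {g : Y ⟶ Z} {h : Z ⟶ X⟦(1 : ℤ)⟧},
    Triangle.mk f g h ∈ distTriang T → P X → P Z → P Y
  retract : ∀ {X Y : T} (i : Y ⟶ X) (p : X ⟶ Y), i ≫ p = 𝟙 Y → P X → P Y

namespace Cl

variable {P : T → Prop} (hP : Cl P)

include hP

theorem of_iso {X Y : T} (e : X ≅ Y) (h : P X) : P Y := hP.retract e.inv e.hom e.inv_hom_id h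

theorem iso_iff {X Y : T} (e : X ≅ Y) : P X ↔ P Y := ⟨hP.of_iso e, hP.of_iso e.symm⟩

theorem ext₃ {X Y Z : T} {f : X ⟶ Y} {g : Y ⟶ Z} {h : Z ⟶ X⟦(1 : ℤ)⟧}
    (hΔ : Triangle.mk f g h ∈ distTriang T) (hX : P X) (hY : P Y) : P Z :=
  hP.ext (rot_of_distTriang _ hΔ) hY (hP.shift hX)

theorem ext₁ {X Y Z : T} {f : X ⟶ Y} {g : Y ⟶ Z} {h : Z ⟶ X⟦(1 : ℤ)⟧}
    (hΔ : Triangle.mk f g h ∈ distTriang T) (hY : P Y) (hZ : P Z) : P X :=
  hP.of_shift (hP.ext (rot_of_distTriang _ (rot_of_distTriang _ hΔ)) hZ (hP.shift hY))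

theorem shift_nat {X : T} (h : P X) (n : ℕ) : P (X⟦(n : ℤ)⟧) := by
  induction n with
  | zero => exact hP.of_iso ((shiftFunctorZero' T ((0 : ℕ) : ℤ) (by simp)).symm.app X) h
  | succ n ih =>
    exact hP.of_iso ((shiftFunctorAdd' T (n : ℤ) 1 ((n + 1 : ℕ) : ℤ) (by push_cast; ring)).symm.app
      X) (hP.shift ih)

theorem of_shift_nat {X : T} (n : ℕ) (h : P (X⟦(n : ℤ)⟧)) : P X := by
  induction n with
  | zero => exact hP.of_iso ((shiftFunctorZero' T ((0 : ℕ) : ℤ) (by simp)).app X) h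
  | succ n ih =>
    exact ih (hP.of_shift (hP.of_iso ((shiftFunctorAdd' T (n : ℤ) 1 ((n + 1 : ℕ) : ℤ)
      (by push_cast; ring)).app X) h))

theorem shift_int {X : T} (h : P X) (n : ℤ) : P (X⟦n⟧) := by
  obtain ⟨k, rfl | rfl⟩ := n.eq_nat_or_neg
  · exact hP.shift_nat h k
  · refine hP.of_shift_nat k (hP.of_iso ?_ h)
    exact (shiftNegShift X (k : ℤ)).symm

theorem shift_iff {X : T} (n : ℤ) : P (X⟦n⟧) ↔ P X :=
  ⟨fun h => hP.of_iso (shiftShiftNeg X n) (hP.shift_int h (-n)), fun h => hP.shift_int h n⟩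

/-- if `f` is zero in a distinguished triangle, the first object is a retract of the third one
shifted -/
theorem of_zero {X Y Z : T} {f : X ⟶ Y} {g : Y ⟶ Z} {h : Z ⟶ X⟦(1 : ℤ)⟧}
    (hΔ : Triangle.mk f g h ∈ distTriang T) (hf : f = 0) (hZ : P Z) : P X := by
  obtain ⟨s, hs⟩ := Triangle.coyoneda_exact₁ _ hΔ (𝟙 (X⟦(1 : ℤ)⟧)) (by
    change 𝟙 _ ≫ f⟦(1 : ℤ)⟧' = 0
    rw [hf, Functor.map_zero, comp_zero])
  exact hP.of_shift (hP.retract s h hs.symm hZ)

end Cl

section spaces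

variable [MonoidalCategory T] [SymmetricCategory T] [TensorTriangulated T] {P : T → Prop}
  (F : SpaceFunctor T)

namespace Cl

variable (hP : Cl P)

include hP

theorem tensor_zero (K : T) {Z : T} (hZ : IsZero Z) : P (K ⊗ Z) := by
  refine hP.zero ?_
  rw [IsZero.iff_id_eq_zero, ← whiskerLeft_id, hZ.eq_of_src (𝟙 Z) 0,
    MonoidalPreadditive.whiskerLeft_zero]

/-- homotopy equivalent spaces -/
theorem of_hequiv {X Y : FCat} (h : HEquiv X.obj Y.obj) (hX : P (F.S.obj X)) : P (F.S.obj Y) := by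
  obtain ⟨f, g, h1, h2⟩ := h
  have := F.isIso_map (FCat.hom f : X ⟶ Y) ⟨g, h1, h2⟩
  exact hP.of_iso (asIso (F.S.map (FCat.hom f : X ⟶ Y))) hX

theorem of_lciso {X Y : FCat} (e : X.obj ≅ Y.obj) (hX : P (F.S.obj X)) : P (F.S.obj Y) :=
  hP.of_iso (F.S.mapIso (fcIso e)) hX

/-- cofibrations: the middle term -/
theorem cof₂ {A B C : FCat} (i : A ⟶ B) (hi : Cofib i.hom) (e : HEquiv (cof i.hom) C.obj)
    (hA : P (F.S.obj A)) (hC : P (F.S.obj C)) : P (F.S.obj B) :=
  hP.ext (F.cof_distinguished i hi) hA (hP.of_hequiv F e.symm hC)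

/-- cofibrations: the cofibre -/
theorem cof₃ {A B C : FCat} (i : A ⟶ B) (hi : Cofib i.hom) (e : HEquiv (cof i.hom) C.obj)
    (hA : P (F.S.obj A)) (hB : P (F.S.obj B)) : P (F.S.obj C) :=
  hP.of_hequiv F (X := cofF i hi) e (hP.ext₃ (F.cof_distinguished i hi) hA hB)

/-- mapping cones -/
theorem cone₃ {X Y C : FCat} (f : X ⟶ Y) (e : HEquiv (LC.cone f.hom) C.obj)
    (hX : P (F.S.obj X)) (hY : P (F.S.obj Y)) : P (F.S.obj C) :=
  hP.of_hequiv F (X := coneF f) e (hP.ext₃ (F.cone_distinguished f) hX hY)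

/-- a thick class is closed under tensor products with finite cell spaces -/
theorem tensorS {K : T} (hK : P K) (Y : FCat) : P (K ⊗ F.S.obj Y) := by
  obtain ⟨Y, hY⟩ := Y
  have key : ∀ (Y : LC) (_ : FC Y) (h : FC Y), P (K ⊗ F.S.obj ⟨Y, h⟩) := by
    intro Y hY
    induction hY with
    | empty =>
      intro h
      exact hP.tensor_zero K (F.isZero (inferInstanceAs (IsEmpty Empty)))
    | sph n =>
      intro h
      refine hP.of_iso ?_ (hP.shift_nat hK n)
      exact (tensorUnitShiftIso K (n : ℤ)).symm ≪≫ whiskerLeftIso K (sphIso F n).symm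
    | @hequiv X Y hX e ih =>
      intro h
      obtain ⟨f, g, h1, h2⟩ := e
      have := F.isIso_map (FCat.hom f : (⟨X, hX⟩ : FCat) ⟶ ⟨Y, h⟩) ⟨g, h1, h2⟩
      exact hP.of_iso (whiskerLeftIso K
        (asIso (F.S.map (FCat.hom f : (⟨X, hX⟩ : FCat) ⟶ ⟨Y, h⟩)))) (ih hX)
    | @ext A B i hi hA hC ihA ihC =>
      intro h
      have hΔ := TensorTriangulated.distinguished K _
        (F.cof_distinguished (FCat.hom i : (⟨A, hA⟩ : FCat) ⟶ ⟨B, h⟩) hi)
      exact hP.ext hΔ (ihA hA) (ihC _)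
  exact key Y hY hY

/-- a thick class is closed under products with finite cell spaces -/
theorem prod {X : FCat} (hX : P (F.S.obj X)) (Y : FCat) : P (F.S.obj (X ⊗ Y)) :=
  hP.of_iso (Functor.Monoidal.μIso F.S X Y) (hP.tensorS F hX Y)

theorem prod' {X : FCat} (hX : P (F.S.obj X)) (Y : FCat) : P (F.S.obj (Y ⊗ X)) :=
  hP.of_lciso F (X := X ⊗ Y) (Y := Y ⊗ X) (β_ X.obj Y.obj) (hP.prod F hX Y)

end Cl

/-- `X^J` splits off a factor -/
noncomputable def powSplit (J : Type) [Finite J] [DecidableEq J] (X : LC) (j : J) :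
    powObj J X ≅ X ⊗ powObj {k : J // k ≠ j} X :=
  ofHomeo (X := powObj J X) (Y := LC.of (X × ({k : J // k ≠ j} → X))) (Homeomorph.funSplitAt X j)

theorem fc_powObj (J : Type) [Finite J] {X : LC} (hX : FC X) : FC (powObj J X) := by
  classical
  obtain ⟨n, hn⟩ : ∃ n, Nat.card J = n := ⟨_, rfl⟩
  induction n generalizing J with
  | zero =>
    have : IsEmpty J := by
      rcases Nat.card_eq_zero.mp hn with h | h
      · exact h
      · exact absurd ‹Finite J› (not_finite_iff_infinite.mpr h)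
    have : Unique (powObj J X) := inferInstanceAs (Unique (J → X))
    exact FC.of_unique _
  | succ n ih =>
    have : Nonempty J := (Nat.card_pos_iff.mp (by omega)).1
    obtain ⟨j⟩ := this
    refine FC.of_iso (X := X ⊗ powObj {k : J // k ≠ j} X) (hX.tensor (ih _ ?_))
      (powSplit J X j).symm
    have h2 : Nat.card {k : J // k ≠ j} + 1 = Nat.card J := by
      let _ := Fintype.ofFinite J
      rw [Nat.card_eq_fintype_card, Nat.card_eq_fintype_card]
      have := Fintype.card_subtype_compl (fun k : J => k = j)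
      have h3 : Fintype.card {k : J // k = j} = 1 := Fintype.card_subtype_eq j
      have h4 : 0 < Fintype.card J := Fintype.card_pos_iff.mpr ⟨j⟩
      have h5 : Fintype.card {k : J // k ≠ j} = Fintype.card {k : J // ¬ k = j} := rfl
      omega
    omega

theorem Cl.pow (hP : Cl P) (J : Type) [Finite J] [Nonempty J] {X : FCat} (hX : P (F.S.obj X)) :
    P (F.S.obj ⟨powObj J X.obj, fc_powObj J X.property⟩) := by
  classical
  obtain ⟨j⟩ := ‹Nonempty J›
  exact hP.of_lciso F (X := X ⊗ ⟨powObj {k : J // k ≠ j} X.obj, fc_powObj _ X.property⟩)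
    (powSplit J X.obj j).symm (hP.prod F hX _)

/-- The step: `B` (the quadratic construction on `X`) lies in every thick class which contains
`S U`.  Here `A 0 = ∅`, `A (M + 1) / A M = U × Y M`, `B ⟶ E M` has cofibre `A M × ℝ`, and
`S B ⟶ S (E M)` is zero for some `M`. -/
theorem Cl.step (hP : Cl P) {U : FCat} (hU : P (F.S.obj U)) (A : ℕ → FCat)
    (hA0 : IsEmpty (A 0).obj) (i : ∀ M, A M ⟶ A (M + 1)) (hi : ∀ M, Cofib (i M).hom)
    (Y : ℕ → FCat) (e : ∀ M, HEquiv (cof (i M).hom) ((U ⊗ Y M : FCat)).obj)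
    {B : FCat} (E : ℕ → FCat) (z : ∀ M, B ⟶ E M) (hz : ∀ M, Cofib (z M).hom)
    (ez : ∀ M, HEquiv (cof (z M).hom) ((A M ⊗ RRF : FCat)).obj) (M : ℕ)
    (h0 : F.S.map (z M) = 0) : P (F.S.obj B) := by
  have hA : ∀ M, P (F.S.obj (A M)) := by
    intro M
    induction M with
    | zero => exact hP.zero (F.isZero hA0)
    | succ M ih => exact hP.cof₂ F (i M) (hi M) (e M) ih (hP.prod F hU (Y M))
  refine hP.of_zero (F.cof_distinguished (z M) (hz M)) h0 ?_
  exact hP.of_hequiv F (Y := cofF (z M) (hz M)) (ez M).symm (hP.prod F (hA M) RRF)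

end spaces

/-- The iteration: a relation `R X m` (e.g. `HasChi X m`) on spaces, and a step which replaces
`m` by `qchi p m`. -/
theorem exists_not_dvd_of_step {p : ℕ} (hp : p.Prime) {R : LC → ℤ → Prop} {Q : LC → Prop}
    (step : ∀ (X : LC) (m : ℤ), R X m → Q X → ∃ Y, R Y (qchi p m) ∧ Q Y) {X : LC} {m : ℤ}
    (hm : m ≠ 0) (hX : R X m) (hQ : Q X) : ∃ Y n, R Y n ∧ Q Y ∧ ¬ (p : ℤ) ∣ n := by
  obtain ⟨n, ⟨Y, hY, hQY⟩, hn⟩ := exists_not_dvd hp (P := fun m => ∃ X, R X m ∧ Q X)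
    (fun m h => by
      obtain ⟨X, hX, hQ⟩ := h
      obtain ⟨Y, hY, hQY⟩ := step X m hX hQ
      exact ⟨Y, hY, hQY⟩) hm ⟨X, hX, hQ⟩
  exact ⟨Y, n, hY, hQY, hn⟩

end Vale.Agent.P093.N2
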