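import Vale.Agent.P093.N2.ChiSign
import Vale.Agent.P251.X.HQ
import Vale.Agent.P251.M.Kleisli

/-!
# P093, N2, block 2E: a basis of the rational homology computes the trace

`IsHQ R` : the properties of the rational Eilenberg-Mac Lane spectrum of `X.exists_HQ`.
`GBasis R Y N` : a basis of the rational homology of `Y`, concentrated in the degrees `[0, N)`.
`GBasis.tr_eq` : the trace of the identity of `Y` is the alternating number of basis elements.
-/

open CategoryTheory MonoidalCategory Limits Pretriangulated MonObj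

universe v u

set_option linter.unusedSectionVars false

namespace Vale.Agent.P093.N2

open Vale.Agent.P251 Vale.Agent.P251.M Vale.Agent.P251.T

section free

variable {T : Type u} [Category.{v} T] [Preadditive T] [MonoidalCategory T]
  [MonoidalPreadditive T] [SymmetricCategory T] (R : T) [MonObj R] [IsCommMonObj R]

/-- The free functor preserves exact pairings. -/
@[instance_reducible]
def freePairing (L K : T) (hLK : ExactPairing L K) :
    ExactPairing ((FM.free R).obj L) ((FM.free R).obj K) where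
  coevaluation' := (FM.free R).map (η_ L K)
  evaluation' := (FM.free R).map (ε_ L K)
  coevaluation_evaluation' := by
    have e1 := FM.free_whiskerLeft (R := R) K (η_ L K)
    have e2 := FM.free_whiskerRight (R := R) (ε_ L K) K
    have e : (FM.free R).map (K ◁ η_ L K) ≫ (FM.free R).map (α_ K L K).inv ≫
        (FM.free R).map (ε_ L K ▷ K) =
          (FM.free R).map (ρ_ K).hom ≫ (FM.free R).map (λ_ K).inv := by
      rw [← Functor.map_comp, ← Functor.map_comp, ← Functor.map_comp,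
        ExactPairing.coevaluation_evaluation]
    exact (congrArg₂ (fun a b => a ≫ (FM.free R).map (α_ K L K).inv ≫ b) e1 e2).trans e
  evaluation_coevaluation' := by
    have e1 := FM.free_whiskerRight (R := R) (η_ L K) L
    have e2 := FM.free_whiskerLeft (R := R) L (ε_ L K)
    have e : (FM.free R).map (η_ L K ▷ L) ≫ (FM.free R).map (α_ L K L).hom ≫
        (FM.free R).map (L ◁ ε_ L K) =
          (FM.free R).map (λ_ L).hom ≫ (FM.free R).map (ρ_ L).inv := by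
      rw [← Functor.map_comp, ← Functor.map_comp, ← Functor.map_comp,
        ExactPairing.evaluation_coevaluation]
    exact (congrArg₂ (fun a b => a ≫ (FM.free R).map (α_ L K L).hom ≫ b) e1 e2).trans e

theorem tr_free (L K : T) (hLK : ExactPairing L K) :
    @trc (FM R) _ _ _ ((FM.free R).obj L) ((FM.free R).obj K) (freePairing R L K hLK) (𝟙 _) =
      (FM.free R).map (trc L K (𝟙 K)) := by
  rw [tr_id, tr_id, Functor.map_comp, Functor.map_comp]
  rfl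

end free

section lin

variable {T : Type u} [Category.{v} T] [MonoidalCategory T] {R : T} [MonObj R]

/-- A morphism of free modules which is an isomorphism has an inverse. -/
theorem exists_inverse {P Y : T} (c : P ⟶ R ⊗ Y) [IsIso (FM.bind c)] :
    ∃ θ : Y ⟶ R ⊗ P, θ ≫ FM.bind c = FM.unit R Y ∧ c ≫ FM.bind θ = FM.unit R P := by
  have h1 : (FM.unit R Y ≫ inv (FM.bind c)) ≫ FM.bind c = FM.unit R Y := by
    rw [Category.assoc, IsIso.inv_hom_id, Category.comp_id]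
  refine ⟨FM.unit R Y ≫ inv (FM.bind c), h1, ?_⟩
  have h2 : FM.bind (FM.unit R Y ≫ inv (FM.bind c)) = inv (FM.bind c) := by
    rw [← cancel_mono (FM.bind c), FM.bind_bind, h1, FM.bind_unit, IsIso.inv_hom_id]
  rw [h2]
  have h3 : c ≫ inv (FM.bind c) = (FM.unit R P ≫ FM.bind c) ≫ inv (FM.bind c) :=
    congrArg (· ≫ inv (FM.bind c)) (FM.unit_bind c).symm
  rw [h3, Category.assoc, IsIso.hom_inv_id, Category.comp_id]

end lin

section basis

variable {T : Type u} [Category.{v} T] [Preadditive T] [HasZeroObject T]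
    [HasShift T ℤ] [∀ n : ℤ, (shiftFunctor T n).Additive] [Pretriangulated T]
    [MonoidalCategory T] [SymmetricCategory T] [TensorTriangulated T]

/-- The properties of the rational Eilenberg-Mac Lane spectrum. -/
structure IsHQ (R : T) [MonObj R] : Prop where
  conc : ∀ k : ℤ, k ≠ 0 → ∀ g : (𝟙_ T)⟦k⟧ ⟶ R, g = 0
  ne : MonObj.one (X := R) ≠ 0
  div : ∀ m : ℤ, m ≠ 0 → Function.Bijective (fun f : 𝟙_ T ⟶ R => m • f)
  gen : ∀ f : 𝟙_ T ⟶ R, ∃ a m : ℤ, m ≠ 0 ∧ m • f = a • MonObj.one (X := R)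

variable {R : T} [MonObj R]

/-- A basis of the rational homology of `Y`, concentrated in the degrees `[0, N)`. -/
structure GBasis (R : T) [MonObj R] (Y : T) (N : ℕ) where
  /-- the dimensions -/
  d : ℕ → ℕ
  /-- the basis -/
  g (k : ℕ) (i : Fin (d k)) : (𝟙_ T)⟦(k : ℤ)⟧ ⟶ R ⊗ Y
  span (k : ℕ) (hk : k < N) (x : (𝟙_ T)⟦(k : ℤ)⟧ ⟶ R ⊗ Y) :
    ∃ (m : ℤ) (a : Fin (d k) → ℤ), m ≠ 0 ∧ m • x = ∑ i, a i • g k i
  indep (k : ℕ) (hk : k < N) (a : Fin (d k) → ℤ) (h : ∑ i, a i • g k i = 0) : a = 0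
  van (k : ℤ) (hk : k < 0 ∨ (N : ℤ) ≤ k) (x : (𝟙_ T)⟦k⟧ ⟶ R ⊗ Y) : x = 0

theorem sum_sproj_ι {J : Type} [Fintype J] [HasCoproducts.{0} T] (P : J → T) :
    ∑ j, S.sproj P j ≫ Sigma.ι P j = 𝟙 (∐ P) := by
  classical
  symm
  apply Sigma.hom_ext
  intro j
  rw [Category.comp_id, Preadditive.comp_sum, Finset.sum_eq_single j]
  · rw [← Category.assoc, S.ι_sproj_self, Category.id_comp]
  · intro i _ hi
    rw [← Category.assoc, S.ι_sproj_ne _ hi.symm, zero_comp]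
  · intro h
    exact absurd (Finset.mem_univ j) h

/-- a common denominator -/
theorem exists_common {A : Type*} [AddCommGroup A] (u : A) {J : Type*} [Fintype J] (w : J → A)
    (h : ∀ i, ∃ a m : ℤ, m ≠ 0 ∧ m • w i = a • u) :
    ∃ (m : ℤ) (a : J → ℤ), m ≠ 0 ∧ ∀ i, m • w i = a i • u := by
  classical
  choose a m hm h using h
  refine ⟨∏ i, m i, fun i => (∏ j ∈ Finset.univ.erase i, m j) * a i,
    Finset.prod_ne_zero_iff.2 fun i _ => hm i, fun i => ?_⟩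
  rw [← Finset.mul_prod_erase Finset.univ m (Finset.mem_univ i), mul_comm, mul_smul, h, mul_smul]

end basis

section stable

variable {T : Type u} [Category.{v} T] [Preadditive T] [HasZeroObject T]
    [HasShift T ℤ] [∀ n : ℤ, (shiftFunctor T n).Additive] [Pretriangulated T] [IsTriangulated T]
    [MonoidalCategory T] [SymmetricCategory T] [TensorTriangulated T] [MonoidalClosed T]
    [HasCoproducts.{0} T] [HasProducts.{0} T] [StableCat T] {R : T} [MonObj R]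

namespace IsHQ

variable (hR : IsHQ R)

include hR

theorem isIso {m : ℤ} (hm : m ≠ 0) (Y : T) : IsIso (m • 𝟙 (R ⊗ Y)) := by
  have h1 : IsIso (m • 𝟙 R) := X.isIso_zsmul hR.conc (hR.div m hm)
  have h2 : (m • 𝟙 R) ▷ Y = m • 𝟙 (R ⊗ Y) := by
    rw [← id_whiskerRight]
    exact (tensorRight Y).map_zsmul (f := 𝟙 R) (r := m)
  rw [← h2]
  infer_instance

theorem torsionFree {m : ℤ} (hm : m ≠ 0) {A Y : T} {x : A ⟶ R ⊗ Y} (h : m • x = 0) : x = 0 := by
  have := hR.isIso hm Y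
  rw [← cancel_mono (m • 𝟙 (R ⊗ Y)), Preadditive.comp_zsmul, Category.comp_id, h, zero_comp]

theorem divisible {m : ℤ} (hm : m ≠ 0) {A Y : T} (x : A ⟶ R ⊗ Y) : ∃ y : A ⟶ R ⊗ Y,
    m • y = x := by
  have := hR.isIso hm Y
  refine ⟨x ≫ inv (m • 𝟙 (R ⊗ Y)), ?_⟩
  have h : m • inv (m • 𝟙 (R ⊗ Y)) = 𝟙 (R ⊗ Y) := by
    have h1 := IsIso.hom_inv_id (m • 𝟙 (R ⊗ Y))
    rwa [Preadditive.zsmul_comp, Category.id_comp] at h1
  rw [← Preadditive.comp_zsmul, h, Category.comp_id]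

omit hR in
theorem whiskerRight_surj (L : T) [IsInv L] {X Y : T} (h : X ⊗ L ⟶ Y ⊗ L) :
    ∃ f : X ⟶ Y, f ▷ L = h := by
  have hR : (tensorRight L).IsEquivalence :=
    Functor.isEquivalence_of_iso (BraidedCategory.tensorLeftIsoTensorRight L)
  exact ⟨(tensorRight L).preimage h, (tensorRight L).map_preimage h⟩

/-- the homology of a sphere in the other degrees -/
theorem sphere_ne {k n : ℤ} (hkn : k ≠ n) (x : (𝟙_ T)⟦k⟧ ⟶ R ⊗ (𝟙_ T)⟦n⟧) : x = 0 := by
  obtain ⟨z, hz⟩ := whiskerRight_surj ((𝟙_ T)⟦n⟧)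
    ((shTen' (T := T) (k - n) n k (by ring)).hom ≫ x)
  have h1 : z = 0 := hR.conc (k - n) (sub_ne_zero.2 hkn) z
  rw [h1, MonoidalPreadditive.zero_whiskerRight] at hz
  rw [← cancel_epi (shTen' (T := T) (k - n) n k (by ring)).hom, ← hz, comp_zero]

/-- the homology of a sphere in its degree -/
theorem sphere_eq {k : ℤ} (x : (𝟙_ T)⟦k⟧ ⟶ R ⊗ (𝟙_ T)⟦k⟧) :
    ∃ a m : ℤ, m ≠ 0 ∧ m • x = a • FM.unit R ((𝟙_ T)⟦k⟧) := by
  obtain ⟨z, hz⟩ := whiskerRight_surj ((𝟙_ T)⟦k⟧) ((λ_ ((𝟙_ T)⟦k⟧)).hom ≫ x)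
  obtain ⟨a, m, hm, h⟩ := hR.gen z
  refine ⟨a, m, hm, ?_⟩
  have h1 : (m • z) ▷ ((𝟙_ T)⟦k⟧) = m • z ▷ ((𝟙_ T)⟦k⟧) :=
    (tensorRight ((𝟙_ T)⟦k⟧)).map_zsmul (f := z) (r := m)
  have h2 : (a • MonObj.one (X := R)) ▷ ((𝟙_ T)⟦k⟧) = a • MonObj.one (X := R) ▷ ((𝟙_ T)⟦k⟧) :=
    (tensorRight ((𝟙_ T)⟦k⟧)).map_zsmul (f := MonObj.one (X := R)) (r := a)
  rw [← cancel_epi (λ_ ((𝟙_ T)⟦k⟧)).hom, Preadditive.comp_zsmul, Preadditive.comp_zsmul, ← hz,
    ← h1, h, h2, FM.unit, Iso.hom_inv_id_assoc]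

end IsHQ

namespace GBasis

variable {Y : T} {N : ℕ} (B : GBasis R Y N)

/-- the index of the basis elements -/
abbrev J : Type := Σ k : Fin N, Fin (B.d k)

/-- the sphere of a basis element -/
noncomputable abbrev P (j : B.J) : T := (𝟙_ T)⟦((j.1 : ℕ) : ℤ)⟧

/-- the linear map out of the free module on the basis -/
noncomputable abbrev φ : R ⊗ (∐ B.P) ⟶ R ⊗ Y :=
  FM.bind (Sigma.desc fun j : B.J => B.g j.1 j.2)

theorem ι_φ (j : B.J) : FM.unit R (B.P j) ≫ R ◁ Sigma.ι B.P j ≫ B.φ = B.g j.1 j.2 := by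
  unfold φ FM.bind
  rw [← MonoidalCategory.whiskerLeft_comp_assoc, Sigma.ι_desc]
  exact FM.unit_bind _

theorem isIso_φ (hR : IsHQ R) : IsIso B.φ := by
  have key : ∀ (k : Fin N) (a : Fin (B.d k) → ℤ),
      (∑ i, a i • (FM.unit R ((𝟙_ T)⟦((k : ℕ) : ℤ)⟧) ≫ R ◁ Sigma.ι B.P ⟨k, i⟩)) ≫ B.φ =
        ∑ i, a i • B.g k i := by
    intro k a
    rw [Preadditive.sum_comp]
    refine Finset.sum_congr rfl fun i _ => ?_
    rw [Preadditive.zsmul_comp, Category.assoc]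
    exact congrArg (a i • ·) (B.ι_φ ⟨k, i⟩)
  have dec : ∀ (k : ℤ) (w : (𝟙_ T)⟦k⟧ ⟶ R ⊗ ∐ B.P),
      w = ∑ j, (w ≫ R ◁ S.sproj B.P j) ≫ R ◁ Sigma.ι B.P j := by
    intro k w
    have h1 : R ◁ (∑ j, S.sproj B.P j ≫ Sigma.ι B.P j) =
        ∑ j, R ◁ (S.sproj B.P j ≫ Sigma.ι B.P j) := map_sum (tensorLeft R).mapAddHom _ _
    rw [sum_sproj_ι, MonoidalCategory.whiskerLeft_id] at h1
    conv_lhs => rw [← Category.comp_id w, h1, Preadditive.comp_sum]
    refine Finset.sum_congr rfl fun j _ => ?_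
    rw [MonoidalCategory.whiskerLeft_comp, Category.assoc]
  refine isIso_of_bijective_hom (fun k => (𝟙_ T)⟦k⟧)
    (fun k k' h => ⟨((shiftFunctorAdd' T k 1 k' h).app (𝟙_ T)).symm⟩)
    (fun X hX => StableCat.generator X hX) _ ?_ ?_
  · intro k w hw
    by_cases hk : ∃ k' : Fin N, ((k' : ℕ) : ℤ) = k
    · obtain ⟨k', rfl⟩ := hk
      obtain ⟨m, a, hm, ha⟩ := exists_common (FM.unit R ((𝟙_ T)⟦((k' : ℕ) : ℤ)⟧))
        (fun i : Fin (B.d k') => (w ≫ R ◁ S.sproj B.P ⟨k', i⟩ :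
          (𝟙_ T)⟦((k' : ℕ) : ℤ)⟧ ⟶ R ⊗ (𝟙_ T)⟦((k' : ℕ) : ℤ)⟧)) (fun i => hR.sphere_eq _)
      have h1 : m • w =
          ∑ i, a i • (FM.unit R ((𝟙_ T)⟦((k' : ℕ) : ℤ)⟧) ≫ R ◁ Sigma.ι B.P ⟨k', i⟩) := by
        conv_lhs => rw [dec _ w]
        rw [Fintype.sum_sigma, Finset.sum_eq_single k']
        · rw [Finset.smul_sum]
          refine Finset.sum_congr rfl fun i _ => ?_
          rw [← Preadditive.zsmul_comp, ha, Preadditive.zsmul_comp]
        · intro l _ hl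
          refine Finset.sum_eq_zero fun i _ => ?_
          have h2 : (w ≫ R ◁ S.sproj B.P ⟨l, i⟩ :
              (𝟙_ T)⟦((k' : ℕ) : ℤ)⟧ ⟶ R ⊗ (𝟙_ T)⟦((l : ℕ) : ℤ)⟧) = 0 :=
            hR.sphere_ne (fun h => hl (Fin.ext (by exact_mod_cast h.symm))) _
          rw [h2, zero_comp]
        · intro h
          exact absurd (Finset.mem_univ _) h
      have h2 : ∑ i, a i • B.g k' i = 0 := by
        rw [← key, ← h1, Preadditive.zsmul_comp, hw, smul_zero]
      have h3 := B.indep k' k'.2 a h2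
      refine hR.torsionFree hm ?_
      rw [h1, h3]
      simp
    · rw [dec k w]
      refine Finset.sum_eq_zero fun j _ => ?_
      have h2 : (w ≫ R ◁ S.sproj B.P j : (𝟙_ T)⟦k⟧ ⟶ R ⊗ (𝟙_ T)⟦((j.1 : ℕ) : ℤ)⟧) = 0 :=
        hR.sphere_ne (fun h => hk ⟨j.1, h.symm⟩) _
      rw [h2, zero_comp]
  · intro k y
    by_cases hk : k < 0 ∨ (N : ℤ) ≤ k
    · exact ⟨0, by rw [zero_comp, B.van k hk y]⟩
    · push Not at hk
      obtain ⟨k', rfl⟩ : ∃ k' : ℕ, (k' : ℤ) = k := ⟨k.toNat, Int.toNat_of_nonneg hk.1⟩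
      have hk' : k' < N := by exact_mod_cast hk.2
      obtain ⟨m, a, hm, ha⟩ := B.span k' hk' y
      obtain ⟨x, hx⟩ := hR.divisible hm
        (∑ i, a i • (FM.unit R ((𝟙_ T)⟦(k' : ℤ)⟧) ≫ R ◁ Sigma.ι B.P ⟨⟨k', hk'⟩, i⟩))
      refine ⟨x, ?_⟩
      rw [← sub_eq_zero]
      refine hR.torsionFree hm ?_
      rw [smul_sub, ← Preadditive.zsmul_comp, hx, ha]
      exact sub_eq_zero.2 (key ⟨k', hk'⟩ a)

variable [IsCommMonObj R]

include B in
/-- **The trace of the identity is the alternating number of basis elements.** -/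
theorem tr_eq (hR : IsHQ R) (L : T) [ExactPairing L Y] {t : ℤ}
    (ht : trc L Y (𝟙 Y) = t • 𝟙 (𝟙_ T)) :
    t = ∑ k ∈ Finset.range N, (-1) ^ k * (B.d k : ℤ) := by
  have := B.isIso_φ hR
  obtain ⟨θ, hθ1, hθ2⟩ := exists_inverse (Sigma.desc fun j : B.J => B.g j.1 j.2)
  let G : (FM.free R).obj (∐ B.P) ⟶ (FM.free R).obj Y :=
    ⟨Sigma.desc fun j : B.J => B.g j.1 j.2⟩
  let H : (FM.free R).obj Y ⟶ (FM.free R).obj (∐ B.P) := ⟨θ⟩
  have hHG : H ≫ G = 𝟙 _ := FM.hom_ext hθ1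
  have hGH : G ≫ H = 𝟙 _ := FM.hom_ext hθ2
  choose hp hp' using fun n : ℕ => exists_pairing_sphere_tr (T := T) n
  let Q : B.J → FM R := fun j => (FM.free R).obj ((𝟙_ T)⟦-((j.1 : ℕ) : ℤ)⟧)
  let P' : B.J → FM R := fun j => (FM.free R).obj (B.P j)
  let i1 : ExactPairing ((FM.free R).obj L) ((FM.free R).obj Y) := freePairing R L Y inferInstance
  let i2 : ∀ j, ExactPairing (Q j) (P' j) := fun j => freePairing R _ _ (hp (j.1 : ℕ))
  let f : ∀ j, (FM.free R).obj Y ⟶ P' j := fun j => H ≫ (FM.free R).map (S.sproj B.P j)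
  let g : ∀ j, P' j ⟶ (FM.free R).obj Y := fun j => (FM.free R).map (Sigma.ι B.P j) ≫ G
  have e1 : ∑ j, f j ≫ g j = 𝟙 ((FM.free R).obj Y) := by
    have h1 : ∀ j, f j ≫ g j = H ≫ (FM.free R).map (S.sproj B.P j ≫ Sigma.ι B.P j) ≫ G := by
      intro j
      simp only [f, g, Category.assoc, Functor.map_comp]
    rw [Finset.sum_congr rfl fun j _ => h1 j, ← Preadditive.comp_sum, ← Preadditive.sum_comp,
      ← Functor.map_sum, sum_sproj_ι, CategoryTheory.Functor.map_id, Category.id_comp, hHG]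
  have e2 : ∀ j, g j ≫ f j = 𝟙 (P' j) := by
    intro j
    have h1 : g j ≫ f j = (FM.free R).map (Sigma.ι B.P j) ≫ (G ≫ H) ≫
        (FM.free R).map (S.sproj B.P j) := by
      simp only [f, g, Category.assoc]
    rw [h1, hGH, Category.id_comp, ← Functor.map_comp, S.ι_sproj_self,
      CategoryTheory.Functor.map_id]
  have e3 := tr_id_eq_sum ((FM.free R).obj L) ((FM.free R).obj Y) P' Q f g e1 e2
  have e4 : ∀ j : B.J, @trc (FM R) _ _ _ (Q j) (P' j) (i2 j) (𝟙 (P' j)) =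
      (FM.free R).map (((-1) ^ (j.1 : ℕ) : ℤ) • 𝟙 (𝟙_ T)) := by
    intro j
    rw [← hp' (j.1 : ℕ)]
    exact tr_free R _ _ (hp (j.1 : ℕ))
  have e5 : (FM.free R).map (t • 𝟙 (𝟙_ T)) =
      (FM.free R).map ((∑ j : B.J, ((-1) ^ (j.1 : ℕ) : ℤ)) • 𝟙 (𝟙_ T)) := by
    rw [Finset.sum_smul, Functor.map_sum, ← ht]
    refine (tr_free R L Y inferInstance).symm.trans (e3.trans ?_)
    exact Finset.sum_congr rfl fun j _ => e4 j
  have e6 : ∀ s : ℤ, (FM.free R).map (s • 𝟙 (𝟙_ T)) = 0 → s = 0 := by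
    intro s hs
    have h1 := congrArg FM.Hom.hom hs
    change (s • 𝟙 (𝟙_ T)) ≫ FM.unit R (𝟙_ T) = 0 at h1
    rw [Preadditive.zsmul_comp, Category.id_comp, FM.unit, ← Preadditive.comp_zsmul] at h1
    by_contra hs0
    apply hR.ne
    have h2 : s • (MonObj.one (X := R) ▷ 𝟙_ T) = 0 := by
      rw [← cancel_epi (λ_ (𝟙_ T)).inv, h1, comp_zero]
    have h3 : MonObj.one (X := R) ▷ 𝟙_ T = 0 := hR.torsionFree hs0 h2
    rw [← cancel_epi (ρ_ (𝟙_ T)).hom, ← rightUnitor_naturality, h3, zero_comp, comp_zero]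
  have e7 : t = ∑ j : B.J, ((-1) ^ (j.1 : ℕ) : ℤ) := by
    rw [← sub_eq_zero]
    apply e6
    rw [sub_smul, Functor.map_sub, e5, sub_self]
  rw [e7, Fintype.sum_sigma, ← Fin.sum_univ_eq_sum_range (fun k => (-1) ^ k * (B.d k : ℤ)) N]
  refine Finset.sum_congr rfl fun k _ => ?_
  change ∑ _y : Fin (B.d k), ((-1) ^ (k : ℕ) : ℤ) = _
  rw [Finset.sum_const, Finset.card_univ, Fintype.card_fin, nsmul_eq_mul, mul_comm]

end GBasis

end stable

end Vale.Agent.P093.N2
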