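import Vale.Agent.P251.X.HQ
import Vale.Agent.P251.M.SpaceConn
import Vale.Agent.P251.I.CofTriangle
import Vale.Agent.P093.N2.ChiBasis
import Vale.Agent.P093.N2.HasChi
import Mathlib.Algebra.Module.Rat

/-!
# P093, part N2 (block 2E, piece (C)): the homological Euler characteristic

`K` is the rational Eilenberg-Mac Lane ring of `X.exists_HQ` (`IsHQ` of `ChiBasis`, used as the
instance `Fact (IsHQ K)`). The groups
`Hq K n Y = Hom(𝟙⟦n⟧, K ⊗ Y)` are rational vector spaces. `HasEuler K Y N m`: they are finite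
dimensional, zero outside `0 ≤ n ≤ N`, and `m = ∑_{n ≤ N} (-1)^n dim Hq K n Y`.

* `HasEuler.ext` : additivity for distinguished triangles;
* `HasChi.exists_hasEuler` : `HasChi X m` implies `HasEuler K (S X) N m` for some `N`.
-/

open CategoryTheory MonoidalCategory Limits Pretriangulated
open Vale.Agent.P251 Vale.Agent.P251.T Vale.Agent.P251.I Vale.Agent.P251.G
  Vale.Agent.P251.G.LC Module

universe v u

set_option linter.unusedSectionVars false

namespace Vale.Agent.P093.N2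

/-! ### Rational vector spaces -/

section Rat

variable {G : Type*} [AddCommGroup G] (h : ∀ m : ℤ, m ≠ 0 → Function.Bijective fun g : G => m • g)

include h in
theorem zsmul_cancel {m : ℤ} (hm : m ≠ 0) {x y : G} (e : m • x = m • y) : x = y := (h m hm).1 e

/-- `q • g`, characterized by `q.den • (q • g) = q.num • g` -/
noncomputable def ratSMul (q : ℚ) (g : G) : G :=
  Function.surjInv (h q.den (by exact_mod_cast q.den_nz)).2 (q.num • g)

theorem den_ratSMul (q : ℚ) (g : G) : (q.den : ℤ) • ratSMul h q g = q.num • g :=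
  Function.surjInv_eq (h q.den (by exact_mod_cast q.den_nz)).2 (q.num • g)

theorem smul_ratSMul {q : ℚ} {a b : ℤ} (e : q * b = a) (g : G) :
    b • ratSMul h q g = a • g := by
  have hd : (q.den : ℤ) ≠ 0 := by exact_mod_cast q.den_nz
  refine zsmul_cancel h hd ?_
  rw [smul_comm, den_ratSMul, smul_smul, smul_smul]
  congr 1
  have h1 : (q.num : ℚ) = q * q.den := by rw [Rat.mul_den_eq_num]
  have h2 : ((b * q.num : ℤ) : ℚ) = ((q.den * a : ℤ) : ℚ) := by
    push_cast
    rw [h1, ← e]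
    ring
  exact_mod_cast h2

theorem eq_ratSMul {q : ℚ} {a b : ℤ} (hb : b ≠ 0) (e : q * b = a) {g x : G} (hx : b • x = a • g) :
    x = ratSMul h q g :=
  zsmul_cancel h hb (hx.trans (smul_ratSMul h e g).symm)

/-- The rational vector space structure of a uniquely divisible group. -/
noncomputable abbrev ratModule : Module ℚ G where
  smul := ratSMul h
  one_smul g := (eq_ratSMul h (q := 1) (a := 1) (b := 1) one_ne_zero (by norm_num) rfl).symm
  mul_smul q r g := by
    have hq : (q.den : ℤ) ≠ 0 := by exact_mod_cast q.den_nz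
    have hr : (r.den : ℤ) ≠ 0 := by exact_mod_cast r.den_nz
    refine (eq_ratSMul h (q := q * r) (a := q.num * r.num) (b := q.den * r.den)
      (mul_ne_zero hq hr) ?_ ?_).symm
    · have h1 : (q.num : ℚ) = q * q.den := by rw [Rat.mul_den_eq_num]
      have h2 : (r.num : ℚ) = r * r.den := by rw [Rat.mul_den_eq_num]
      push_cast
      rw [h1, h2]
      ring
    · change (_ * _ : ℤ) • ratSMul h q (ratSMul h r g) = _
      rw [mul_comm (q.den : ℤ), ← smul_smul, den_ratSMul, smul_comm, den_ratSMul, smul_smul]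
  smul_zero q := (eq_ratSMul h (a := q.num) (b := q.den) (by exact_mod_cast q.den_nz)
    (by rw [Int.cast_natCast, Rat.mul_den_eq_num]) (by simp)).symm
  smul_add q g g' := by
    refine (eq_ratSMul h (a := q.num) (b := q.den) (by exact_mod_cast q.den_nz)
      (by rw [Int.cast_natCast, Rat.mul_den_eq_num]) ?_).symm
    change (q.den : ℤ) • (ratSMul h q g + ratSMul h q g') = _
    rw [smul_add, smul_add, den_ratSMul, den_ratSMul]
  add_smul q r g := by
    have hq : (q.den : ℤ) ≠ 0 := by exact_mod_cast q.den_nz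
    have hr : (r.den : ℤ) ≠ 0 := by exact_mod_cast r.den_nz
    refine (eq_ratSMul h (q := q + r) (a := q.num * r.den + r.num * q.den) (b := q.den * r.den)
      (mul_ne_zero hq hr) ?_ ?_).symm
    · have h1 : (q.num : ℚ) = q * q.den := by rw [Rat.mul_den_eq_num]
      have h2 : (r.num : ℚ) = r * r.den := by rw [Rat.mul_den_eq_num]
      push_cast
      rw [h1, h2]
      ring
    · change (_ * _ : ℤ) • (ratSMul h q g + ratSMul h r g) = _
      rw [smul_add, add_smul, mul_comm (q.den : ℤ), ← smul_smul, den_ratSMul, smul_smul,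
        mul_comm (r.den : ℤ) (q.num), mul_comm (r.den : ℤ) (q.den : ℤ), ← smul_smul (q.den : ℤ),
        den_ratSMul, smul_smul, mul_comm (q.den : ℤ)]
  zero_smul g := (eq_ratSMul h (q := 0) (a := 0) (b := 1) one_ne_zero (by norm_num)
    (by simp)).symm

end Rat

/-! ### Exact sequences of finite dimensional vector spaces -/

section Exact

variable {V₁ V₂ V₃ : Type*} [AddCommGroup V₁] [AddCommGroup V₂] [AddCommGroup V₃]
  [Module ℚ V₁] [Module ℚ V₂] [Module ℚ V₃] {f : V₁ →ₗ[ℚ] V₂} {g : V₂ →ₗ[ℚ] V₃}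

theorem finrank_mid (h : LinearMap.ker g = LinearMap.range f) [FiniteDimensional ℚ V₂] :
    finrank ℚ V₂ = finrank ℚ (LinearMap.range f) + finrank ℚ (LinearMap.range g) := by
  rw [← h, add_comm, LinearMap.finrank_range_add_finrank_ker]

theorem finite_mid (h : LinearMap.ker g = LinearMap.range f) [FiniteDimensional ℚ V₁]
    [FiniteDimensional ℚ V₃] : FiniteDimensional ℚ V₂ := by
  have h1 : Module.Finite ℚ (LinearMap.ker g) := by rw [h]; infer_instance
  have h2 : Module.Finite ℚ (LinearMap.range g) := inferInstance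
  have h3 : Module.Finite ℚ (V₂ ⧸ LinearMap.ker g) :=
    Module.Finite.equiv g.quotKerEquivRange.symm
  exact Module.Finite.of_submodule_quotient (LinearMap.ker g)

end Exact

/-- the alternating sum of `c n + c (n + 1)` telescopes -/
theorem telescope (c : ℕ → ℤ) (N : ℕ) : ∑ n ∈ Finset.range (N + 1), (-1) ^ n * (c n + c (n + 1)) =
    c 0 + (-1) ^ N * c (N + 1) := by
  induction N with
  | zero => simp
  | succ N ih =>
    rw [Finset.sum_range_succ, ih, pow_succ]
    ring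

/-! ### Rational objects -/

section Rational

variable {C : Type u} [Category.{v} C] [Preadditive C]

/-- multiplication by nonzero integers is invertible on `X` -/
class RatObj (X : C) : Prop where
  out : ∀ m : ℤ, m ≠ 0 → IsIso (m • 𝟙 X)

theorem RatObj.bijective (W X : C) [RatObj X] (m : ℤ) (hm : m ≠ 0) :
    Function.Bijective fun g : W ⟶ X => m • g := by
  have := RatObj.out (X := X) m hm
  have h : (fun g : W ⟶ X => m • g) = fun g => g ≫ (m • 𝟙 X) := by
    funext g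
    rw [Preadditive.comp_zsmul, Category.comp_id]
  rw [h]
  refine ⟨fun a b e => (cancel_mono _).1 e, fun g => ⟨g ≫ inv (m • 𝟙 X), ?_⟩⟩
  dsimp only
  rw [Category.assoc, IsIso.inv_hom_id, Category.comp_id]

/-- morphisms to a rational object are a rational vector space -/
noncomputable instance ratHom (W X : C) [RatObj X] : Module ℚ (W ⟶ X) :=
  ratModule (RatObj.bijective W X)

theorem RatObj.of_iso {X Y : C} (e : X ≅ Y) [RatObj X] : RatObj Y where
  out m hm := by
    have := RatObj.out (X := X) m hm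
    have h : m • 𝟙 Y = e.inv ≫ (m • 𝟙 X) ≫ e.hom := by
      rw [Preadditive.zsmul_comp, Category.id_comp, Preadditive.comp_zsmul, e.inv_hom_id]
    rw [h]
    infer_instance

/-- composition with `f`, as a linear map -/
noncomputable def postQ (W : C) {X Y : C} [RatObj X] [RatObj Y] (f : X ⟶ Y) :
    (W ⟶ X) →ₗ[ℚ] (W ⟶ Y) :=
  AddMonoidHom.toRatLinearMap
    { toFun := fun x => x ≫ f
      map_zero' := zero_comp
      map_add' := fun _ _ => Preadditive.add_comp _ _ _ _ _ _ }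

@[simp] theorem postQ_apply (W : C) {X Y : C} [RatObj X] [RatObj Y] (f : X ⟶ Y) (x : W ⟶ X) :
    postQ W f x = x ≫ f := rfl

/-- composition with an isomorphism, as a linear equivalence -/
noncomputable def postIso (W : C) {X Y : C} [RatObj X] [RatObj Y] (e : X ≅ Y) :
    (W ⟶ X) ≃ₗ[ℚ] (W ⟶ Y) :=
  { postQ W e.hom with
    invFun := fun x => x ≫ e.inv
    left_inv := fun x => by simp
    right_inv := fun x => by simp }

/-- precomposition with an isomorphism, as a linear equivalence -/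
noncomputable def preIso {W W' : C} (a : W' ≅ W) (X : C) [RatObj X] :
    (W ⟶ X) ≃ₗ[ℚ] (W' ⟶ X) :=
  { AddMonoidHom.toRatLinearMap
      { toFun := fun x : W ⟶ X => a.hom ≫ x
        map_zero' := comp_zero
        map_add' := fun _ _ => Preadditive.comp_add _ _ _ _ _ _ } with
    invFun := fun x => a.inv ≫ x
    left_inv := fun x => by simp
    right_inv := fun x => by simp }

@[simp] theorem preIso_apply {W W' : C} (a : W' ≅ W) (X : C) [RatObj X] (x : W ⟶ X) :
    preIso a X x = a.hom ≫ x := rfl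

variable [HasShift C ℤ] [∀ n : ℤ, (shiftFunctor C n).Additive]

instance RatObj.shift (X : C) [RatObj X] (n : ℤ) : RatObj (X⟦n⟧) where
  out m hm := by
    have := RatObj.out (X := X) m hm
    have h : m • 𝟙 (X⟦n⟧) = (m • 𝟙 X)⟦n⟧' := by
      rw [Functor.map_zsmul, CategoryTheory.Functor.map_id]
    rw [h]
    infer_instance

/-- the shift, as a linear equivalence -/
noncomputable def shiftQ (n : ℤ) {W W' : C} (a : W' ≅ W⟦n⟧) (X : C) [RatObj X] :
    (W ⟶ X) ≃ₗ[ℚ] (W' ⟶ X⟦n⟧) :=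
  (LinearEquiv.ofBijective
    (AddMonoidHom.toRatLinearMap ((shiftFunctor C n).mapAddHom : (W ⟶ X) →+ (W⟦n⟧ ⟶ X⟦n⟧)))
    ⟨(shiftFunctor C n).map_injective, (shiftFunctor C n).map_surjective⟩).trans
    (preIso a (X⟦n⟧))

@[simp] theorem shiftQ_apply (n : ℤ) {W W' : C} (a : W' ≅ W⟦n⟧) (X : C) [RatObj X] (x : W ⟶ X) :
    shiftQ n a X x = a.hom ≫ x⟦n⟧' := rfl

theorem finrank_range_shift (n : ℤ) {W W' : C} (a : W' ≅ W⟦n⟧) {X Y : C} [RatObj X] [RatObj Y]
    (f : X ⟶ Y) : finrank ℚ (LinearMap.range (postQ W' (f⟦n⟧'))) =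
      finrank ℚ (LinearMap.range (postQ W f)) := by
  have h : LinearMap.range (postQ W' (f⟦n⟧')) =
      (LinearMap.range (postQ W f)).map (shiftQ n a Y : (W ⟶ Y) →ₗ[ℚ] (W' ⟶ Y⟦n⟧)) := by
    ext y
    constructor
    · rintro ⟨x, rfl⟩
      obtain ⟨x', rfl⟩ := (shiftQ n a X).surjective x
      exact ⟨_, ⟨x', rfl⟩, by simp⟩
    · rintro ⟨_, ⟨x, rfl⟩, rfl⟩
      exact ⟨shiftQ n a X x, by simp⟩
  rw [h]
  exact LinearEquiv.finrank_map_eq _ _

end Rational

/-! ### The Euler characteristic of an object -/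

section Tri

variable {C : Type u} [Category.{v} C] [Preadditive C] [HasZeroObject C]
    [HasShift C ℤ] [∀ n : ℤ, (shiftFunctor C n).Additive] [Pretriangulated C]

variable {X Y Z : C} {f : X ⟶ Y} {g : Y ⟶ Z} {h : Z ⟶ X⟦(1 : ℤ)⟧}

theorem ker_eq₂ (D : Triangle.mk f g h ∈ distTriang C) (W : C) [RatObj X] [RatObj Y] [RatObj Z] :
    LinearMap.ker (postQ W g) = LinearMap.range (postQ W f) := by
  ext x
  constructor
  · intro hx
    obtain ⟨y, hy⟩ := Triangle.coyoneda_exact₂ _ D x hx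
    exact ⟨y, hy.symm⟩
  · rintro ⟨y, rfl⟩
    have h0 : f ≫ g = 0 := comp_distTriang_mor_zero₁₂ _ D
    change (y ≫ f) ≫ g = 0
    rw [Category.assoc, h0, comp_zero]

theorem ker_eq₃ (D : Triangle.mk f g h ∈ distTriang C) (W : C) [RatObj X] [RatObj Y] [RatObj Z] :
    LinearMap.ker (postQ W h) = LinearMap.range (postQ W g) := by
  ext x
  constructor
  · intro hx
    obtain ⟨y, hy⟩ := Triangle.coyoneda_exact₃ _ D x hx
    exact ⟨y, hy.symm⟩
  · rintro ⟨y, rfl⟩
    have h0 : g ≫ h = 0 := comp_distTriang_mor_zero₂₃ _ D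
    change (y ≫ g) ≫ h = 0
    rw [Category.assoc, h0, comp_zero]

theorem ker_eq₁ (D : Triangle.mk f g h ∈ distTriang C) (W : C) [RatObj X] [RatObj Y] [RatObj Z] :
    LinearMap.ker (postQ W (f⟦(1 : ℤ)⟧')) = LinearMap.range (postQ W h) := by
  ext x
  constructor
  · intro hx
    obtain ⟨y, hy⟩ := Triangle.coyoneda_exact₁ _ D x hx
    exact ⟨y, hy.symm⟩
  · rintro ⟨y, rfl⟩
    have h0 : h ≫ f⟦(1 : ℤ)⟧' = 0 := comp_distTriang_mor_zero₃₁ _ D
    change (y ≫ h) ≫ f⟦(1 : ℤ)⟧' = 0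
    rw [Category.assoc, h0, comp_zero]

/-- `S n` is a sequence of spheres: `S (n + 1) ≅ (S n)⟦1⟧` -/
def IsSph (S : ℤ → C) : Prop := ∀ n, Nonempty (S (n + 1) ≅ (S n)⟦(1 : ℤ)⟧)

/-- The groups `Hom(S n, X)` are finite dimensional, zero outside `0 ≤ n ≤ N`, and the alternating
sum of their dimensions is `m`. -/
structure EulerOf (S : ℤ → C) (X : C) [RatObj X] (N : ℕ) (m : ℤ) : Prop where
  fin : ∀ n, FiniteDimensional ℚ (S n ⟶ X)
  neg : ∀ n, n < 0 → ∀ x : S n ⟶ X, x = 0
  big : ∀ n, (N : ℤ) < n → ∀ x : S n ⟶ X, x = 0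
  sum : m = ∑ n ∈ Finset.range (N + 1), (-1) ^ n * (finrank ℚ (S n ⟶ X) : ℤ)

namespace EulerOf

variable {S : ℤ → C} {N N' : ℕ} {m m' : ℤ}

theorem finrank_eq_zero [RatObj X] {n : ℤ} (hx : ∀ x : S n ⟶ X, x = 0) :
    finrank ℚ (S n ⟶ X) = 0 := by
  have : Subsingleton (S n ⟶ X) := ⟨fun x y => (hx x).trans (hx y).symm⟩
  exact finrank_zero_of_subsingleton

theorem mono [RatObj X] (e : EulerOf S X N m) (h : N ≤ N') : EulerOf S X N' m where
  fin := e.fin
  neg := e.neg
  big n hn := e.big n (by omega)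
  sum := by
    rw [e.sum]
    refine Finset.sum_subset (Finset.range_subset_range.2 (by omega)) fun n _ hn => ?_
    rw [finrank_eq_zero (e.big n (by
      rw [Finset.mem_range] at hn
      push Not at hn
      omega))]
    simp

theorem of_iso [RatObj X] [RatObj Y] (e : EulerOf S X N m) (i : X ≅ Y) : EulerOf S Y N m where
  fin n := by
    have := e.fin n
    exact Module.Finite.equiv (postIso (S n) i)
  neg n hn x := by
    have h1 := e.neg n hn (x ≫ i.inv)
    rw [← cancel_mono i.inv, h1, zero_comp]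
  big n hn x := by
    have h1 := e.big n hn (x ≫ i.inv)
    rw [← cancel_mono i.inv, h1, zero_comp]
  sum := by
    rw [e.sum]
    refine Finset.sum_congr rfl fun n _ => ?_
    rw [(postIso (S n) i).finrank_eq]

theorem of_isZero [RatObj X] (h : IsZero X) : EulerOf S X N 0 := by
  have h0 : ∀ n, ∀ x : S n ⟶ X, x = 0 := fun n x => h.eq_of_tgt _ _
  refine ⟨fun n => ?_, fun n _ => h0 n, fun n _ => h0 n, ?_⟩
  · have : Subsingleton (S n ⟶ X) := ⟨fun x y => (h0 n x).trans (h0 n y).symm⟩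
    infer_instance
  · rw [Finset.sum_eq_zero]
    intro n _
    rw [finrank_eq_zero (h0 n)]
    simp

/-- additivity -/
theorem ext [RatObj X] [RatObj Y] [RatObj Z] (hS : IsSph S) (D : Triangle.mk f g h ∈ distTriang C)
    (e : EulerOf S X N m) (e' : EulerOf S Z N m') : EulerOf S Y N (m + m') := by
  have hfin : ∀ n, FiniteDimensional ℚ (S n ⟶ Y) := fun n => by
    have h1 := e.fin n
    have h2 := e'.fin n
    exact finite_mid (ker_eq₂ D (S n))
  have hz : ∀ n, (∀ x : S n ⟶ X, x = 0) → (∀ x : S n ⟶ Z, x = 0) → ∀ x : S n ⟶ Y, x = 0 := by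
    intro n h1 h2 x
    obtain ⟨y, hy⟩ : ∃ y : S n ⟶ X, x = y ≫ f := Triangle.coyoneda_exact₂ _ D x (h2 _)
    rw [hy, h1 y, zero_comp]
  refine ⟨hfin, fun n hn => hz n (e.neg n hn) (e'.neg n hn),
    fun n hn => hz n (e.big n hn) (e'.big n hn), ?_⟩
  -- the ranks
  let α : ℤ → ℤ := fun n => finrank ℚ (LinearMap.range (postQ (S n) f))
  let β : ℤ → ℤ := fun n => finrank ℚ (LinearMap.range (postQ (S n) g))
  let γ : ℤ → ℤ := fun n => finrank ℚ (LinearMap.range (postQ (S n) h))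
  have hY : ∀ n, (finrank ℚ (S n ⟶ Y) : ℤ) = α n + β n := fun n => by
    have := hfin n
    have h1 := finrank_mid (ker_eq₂ D (S n))
    simp only [α, β]
    exact_mod_cast h1
  have hZ : ∀ n, (finrank ℚ (S n ⟶ Z) : ℤ) = β n + γ n := fun n => by
    have := e'.fin n
    have h1 := finrank_mid (ker_eq₃ D (S n))
    simp only [β, γ]
    exact_mod_cast h1
  have hX : ∀ n, (finrank ℚ (S n ⟶ X) : ℤ) = γ (n + 1) + α n := fun n => by
    obtain ⟨a⟩ := hS n
    have h0 := e.fin n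
    have h1 : FiniteDimensional ℚ (S (n + 1) ⟶ X⟦(1 : ℤ)⟧) :=
      Module.Finite.equiv (shiftQ 1 a X)
    have h2 := finrank_mid (ker_eq₁ D (S (n + 1)))
    rw [finrank_range_shift 1 a f, ← (shiftQ 1 a X).finrank_eq] at h2
    simp only [γ, α]
    exact_mod_cast h2
  have hγ0 : γ 0 = 0 := by
    have h1 : LinearMap.range (postQ (S 0) h) = ⊥ := by
      rw [← ker_eq₁ D, LinearMap.ker_eq_bot']
      intro x _
      obtain ⟨a⟩ := hS (-1)
      obtain ⟨y, hy⟩ := (shiftQ 1 ((eqToIso (congrArg S (by norm_num : (0 : ℤ) = -1 + 1))) ≪≫ a)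
        X).surjective x
      rw [← hy, e.neg (-1) (by norm_num) y, map_zero]
    change ((finrank ℚ (LinearMap.range (postQ (S 0) h)) : ℕ) : ℤ) = 0
    rw [h1, finrank_bot, Nat.cast_zero]
  have hγN : γ ((N : ℤ) + 1) = 0 := by
    have h1 : LinearMap.range (postQ (S ((N : ℤ) + 1)) h) = ⊥ := by
      rw [LinearMap.range_eq_bot]
      ext x
      rw [e'.big _ (by omega) x, map_zero, map_zero]
    change ((finrank ℚ (LinearMap.range (postQ (S ((N : ℤ) + 1)) h)) : ℕ) : ℤ) = 0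
    rw [h1, finrank_bot, Nat.cast_zero]
  have hc := telescope (fun n => γ n) N
  rw [Nat.cast_zero, hγ0, Nat.cast_add, Nat.cast_one, hγN, mul_zero, add_zero] at hc
  rw [e.sum, e'.sum, ← Finset.sum_add_distrib]
  rw [← sub_eq_zero, ← Finset.sum_sub_distrib]
  refine Eq.trans (Finset.sum_congr rfl fun n _ => ?_) hc
  rw [hX, hY, hZ]
  push_cast
  ring

end EulerOf

end Tri

/-! ### Rational homology -/

section HQ

variable {T : Type u} [Category.{v} T] [Preadditive T] [HasZeroObject T]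
    [HasShift T ℤ] [∀ n : ℤ, (shiftFunctor T n).Additive] [Pretriangulated T] [IsTriangulated T]
    [MonoidalCategory T] [SymmetricCategory T] [TensorTriangulated T] [MonoidalClosed T]
    [HasCoproducts.{0} T] [HasProducts.{0} T] [StableCat T]

theorem exists_isHQ [LocallySmall.{0} T] (F : SpaceFunctor T) :
    ∃ (K : T) (_ : MonObj K) (_ : IsCommMonObj K), IsHQ K := by
  obtain ⟨K, i1, i2, h0, h1, h2, h3⟩ := X.exists_HQ F
  exact ⟨K, i1, i2, ⟨h0, h1, h2, h3⟩⟩

variable (K : T) [MonObj K] [hK : Fact (IsHQ K)]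

instance ratObj_HQ : RatObj K where
  out _ hm := X.isIso_zsmul hK.out.conc (hK.out.div _ hm)

instance ratObj_tensor (K Y : T) [RatObj K] : RatObj (K ⊗ Y) where
  out m hm := by
    have := RatObj.out (X := K) m hm
    have h : m • 𝟙 (K ⊗ Y) = (m • 𝟙 K) ▷ Y := by
      have h1 : (m • 𝟙 K) ▷ Y = m • (𝟙 K ▷ Y) :=
        ((MonoidalCategory.tensorRight Y).mapAddHom (X := K) (Y := K)).map_zsmul m (𝟙 K)
      rw [h1, id_whiskerRight]
    rw [h]
    infer_instance

/-- rational homology: `Hq K n Y = Hom(𝟙⟦n⟧, K ⊗ Y)` -/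
abbrev Hq (n : ℤ) (Y : T) : Type v := (𝟙_ T)⟦n⟧ ⟶ K ⊗ Y

/-- `Y` has finite rational homology in degrees `0 ≤ n ≤ N`, with Euler characteristic `m`. -/
def HasEuler (Y : T) (N : ℕ) (m : ℤ) : Prop := EulerOf (fun n : ℤ => (𝟙_ T)⟦n⟧) (K ⊗ Y) N m

theorem isSph_unit : IsSph (fun n : ℤ => (𝟙_ T)⟦n⟧) := fun n =>
  ⟨(shiftFunctorAdd T n 1).app (𝟙_ T)⟩

variable {K} {Y Z W : T} {N N' : ℕ} {m m' : ℤ}

namespace HasEuler

theorem finite (h : HasEuler K Y N m) (n : ℤ) : FiniteDimensional ℚ (Hq K n Y) := h.fin n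

theorem eq_zero (h : HasEuler K Y N m) {n : ℤ} (hn : n < 0 ∨ (N : ℤ) < n) (x : Hq K n Y) :
    x = 0 := hn.elim (fun hn => h.neg n hn x) fun hn => h.big n hn x

theorem eq_sum (h : HasEuler K Y N m) :
    m = ∑ n ∈ Finset.range (N + 1), (-1) ^ n * (finrank ℚ (Hq K n Y) : ℤ) := h.sum

theorem mono (h : HasEuler K Y N m) (hN : N ≤ N') : HasEuler K Y N' m := EulerOf.mono h hN

theorem of_iso (h : HasEuler K Y N m) (e : Y ≅ Z) : HasEuler K Z N m :=
  EulerOf.of_iso h (whiskerLeftIso K e)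

theorem of_isZero (h : IsZero Y) : HasEuler K Y N 0 := by
  refine EulerOf.of_isZero ?_
  rw [IsZero.iff_id_eq_zero] at h ⊢
  rw [← MonoidalCategory.whiskerLeft_id, h]
  exact MonoidalPreadditive.whiskerLeft_zero

/-- additivity for distinguished triangles -/
theorem ext {f : Y ⟶ Z} {g : Z ⟶ W} {h : W ⟶ Y⟦(1 : ℤ)⟧} (D : Triangle.mk f g h ∈ distTriang T)
    (e : HasEuler K Y N m) (e' : HasEuler K W N' m') : HasEuler K Z (max N N') (m + m') :=
  EulerOf.ext isSph_unit (TensorTriangulated.distinguished K _ D)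
    (EulerOf.mono e (le_max_left _ _)) (EulerOf.mono e' (le_max_right _ _))

end HasEuler

theorem finrank_unit : finrank ℚ (𝟙_ T ⟶ K) = 1 := by
  rw [finrank_eq_one_iff']
  refine ⟨MonObj.one (X := K), hK.out.ne, fun f => ?_⟩
  obtain ⟨a, m, hm, e⟩ := hK.out.gen f
  refine ⟨(a : ℚ) / m, ?_⟩
  refine (eq_ratSMul (RatObj.bijective (𝟙_ T) K) (q := (a : ℚ) / m) (a := a) (b := m) hm ?_ e).symm
  have : (m : ℚ) ≠ 0 := by exact_mod_cast hm
  field_simp

/-- the spheres -/
theorem HasEuler.sphere (k : ℕ) : HasEuler K ((𝟙_ T)⟦(k : ℤ)⟧) k ((-1) ^ k) := by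
  have e0 : K ⊗ ((𝟙_ T)⟦(k : ℤ)⟧) ≅ K⟦(k : ℤ)⟧ := M.tensorUnitShiftIso K k
  refine EulerOf.of_iso (X := K⟦(k : ℤ)⟧) ?_ e0.symm
  -- `Hom(𝟙⟦n⟧, K⟦k⟧) ≅ Hom(𝟙⟦n - k⟧, K)`
  have a : ∀ n : ℤ, (𝟙_ T)⟦n⟧ ≅ ((𝟙_ T)⟦n - k⟧)⟦(k : ℤ)⟧ := fun n =>
    (shiftFunctorAdd' T (n - k) k n (by ring)).app (𝟙_ T)
  have h0 : ∀ n : ℤ, n ≠ k → ∀ x : (𝟙_ T)⟦n⟧ ⟶ K⟦(k : ℤ)⟧, x = 0 := by
    intro n hn x
    obtain ⟨y, rfl⟩ := (shiftQ (k : ℤ) (a n) K).surjective x
    rw [hK.out.conc (n - k) (by omega) y, map_zero]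
  have h1 : finrank ℚ ((𝟙_ T)⟦(k : ℤ)⟧ ⟶ K⟦(k : ℤ)⟧) = 1 := by
    rw [← (shiftQ (k : ℤ) (Iso.refl ((𝟙_ T)⟦(k : ℤ)⟧)) K).finrank_eq, finrank_unit]
  have hs : ∀ n : ℤ, n ≠ k → Subsingleton ((𝟙_ T)⟦n⟧ ⟶ K⟦(k : ℤ)⟧) := fun n hn =>
    ⟨fun x y => (h0 n hn x).trans (h0 n hn y).symm⟩
  refine ⟨fun n => ?_, fun n hn => h0 n (by omega), fun n hn => h0 n (by omega), ?_⟩
  · by_cases hn : n = k
    · subst hn
      exact FiniteDimensional.of_finrank_pos (by rw [h1]; exact one_pos)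
    · have := hs n hn
      infer_instance
  · rw [Finset.sum_eq_single k]
    · rw [h1, Nat.cast_one, mul_one]
    · intro n _ hn
      have := hs n (by exact_mod_cast hn)
      rw [finrank_zero_of_subsingleton]
      simp
    · intro hn
      exact absurd (Finset.mem_range.2 (Nat.lt_succ_self k)) hn

variable (K) in
/-- **The homological Euler characteristic**: the rational homology of the suspension spectrum of a
finite cell space `X` is finite dimensional, concentrated in degrees `0 ≤ n ≤ N`, and the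
alternating sum of the dimensions is the Euler characteristic of `X`. -/
theorem HasChi.exists_hasEuler (F : SpaceFunctor T) {X : LC} {m : ℤ} (h : HasChi X m) :
    ∃ N, HasEuler K (F.S.obj ⟨X, h.fc⟩) N m := by
  induction h with
  | empty =>
    exact ⟨0, HasEuler.of_isZero (F.isZero (inferInstanceAs (IsEmpty Empty)))⟩
  | sph n => exact ⟨n, (HasEuler.sphere n).of_iso (M.sphIso F n).symm⟩
  | @hequiv X Y m hX h ih =>
    obtain ⟨N, hN⟩ := ih
    obtain ⟨f, g, h1, h2⟩ := h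
    let X' : FCat := ⟨X, hX.fc⟩
    let Y' : FCat := ⟨Y, (hX.hequiv ⟨f, g, h1, h2⟩).fc⟩
    have := F.isIso_map (FCat.hom f : X' ⟶ Y') ⟨g, h1, h2⟩
    exact ⟨N, hN.of_iso (asIso (F.S.map (FCat.hom f : X' ⟶ Y')))⟩
  | @ext A B i a c hi hA hC ihA ihC =>
    obtain ⟨N, hN⟩ := ihA
    obtain ⟨N', hN'⟩ := ihC
    let A' : FCat := ⟨A, hA.fc⟩
    let B' : FCat := ⟨B, (HasChi.ext hi hA hC).fc⟩
    have D := F.cof_distinguished (FCat.hom i : A' ⟶ B') hi
    exact ⟨max N N', HasEuler.ext D hN hN'⟩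

end HQ

end Vale.Agent.P093.N2
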