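import Vale.Agent.P093.N2.ChiConv
import Vale.Agent.P093.N2.ChiHom

/-!
# P093, N2, block 2E: tensoring with a finite cell space of Euler characteristic `m`

`tr_eq_chi`: the trace of the identity of `S X` is the Euler characteristic of `X`.
`zsmul_eq_zero`: if `y ⊗ S X = 0` and `X` has Euler characteristic `m`, then `m y = 0`.
-/

open CategoryTheory MonoidalCategory Limits Pretriangulated MonObj

universe v u

set_option linter.unusedSectionVars false

namespace Vale.Agent.P093.N2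

open Vale.Agent.P251 Vale.Agent.P251.M Vale.Agent.P251.T Vale.Agent.P251.G Vale.Agent.P251.I

variable {T : Type u} [Category.{v} T] [Preadditive T] [HasZeroObject T]
    [HasShift T ℤ] [∀ n : ℤ, (shiftFunctor T n).Additive] [Pretriangulated T] [IsTriangulated T]
    [MonoidalCategory T] [SymmetricCategory T] [TensorTriangulated T] [MonoidalClosed T]
    [HasCoproducts.{0} T] [HasProducts.{0} T] [StableCat T]

/-- The homological Euler characteristic in terms of a basis of the rational homology. -/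
theorem HasEuler.exists_gBasis {R : T} [MonObj R] [Fact (IsHQ R)] {Y : T} {N : ℕ} {m : ℤ}
    (h : HasEuler R Y N m) :
    ∃ B : GBasis R Y (N + 1), m = ∑ k ∈ Finset.range (N + 1), (-1) ^ k * (B.d k : ℤ) := by
  have h1 : ∀ k : ℕ, FiniteDimensional ℚ ((𝟙_ T)⟦(k : ℤ)⟧ ⟶ R ⊗ Y) := fun k => h.finite k
  obtain ⟨B, hB⟩ := GBasis.exists_of_rat (R := R) Y (N + 1) (fun k hk x =>
    h.eq_zero (hk.imp id (fun hk => by push_cast at hk; omega)) x)
  refine ⟨B, ?_⟩
  rw [h.eq_sum]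
  refine Finset.sum_congr rfl fun k _ => ?_
  rw [hB]

/-- **The trace of the identity of `S X` is the Euler characteristic of `X`.** -/
theorem tr_eq_chi (F : SpaceFunctor T) [LocallySmall.{0} T] {X : LC} {m : ℤ} (hX : HasChi X m)
    (L : T) [ExactPairing L (F.S.obj ⟨X, hX.fc⟩)] :
    trc L (F.S.obj ⟨X, hX.fc⟩) (𝟙 _) = m • 𝟙 (𝟙_ T) := by
  obtain ⟨R, i1, i2, hR⟩ := exists_isHQ F
  have : Fact (IsHQ R) := ⟨hR⟩
  obtain ⟨N, hN⟩ := HasChi.exists_hasEuler R F hX
  obtain ⟨B, hm⟩ := hN.exists_gBasis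
  obtain ⟨t, ht⟩ := exists_int_unit F (trc L (F.S.obj ⟨X, hX.fc⟩) (𝟙 _))
  rw [ht, B.tr_eq hR L ht, ← hm]

/-- **2E.** Tensoring with `S X` is faithful up to the Euler characteristic of `X`. -/
theorem zsmul_eq_zero (F : SpaceFunctor T) [LocallySmall.{0} T] (X : LC) (m : ℤ)
    (hX : HasChi X m) (W Z : T) (y : W ⟶ Z) (hy : F.S.obj ⟨X, hX.fc⟩ ◁ y = 0) : m • y = 0 := by
  obtain ⟨L, ⟨hL⟩⟩ := Dz.space F ⟨X, hX.fc⟩
  have h := tr_eq_chi F hX L
  rw [tr_id] at h
  exact zsmul_eq_zero_of_whiskerLeft _ _ h y hy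

/-- The retract form: the unit is a retract of `L ⊗ S X` up to the Euler characteristic. -/
theorem exists_retract (F : SpaceFunctor T) [LocallySmall.{0} T] {X : LC} {m : ℤ}
    (hX : HasChi X m) : ∃ (L : T) (a : 𝟙_ T ⟶ L ⊗ F.S.obj ⟨X, hX.fc⟩)
      (b : L ⊗ F.S.obj ⟨X, hX.fc⟩ ⟶ 𝟙_ T), a ≫ b = m • 𝟙 (𝟙_ T) := by
  obtain ⟨L, ⟨hL⟩⟩ := Dz.space F ⟨X, hX.fc⟩
  have h := tr_eq_chi F hX L
  rw [tr_id] at h
  exact ⟨L, _, _, h⟩

/-- The Euler characteristic of a finite cell space is well defined. -/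
theorem HasChi.unique (F : SpaceFunctor T) [LocallySmall.{0} T] {X : LC} {m m' : ℤ}
    (h : HasChi X m) (h' : HasChi X m') : m = m' := by
  obtain ⟨L, ⟨hL⟩⟩ := Dz.space F ⟨X, h.fc⟩
  have e := (tr_eq_chi F h L).symm.trans (tr_eq_chi F h' L)
  rw [← sub_eq_zero]
  refine eq_zero_of_zsmul_id F _ ?_
  rw [sub_smul, e, sub_self]

end Vale.Agent.P093.N2
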