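import Vale.Agent.P093.N2.Strata0
import Vale.Agent.P251.G.CofibEx
import Vale.Agent.P251.G.Glue
import Vale.Agent.P093.N2.HasChi

/-!
# P093, part N2: constructions of neighbourhood deformation retracts

* `NDR.whiskL`: `X × S ⊆ X × Y`;
* `NDR.base`: `X × 0 ⊆ X × [0, ∞)`;
* `NDR.ofPushout`: cobase change of neighbourhood deformation retracts;
* `NDR.cone`: `Y` in the mapping cone of `X ⟶ Y`;
* `NDR.cylTop`: the top of the cylinder of an injective map;
* `HC.cofib_ext`: `HC` is closed under extensions along arbitrary cofibrations.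
-/

open CategoryTheory MonoidalCategory Filter Topology OnePoint

namespace Vale.Agent.P093.N2

open Vale.Agent.P251.G Vale.Agent.P251.G.LC

variable {A B C D X Y Z : LC}

/-- `X × S ⊆ X × Y` -/
def NDR.whiskL {S : Set Y} (N : NDR Y S) (X : LC) :
    NDR (X ⊗ Y) {p : X × Y | p.2 ∈ S} where
  u p := N.u p.2
  u_cont := N.u_cont.comp continuous_snd
  h := (α_ X Y II).hom ≫ X ◁ N.h
  u_eq_zero p := N.u_eq_zero p.2
  h_zero := by
    rintro ⟨x, y⟩
    have h1 : app ((α_ X Y II).hom ≫ X ◁ N.h) (smash (smash (x : OnePoint X) (y : OnePoint Y))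
        ((0 : unitInterval) : OnePoint unitInterval)) =
        smash (x : OnePoint X) (app N.h (smash (y : OnePoint Y)
          ((0 : unitInterval) : OnePoint unitInterval))) := by
      rw [app_comp, app_associator_smash, app_whiskerLeft_smash]
    rw [N.h_zero] at h1
    exact h1
  h_mem := by
    rintro ⟨x, y⟩ hy t
    have h1 : app ((α_ X Y II).hom ≫ X ◁ N.h) (smash (smash (x : OnePoint X) (y : OnePoint Y))
        (t : OnePoint unitInterval)) =
        smash (x : OnePoint X) (app N.h (smash (y : OnePoint Y)
          (t : OnePoint unitInterval))) := by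
      rw [app_comp, app_associator_smash, app_whiskerLeft_smash]
    rw [N.h_mem y hy] at h1
    exact h1
  h_lt := by
    rintro ⟨x, y⟩ t ht
    have h1 : app ((α_ X Y II).hom ≫ X ◁ N.h) (smash (smash (x : OnePoint X) (y : OnePoint Y))
        (t : OnePoint unitInterval)) =
        smash (x : OnePoint X) (app N.h (smash (y : OnePoint Y)
          (t : OnePoint unitInterval))) := by
      rw [app_comp, app_associator_smash, app_whiskerLeft_smash]
    have h2 := N.h_lt y t ht
    change app ((α_ X Y II).hom ≫ X ◁ N.h) (smash (smash (x : OnePoint X) (y : OnePoint Y))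
        (t : OnePoint unitInterval)) ∈ _
    rw [h1]
    revert h2
    generalize app N.h (smash (y : OnePoint Y) (t : OnePoint unitInterval)) = z
    intro hz
    induction z using OnePoint.rec with
    | infty => rw [smash_infty_right]; exact infty_mem_ptd _
    | coe z =>
      have h3 : z ∈ S := coe_mem_ptd.mp hz
      rw [smash_coe_coe]
      exact coe_mem_ptd.mpr h3

/-- the inclusion of the unit interval in the half line -/
def toNN (t : unitInterval) : NNReal := ⟨t.1, t.2.1⟩

theorem continuous_toNN : Continuous toNN :=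
  Continuous.subtype_mk continuous_subtype_val _

theorem toNN_le_one (t : unitInterval) : toNN t ≤ 1 := t.2.2

/-- the shift of the half line -/
def subHH : HH ⊗ II ⟶ HH :=
  ofProper (X := LC.of (NNReal × unitInterval)) (Y := HH) (fun p => p.1 - toNN p.2)
    (continuous_fst.sub (continuous_toNN.comp continuous_snd))
    (by
      apply tendsto_cocompact_of_preimage
      intro K hK
      obtain ⟨R, hR⟩ := hK.bddAbove
      refine ⟨Set.Icc 0 (R + 1) ×ˢ Set.univ, isCompact_Icc.prod isCompact_univ, ?_⟩
      intro p hp
      refine ⟨⟨bot_le, ?_⟩, Set.mem_univ _⟩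
      have h1 : p.1 - toNN p.2 ≤ R := hR hp
      exact (tsub_le_iff_right.mp h1).trans (add_le_add le_rfl (toNN_le_one p.2)))

theorem app_subHH (s : NNReal) (t : unitInterval) :
    app subHH (smash (s : OnePoint NNReal) (t : OnePoint unitInterval)) =
      ((s - toNN t : NNReal) : OnePoint NNReal) := rfl

/-- `0` in the half line -/
noncomputable def NDR.zeroHH : NDR HH {(0 : NNReal)} where
  u s := ⟨min 1 (s : ℝ), le_min zero_le_one s.2, min_le_left _ _⟩
  u_cont := Continuous.subtype_mk (continuous_const.min NNReal.continuous_coe) _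
  h := subHH
  u_eq_zero s := by
    rw [Subtype.ext_iff]
    change min 1 (s : ℝ) = 0 ↔ s = 0
    constructor
    · intro h
      rcases min_choice (1 : ℝ) (s : ℝ) with h1 | h1
      · rw [h1] at h; exact absurd h one_ne_zero
      · rw [h1] at h; exact_mod_cast h
    · rintro rfl
      simp
  h_zero s := by
    rw [app_subHH]
    congr 1
    exact tsub_zero s
  h_mem := by
    rintro s rfl t
    rw [app_subHH]
    congr 1
    exact zero_tsub _
  h_lt := by
    intro s t h
    rw [app_subHH, coe_mem_ptd]
    have h1 : min 1 (s : ℝ) < t.1 := h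
    have h2 : (s : ℝ) < t.1 := by
      rcases min_lt_iff.mp h1 with h | h
      · exact absurd t.2.2 (not_le.mpr h)
      · exact h
    exact tsub_eq_zero_of_le (show (s : ℝ) ≤ t.1 from h2.le)

/-- `X × 0 ⊆ X × [0, ∞)` -/
noncomputable def NDR.base (X : LC) : NDR (X ⊗ HH) {p : X × NNReal | p.2 ∈ ({0} : Set NNReal)} :=
  NDR.zeroHH.whiskL X

theorem range_coneBase (X : LC) :
    Set.range (app (coneBase X)) = ptd {p : X × NNReal | p.2 ∈ ({0} : Set NNReal)} := by
  ext z
  obtain ⟨x, s, rfl⟩ := smash_coe_surjective (X := X) (Y := NNReal) z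
  induction x using OnePoint.rec with
  | infty =>
    rw [smash_infty_left]
    exact ⟨fun _ => infty_mem_ptd _, fun _ => infty_mem_range _⟩
  | coe x =>
    rw [smash_coe_coe]
    constructor
    · rintro ⟨y, hy⟩
      rw [app_coneBase] at hy
      induction y using OnePoint.rec with
      | infty =>
        rw [smash_infty_left] at hy
        exact absurd hy.symm (OnePoint.coe_ne_infty _)
      | coe y =>
        rw [smash_coe_coe] at hy
        have h1 : (y, (0 : NNReal)) = (x, s) := OnePoint.coe_injective hy
        have h2 : s = 0 := (congrArg Prod.snd h1).symm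
        exact (coe_mem_ptd (D := LC.of (X × NNReal))).mpr h2
    · intro h
      have h2 : s = 0 := (coe_mem_ptd (D := LC.of (X × NNReal))).mp h
      refine ⟨x, ?_⟩
      rw [app_coneBase, smash_coe_coe, h2]

/-! ### Cobase change -/

section pushout

variable {i : A ⟶ B} {f : A ⟶ C} {g : B ⟶ D} {j : C ⟶ D} {S : Set B}

open scoped Classical in
/-- the function of the pushout -/
noncomputable def pushU (g : B ⟶ D) (S : Set B) (u : B → unitInterval) (d : D) : unitInterval :=
  if h : ∃ b : B, app g (b : OnePoint B) = d ∧ b ∉ S then u h.choose else 0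

/-- the projection `X ⊗ II ⟶ X` -/
def prII (X : LC) : X ⊗ II ⟶ X :=
  X ◁ ofCompact (X := II) (Y := 𝟙_ LC) (fun _ => ()) continuous_const ≫ (ρ_ X).hom

theorem app_prII (X : LC) (x : OnePoint X) (t : unitInterval) :
    app (prII X) (smash x (t : OnePoint unitInterval)) = x := by
  unfold prII
  rw [app_comp, app_whiskerLeft_smash]
  exact app_rightUnitor_smash X x

theorem incl_prII (X : LC) (t : unitInterval) : incl t X ≫ prII X = 𝟙 X := by
  apply hom_ext
  intro x
  rw [app_comp, app_incl, app_prII]
  rfl

theorem push_cases (hi : Function.Injective (app i)) (hr : Set.range (app i) = ptd S)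
    (h : IsPushout i f g j) (d : D) :
    (∃ b : B, b ∉ S ∧ app g (b : OnePoint B) = d) ∨ ∃ c : OnePoint C, app j c = d := by
  by_cases hd : (d : OnePoint D) ∈ Set.range (app j)
  · exact Or.inr hd
  · obtain ⟨b, hb, hbd⟩ := (bij_of_isPushout hi h).2.surjOn hd
    left
    rw [hr] at hb
    induction b using OnePoint.rec with
    | infty => exact absurd (infty_mem_ptd S) hb
    | coe b => exact ⟨b, fun hb' => hb (coe_mem_ptd.mpr hb'), hbd⟩

theorem push_notMem (hi : Function.Injective (app i)) (hr : Set.range (app i) = ptd S)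
    (h : IsPushout i f g j) {b : B} (hb : b ∉ S) : app g (b : OnePoint B) ∉ Set.range (app j) := by
  apply (bij_of_isPushout hi h).2.mapsTo
  rw [hr]
  exact fun hb' => hb (coe_mem_ptd.mp hb')

theorem push_mem (hr : Set.range (app i) = ptd S)
    (h : IsPushout i f g j) {b : B} (hb : b ∈ S) : app g (b : OnePoint B) ∈ Set.range (app j) := by
  have h1 : (b : OnePoint B) ∈ Set.range (app i) := by
    rw [hr]
    exact coe_mem_ptd.mpr hb
  obtain ⟨a, ha⟩ := h1
  refine ⟨app f a, ?_⟩
  rw [← app_comp, ← h.w, app_comp, ha]

theorem pushU_inl (hi : Function.Injective (app i)) (hr : Set.range (app i) = ptd S)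
    (h : IsPushout i f g j) (u : B → unitInterval) (hu : ∀ b ∈ S, u b = 0) {b : B} {d : D}
    (hb : app g (b : OnePoint B) = d) : pushU g S u d = u b := by
  unfold pushU
  by_cases hS : b ∈ S
  · rw [dif_neg, hu b hS]
    rintro ⟨b', hb', hS'⟩
    apply push_notMem hi hr h hS'
    rw [hb', ← hb]
    exact push_mem hr h hS
  · have h1 : ∃ b : B, app g (b : OnePoint B) = d ∧ b ∉ S := ⟨b, hb, hS⟩
    rw [dif_pos h1]
    congr 1
    have h2 := h1.choose_spec
    apply OnePoint.coe_injective
    refine (bij_of_isPushout hi h).2.injOn ?_ ?_ (h2.1.trans hb.symm)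
    · rw [hr]; exact fun hb' => h2.2 (coe_mem_ptd.mp hb')
    · rw [hr]; exact fun hb' => hS (coe_mem_ptd.mp hb')

theorem pushU_inr (hi : Function.Injective (app i)) (hr : Set.range (app i) = ptd S)
    (h : IsPushout i f g j) (u : B → unitInterval) {d : D}
    (hd : (d : OnePoint D) ∈ Set.range (app j)) : pushU g S u d = 0 := by
  unfold pushU
  rw [dif_neg]
  rintro ⟨b, hb, hS⟩
  exact push_notMem hi hr h hS (hb ▸ hd)

theorem isClosed_ptd' {S : Set X} (hS : IsClosed S) : IsClosed (ptd S) := by
  rw [← range_subι hS]
  exact isClosed_range_app _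

theorem continuous_pushU (hi : Function.Injective (app i)) (hr : Set.range (app i) = ptd S)
    (h : IsPushout i f g j) (u : B → unitInterval) (hu : ∀ b ∈ S, u b = 0) (hc : Continuous u) :
    Continuous (pushU g S u) := by
  rw [continuous_iff_isClosed]
  intro K hK
  have h1 : IsClosed ((↑) ⁻¹' (app g '' ptd (u ⁻¹' K)) : Set D) :=
    (((isClosed_ptd' (hK.preimage hc)).isCompact.image (continuous_app g)).isClosed).preimage
      OnePoint.continuous_coe
  have h2 : IsClosed ((↑) ⁻¹' (Set.range (app j)) : Set D) :=
    (isClosed_range_app j).preimage OnePoint.continuous_coe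
  have hB : ∀ d : D, d ∈ ((↑) ⁻¹' (app g '' ptd (u ⁻¹' K)) : Set D) → pushU g S u d ∈ K := by
    rintro d ⟨b, hb, hbd⟩
    induction b using OnePoint.rec with
    | infty => rw [app_infty] at hbd; exact absurd hbd.symm (OnePoint.coe_ne_infty _)
    | coe b =>
      rw [pushU_inl hi hr h u hu hbd]
      exact coe_mem_ptd.mp hb
  by_cases h0 : (0 : unitInterval) ∈ K
  · have h3 : pushU g S u ⁻¹' K = ((↑) ⁻¹' (app g '' ptd (u ⁻¹' K)) : Set D) ∪
        ((↑) ⁻¹' (Set.range (app j)) : Set D) := by
      ext d
      constructor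
      · intro hd
        rcases push_cases hi hr h d with ⟨b, hb, hbd⟩ | hc
        · left
          refine ⟨b, coe_mem_ptd.mpr ?_, hbd⟩
          have hd' : pushU g S u d ∈ K := hd
          rw [pushU_inl hi hr h u hu hbd] at hd'
          exact hd'
        · exact Or.inr hc
      · rintro (hd | hd)
        · exact hB d hd
        · change pushU g S u d ∈ K
          rw [pushU_inr hi hr h u hd]
          exact h0
    rw [h3]
    exact h1.union h2
  · have h3 : pushU g S u ⁻¹' K = ((↑) ⁻¹' (app g '' ptd (u ⁻¹' K)) : Set D) := by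
      ext d
      constructor
      · intro hd
        have hd' : pushU g S u d ∈ K := hd
        rcases push_cases hi hr h d with ⟨b, hb, hbd⟩ | hc
        · refine ⟨b, coe_mem_ptd.mpr ?_, hbd⟩
          rw [pushU_inl hi hr h u hu hbd] at hd'
          exact hd'
        · rw [pushU_inr hi hr h u hc] at hd'
          exact absurd hd' h0
      · exact hB d
    rw [h3]
    exact h1

theorem push_w (N : NDR B S) (hr : Set.range (app i) = ptd S)
    (h : IsPushout i f g j) : i ▷ II ≫ N.h ≫ g = f ▷ II ≫ prII C ≫ j := by
  apply tensor_ext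
  intro a t
  have h1 : app (i ▷ II ≫ N.h ≫ g) (smash (a : OnePoint A) (t : OnePoint unitInterval)) =
      app g (app N.h (smash (app i a) (t : OnePoint unitInterval))) := by
    rw [app_comp, app_comp, app_whiskerRight_smash]
  have h2 : app (f ▷ II ≫ prII C ≫ j) (smash (a : OnePoint A) (t : OnePoint unitInterval)) =
      app j (app f a) := by
    rw [app_comp, app_comp, app_whiskerRight_smash, app_prII]
  have h3 : app N.h (smash (app i a) (t : OnePoint unitInterval)) = app i a := by
    have h4 : app i (a : OnePoint A) ∈ ptd S := hr ▸ ⟨(a : OnePoint A), rfl⟩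
    revert h4
    generalize app i (a : OnePoint A) = b
    intro hb
    induction b using OnePoint.rec with
    | infty => rw [smash_infty_left, app_infty]
    | coe b => exact N.h_mem b (coe_mem_ptd.mp hb) t
  change app (i ▷ II ≫ N.h ≫ g) (smash (a : OnePoint A) (t : OnePoint unitInterval)) =
    app (f ▷ II ≫ prII C ≫ j) (smash (a : OnePoint A) (t : OnePoint unitInterval))
  rw [h1, h2, h3, ← app_comp, ← app_comp, h.w]

/-- the homotopy of the pushout -/
noncomputable def pushH (N : NDR B S) (hi : Function.Injective (app i))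
    (hr : Set.range (app i) = ptd S) (h : IsPushout i f g j) : D ⊗ II ⟶ D :=
  (isPushout_whiskerRight II hi h).desc (N.h ≫ g) (prII C ≫ j) (push_w N hr h)

theorem app_pushH_inl (N : NDR B S) (hi : Function.Injective (app i))
    (hr : Set.range (app i) = ptd S) (h : IsPushout i f g j) (b : OnePoint B) (t : unitInterval) :
    app (pushH N hi hr h) (smash (app g b) (t : OnePoint unitInterval)) =
      app g (app N.h (smash b (t : OnePoint unitInterval))) := by
  have h1 : g ▷ II ≫ pushH N hi hr h = N.h ≫ g := IsPushout.inl_desc _ _ _ _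
  have h3 := app_whiskerRight_smash g II b (t : OnePoint unitInterval)
  rw [← app_comp, ← h1, app_comp]
  exact congrArg _ h3.symm

theorem app_pushH_inr (N : NDR B S) (hi : Function.Injective (app i))
    (hr : Set.range (app i) = ptd S) (h : IsPushout i f g j) (c : OnePoint C) (t : unitInterval) :
    app (pushH N hi hr h) (smash (app j c) (t : OnePoint unitInterval)) = app j c := by
  have h1 : j ▷ II ≫ pushH N hi hr h = prII C ≫ j := IsPushout.inr_desc _ _ _ _
  have h2 : app (prII C ≫ j) (smash c (t : OnePoint unitInterval)) = app j c := by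
    rw [app_comp, app_prII]
  have h3 := app_whiskerRight_smash j II c (t : OnePoint unitInterval)
  rw [← h1, app_comp] at h2
  exact (congrArg _ h3.symm).trans h2

/-- Cobase change of neighbourhood deformation retracts. -/
noncomputable def NDR.ofPushout (N : NDR B S) (hi : Function.Injective (app i))
    (hr : Set.range (app i) = ptd S) (h : IsPushout i f g j) :
    NDR D {d : D | (d : OnePoint D) ∈ Set.range (app j)} where
  u := pushU g S N.u
  u_cont := continuous_pushU hi hr h N.u (fun b hb => (N.u_eq_zero b).mpr hb) N.u_cont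
  h := pushH N hi hr h
  u_eq_zero d := by
    constructor
    · intro hd
      rcases push_cases hi hr h d with ⟨b, hb, hbd⟩ | hc
      · rw [pushU_inl hi hr h N.u (fun b hb => (N.u_eq_zero b).mpr hb) hbd,
          N.u_eq_zero] at hd
        exact absurd hd hb
      · exact hc
    · exact fun hd => pushU_inr hi hr h N.u hd
  h_zero d := by
    rcases push_cases hi hr h d with ⟨b, hb, hbd⟩ | ⟨c, hc⟩
    · rw [← hbd, app_pushH_inl, N.h_zero]
    · rw [← hc, app_pushH_inr]
  h_mem := by
    rintro d ⟨c, hc⟩ t
    rw [← hc, app_pushH_inr]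
  h_lt := by
    intro d t ht
    rcases push_cases hi hr h d with ⟨b, hb, hbd⟩ | ⟨c, hc⟩
    · rw [pushU_inl hi hr h N.u (fun b hb => (N.u_eq_zero b).mpr hb) hbd] at ht
      rw [← hbd, app_pushH_inl]
      have h1 := N.h_lt b t ht
      revert h1
      generalize app N.h (smash (b : OnePoint B) (t : OnePoint unitInterval)) = z
      intro hz
      induction z using OnePoint.rec with
      | infty => rw [app_infty]; exact infty_mem_ptd _
      | coe z =>
        intro d' hd'
        change (d' : OnePoint D) ∈ Set.range (app j)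
        rw [← hd']
        exact push_mem hr h (coe_mem_ptd.mp hz)
    · rw [← hc, app_pushH_inr, hc]
      exact coe_mem_ptd.mpr ⟨c, hc⟩

end pushout

/-- `Y` in the mapping cone of `X ⟶ Y` -/
noncomputable def NDR.cone (f : X ⟶ Y) :
    NDR (LC.cone f) {d | (d : OnePoint (LC.cone f)) ∈ Set.range (app (coneInr f))} :=
  (NDR.base X).ofPushout (injective_coneBase X) (range_coneBase X) (isPushout_cone f)

/-! ### The cylinder of an injective map -/

section cylinder

/-- points of the cylinder -/
def cylMk (i : A ⟶ B) (b : B) (t : unitInterval)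
    (h : t = 0 ∨ (b : OnePoint B) ∈ Set.range (app i)) : cyl i := ⟨(b, t), h⟩

theorem cyl_ext' {i : A ⟶ B} {x y : cyl i} (h1 : x.1.1 = y.1.1) (h2 : x.1.2 = y.1.2) : x = y :=
  Subtype.ext (Prod.ext h1 h2)

theorem cylHtpy_mem {i : A ⟶ B} {φ : unitInterval × unitInterval → unitInterval}
    (h0 : ∀ t, φ (0, t) = 0) (x : cyl i) (t : unitInterval) :
    φ (x.1.2, t) = 0 ∨ ((x.1.1 : B) : OnePoint B) ∈ Set.range (app i) := by
  rcases x.2 with h | h
  · left
    have h' : x.1.2 = 0 := h
    rw [h', h0]
  · exact Or.inr h

/-- a homotopy of the cylinder which changes the height only -/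
noncomputable def cylHtpy (i : A ⟶ B) (φ : unitInterval × unitInterval → unitInterval)
    (hφ : Continuous φ) (h0 : ∀ t, φ (0, t) = 0) : cyl i ⊗ II ⟶ cyl i :=
  ofProper (X := LC.of (cyl i × unitInterval)) (Y := cyl i)
    (fun p => cylMk i p.1.1.1 (φ (p.1.1.2, p.2)) (cylHtpy_mem h0 p.1 p.2))
    (by
      have h1 : Continuous fun p : cyl i × unitInterval => (p.1.1 : B × unitInterval) :=
        continuous_subtype_val.comp continuous_fst
      refine Continuous.subtype_mk ?_ _
      exact (continuous_fst.comp h1).prodMk
        (hφ.comp ((continuous_snd.comp h1).prodMk continuous_snd)))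
    (by
      apply tendsto_cocompact_of_preimage
      intro K hK
      have h1 : Continuous fun p : cyl i => (p.1 : B × unitInterval) := continuous_subtype_val
      refine ⟨((fun p : cyl i => (p.1 : B × unitInterval)) ⁻¹'
        (((fun p : cyl i => p.1.1) '' K) ×ˢ Set.univ)) ×ˢ Set.univ, ?_, ?_⟩
      · refine IsCompact.prod ?_ isCompact_univ
        exact (isClosed_cylSet i).isClosedEmbedding_subtypeVal.isCompact_preimage
          ((hK.image (continuous_fst.comp h1)).prod isCompact_univ)
      · intro p hp
        exact ⟨⟨⟨_, hp, rfl⟩, Set.mem_univ _⟩, Set.mem_univ _⟩)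

theorem app_cylHtpy (i : A ⟶ B) (φ : unitInterval × unitInterval → unitInterval)
    (hφ : Continuous φ) (h0 : ∀ t, φ (0, t) = 0) (x : cyl i) (t : unitInterval) :
    app (cylHtpy i φ hφ h0) (smash (x : OnePoint (cyl i)) (t : OnePoint unitInterval)) =
      (cylMk i x.1.1 (φ (x.1.2, t)) (cylHtpy_mem h0 x t) : cyl i) := rfl

theorem app_cylHtpy_of_eq (i : A ⟶ B) (φ : unitInterval × unitInterval → unitInterval)
    (hφ : Continuous φ) (h0 : ∀ t, φ (0, t) = 0) (x : cyl i) (t : unitInterval)
    (h : φ (x.1.2, t) = x.1.2) :
    app (cylHtpy i φ hφ h0) (smash (x : OnePoint (cyl i)) (t : OnePoint unitInterval)) = x := by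
  rw [app_cylHtpy]
  congr 1
  exact cyl_ext' rfl h

/-- `min 1 (s (1 + t))` -/
noncomputable def cylPhi (p : unitInterval × unitInterval) : unitInterval :=
  ⟨min 1 (p.1.1 * (1 + p.2.1)),
    le_min zero_le_one (mul_nonneg p.1.2.1 (add_nonneg zero_le_one p.2.2.1)), min_le_left _ _⟩

theorem continuous_cylPhi : Continuous cylPhi := by
  refine Continuous.subtype_mk (continuous_const.min ?_) _
  exact (continuous_subtype_val.comp continuous_fst).mul
    (continuous_const.add (continuous_subtype_val.comp continuous_snd))

theorem cylPhi_zero_left (t : unitInterval) : cylPhi (0, t) = 0 := by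
  apply Subtype.ext
  change min 1 ((0 : ℝ) * (1 + t.1)) = 0
  rw [zero_mul, min_eq_right zero_le_one]

theorem cylPhi_zero (s : unitInterval) : cylPhi (s, 0) = s := by
  apply Subtype.ext
  change min 1 (s.1 * (1 + (0 : ℝ))) = s.1
  rw [add_zero, mul_one, min_eq_right s.2.2]

theorem cylPhi_one_left (t : unitInterval) : cylPhi (1, t) = 1 := by
  apply Subtype.ext
  change min 1 ((1 : ℝ) * (1 + t.1)) = 1
  rw [one_mul, min_eq_left]
  linarith [t.2.1]

/-- `min 1 (2 (1 - s))` -/
noncomputable def cylU (s : unitInterval) : unitInterval :=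
  ⟨min 1 (2 * (1 - s.1)), le_min zero_le_one (by linarith [s.2.2]), min_le_left _ _⟩

theorem continuous_cylU : Continuous cylU :=
  Continuous.subtype_mk (continuous_const.min
    (continuous_const.mul (continuous_const.sub continuous_subtype_val))) _

theorem cylU_eq_zero (s : unitInterval) : cylU s = 0 ↔ s = 1 := by
  constructor
  · intro h
    have h1 : min 1 (2 * (1 - s.1)) = 0 := congrArg Subtype.val h
    apply Subtype.ext
    change s.1 = 1
    rcases min_choice (1 : ℝ) (2 * (1 - s.1)) with h2 | h2
    · rw [h2] at h1; exact absurd h1 one_ne_zero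
    · rw [h2] at h1; linarith
  · rintro rfl
    apply Subtype.ext
    change min 1 (2 * (1 - (1 : ℝ))) = 0
    rw [sub_self, mul_zero, min_eq_right zero_le_one]

theorem cylPhi_of_lt {s t : unitInterval} (h : cylU s < t) : cylPhi (s, t) = 1 := by
  have h1 : min 1 (2 * (1 - s.1)) < t.1 := h
  have ht : t.1 ≤ 1 := t.2.2
  have hs : s.1 ≤ 1 := s.2.2
  have h2 : 2 * (1 - s.1) < t.1 := by
    rcases min_lt_iff.mp h1 with h | h
    · exact absurd ht (not_le.mpr h)
    · exact h
  apply Subtype.ext
  change min 1 (s.1 * (1 + t.1)) = 1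
  apply min_eq_left
  have ht0 : 0 ≤ t.1 := t.2.1
  nlinarith

/-- The top of the cylinder is a neighbourhood deformation retract. -/
noncomputable def NDR.cylTop (i : A ⟶ B) : NDR (cyl i) {x : cyl i | x.1.2 = 1} where
  u x := cylU x.1.2
  u_cont := by
    have h1 : Continuous fun p : cyl i => (p.1 : B × unitInterval) := continuous_subtype_val
    exact continuous_cylU.comp (continuous_snd.comp h1)
  h := cylHtpy i cylPhi continuous_cylPhi cylPhi_zero_left
  u_eq_zero x := cylU_eq_zero _
  h_zero x := app_cylHtpy_of_eq _ _ _ _ _ _ (cylPhi_zero _)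
  h_mem := by
    intro x hx t
    have hx' : x.1.2 = 1 := hx
    apply app_cylHtpy_of_eq
    rw [hx', cylPhi_one_left]
  h_lt := by
    intro x t h
    rw [app_cylHtpy]
    exact (coe_mem_ptd (D := cyl i)).mpr (cylPhi_of_lt h)

/-- the projection of the cylinder -/
noncomputable def cylPr (i : A ⟶ B) : cyl i ⟶ B := cylIncl i ≫ prII B

theorem cylBot_cylPr (i : A ⟶ B) : cylBot i ≫ cylPr i = 𝟙 B := by
  unfold cylPr
  rw [cylBot_cylIncl_assoc, incl_prII]

theorem app_cylPr (i : A ⟶ B) (x : cyl i) :
    app (cylPr i) (x : OnePoint (cyl i)) = (x.1.1 : B) := by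
  unfold cylPr
  rw [app_comp, app_cylIncl_coe]
  exact app_prII B (x.1.1 : B) x.1.2

/-- The cylinder is homotopy equivalent to the target. -/
theorem hequiv_cyl (i : A ⟶ B) : HEquiv (cyl i) B := by
  refine ⟨cylPr i, cylBot i, ?_, Homotopic.of_eq (cylBot_cylPr i)⟩
  refine ⟨cylHtpy i (fun p => p.1 * p.2) (continuous_fst.mul continuous_snd)
    (fun t => zero_mul t), ?_, ?_⟩
  · apply hom_ext
    intro x
    rw [app_comp, app_incl, app_cylHtpy, app_comp, app_cylPr]
    change _ = ((cylMk i x.1.1 0 (Or.inl rfl) : cyl i) : OnePoint (cyl i))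
    congr 1
    exact cyl_ext' rfl (mul_zero _)
  · apply hom_ext
    intro x
    rw [app_comp, app_incl, app_id]
    exact app_cylHtpy_of_eq _ _ _ _ _ _ (mul_one _)

/-- the top of the cylinder -/
noncomputable def cylTopι {i : A ⟶ B} (hi : Function.Injective (app i)) : A ⟶ cyl i :=
  incl 1 A ≫ cylSide hi

theorem app_cylTopι {i : A ⟶ B} (hi : Function.Injective (app i)) (a : A) :
    app (cylTopι hi) (a : OnePoint A) =
      (cylMk i (under hi a) 1 (Or.inr ⟨a, (coe_under hi a).symm⟩) : cyl i) := by
  unfold cylTopι
  rw [app_comp, app_incl]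
  rfl

theorem cylTopι_injective {i : A ⟶ B} (hi : Function.Injective (app i)) :
    Function.Injective (app (cylTopι hi)) := by
  intro a b h
  induction a using OnePoint.rec with
  | infty =>
    induction b using OnePoint.rec with
    | infty => rfl
    | coe b =>
      rw [app_infty, app_cylTopι] at h
      exact absurd h.symm (OnePoint.coe_ne_infty _)
  | coe a =>
    induction b using OnePoint.rec with
    | infty =>
      rw [app_infty, app_cylTopι] at h
      exact absurd h (OnePoint.coe_ne_infty _)
    | coe b =>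
      rw [app_cylTopι, app_cylTopι] at h
      have h2 : under hi a = under hi b :=
        congrArg (fun x : cyl i => (x.1.1 : B)) (OnePoint.coe_injective h)
      apply hi
      rw [← coe_under hi, ← coe_under hi, h2]

theorem range_cylTopι {i : A ⟶ B} (hi : Function.Injective (app i)) :
    Set.range (app (cylTopι hi)) = ptd {x : cyl i | x.1.2 = 1} := by
  ext z
  induction z using OnePoint.rec with
  | infty => exact ⟨fun _ => infty_mem_ptd _, fun _ => infty_mem_range _⟩
  | coe z =>
    rw [coe_mem_ptd]
    constructor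
    · rintro ⟨a, ha⟩
      induction a using OnePoint.rec with
      | infty => rw [app_infty] at ha; exact absurd ha.symm (OnePoint.coe_ne_infty _)
      | coe a =>
        rw [app_cylTopι] at ha
        have ha' : cylMk i (under hi a) 1 (Or.inr ⟨a, (coe_under hi a).symm⟩) = z :=
          OnePoint.coe_injective ha
        rw [← ha']
        rfl
    · intro hz
      have hz' : z.1.2 = 1 := hz
      rcases z.2 with h | ⟨a, ha⟩
      · have h' : z.1.2 = 0 := h
        rw [h'] at hz'
        exact absurd hz' zero_ne_one
      · induction a using OnePoint.rec with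
        | infty => rw [app_infty] at ha; exact absurd ha.symm (OnePoint.coe_ne_infty _)
        | coe a =>
          refine ⟨a, ?_⟩
          rw [app_cylTopι]
          congr 1
          refine cyl_ext' ?_ hz'.symm
          apply OnePoint.coe_injective
          rw [← ha]
          exact coe_under hi a

/-- the top of the cylinder is the source -/
noncomputable def cylTopIso {i : A ⟶ B} (hi : Function.Injective (app i)) :
    A ≅ sub (NDR.cylTop i).isClosed :=
  isoOfRange (cylTopι_injective hi) (injective_subι (NDR.cylTop i).isClosed)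
    ((range_cylTopι hi).trans (range_subι _).symm)

end cylinder

/-! ### The complement of the top of the cylinder -/

section complement

/-- `(A ⊗ II) / (A × 1)` is contractible. -/
theorem contr_cof_incl (A : LC) : Contr (LC.cof (incl 1 A)) := by
  have hmax : Continuous fun p : unitInterval × unitInterval => max p.1 p.2 :=
    continuous_fst.max continuous_snd
  let m : II ⊗ II ⟶ II :=
    ofCompact (X := LC.of (unitInterval × unitInterval)) (Y := II) (fun p => max p.1 p.2) hmax
  have hm : ∀ s t : unitInterval, app m (smash (s : OnePoint unitInterval)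
      (t : OnePoint unitInterval)) = ((max s t : unitInterval) : OnePoint unitInterval) :=
    fun _ _ => rfl
  have hH : ∀ (a : OnePoint A) (s t : unitInterval),
      app ((α_ A II II).hom ≫ A ◁ m ≫ cofMap (incl 1 A))
        (smash (smash a (s : OnePoint unitInterval)) (t : OnePoint unitInterval)) =
      app (cofMap (incl 1 A)) (smash a ((max s t : unitInterval) : OnePoint unitInterval)) := by
    intro a s t
    have h1 : app (α_ A II II).hom
        (smash (smash a (s : OnePoint unitInterval)) (t : OnePoint unitInterval)) =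
        smash a (smash (s : OnePoint unitInterval) (t : OnePoint unitInterval)) :=
      app_associator_smash A II II _ _ _
    rw [app_comp, app_comp, h1, app_whiskerLeft_smash, hm]
  have h1 : ∀ a : OnePoint A, app (cofMap (incl 1 A))
      (smash a ((1 : unitInterval) : OnePoint unitInterval)) = ∞ := by
    intro a
    apply app_cofMap_of_mem
    exact ⟨a, app_incl 1 A a⟩
  refine Homotopic.cofDesc ((α_ A II II).hom ≫ A ◁ m ≫ cofMap (incl 1 A)) ?_ ?_ ?_
  · apply cyl_ext
    intro a t
    have h2 : app (incl 1 A ▷ II) (smash a (t : OnePoint unitInterval)) =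
        smash (smash a ((1 : unitInterval) : OnePoint unitInterval))
          (t : OnePoint unitInterval) := by
      have h3 := app_whiskerRight_smash (incl 1 A) II a (t : OnePoint unitInterval)
      rw [app_incl] at h3
      exact h3
    rw [app_comp, h2, hH, max_eq_left (show t ≤ 1 from t.2.2), h1, app_zero]
  · apply cyl_ext
    intro a s
    rw [app_comp, app_incl, hH, max_eq_left (show (0 : unitInterval) ≤ s from s.2.1),
      Category.comp_id]
  · apply cyl_ext
    intro a s
    rw [app_comp, app_incl, hH, max_eq_right (show s ≤ 1 from s.2.2), h1, Limits.comp_zero,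
      app_zero]

/-- the cylinder is a pushout -/
theorem isPushout_cyl {i : A ⟶ B} (hi : Function.Injective (app i)) :
    IsPushout i (incl 0 A) (cylBot i) (cylSide hi) :=
  ⟨⟨(incl_cylSide hi).symm⟩, ⟨Limits.PushoutCocone.IsColimit.mk _
    (fun s => cylDesc hi s.inl s.inr s.condition.symm)
    (fun s => cylBot_cylDesc hi _ _ _) (fun s => cylSide_cylDesc hi _ _ _) (by
      intro s m h1 h2
      apply cyl_hom_ext hi
      · rw [h1, cylBot_cylDesc]
      · rw [h2, cylSide_cylDesc])⟩⟩

/-- The strict cofibre of the top of the cylinder is homotopy equivalent to the strict cofibre. -/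
theorem hequiv_cof_cylTop {i : A ⟶ B} (hi : Cofib i) :
    HEquiv (LC.cof (cylTopι hi.injective)) (LC.cof i) := by
  have hc : incl 1 A ≫ cylSide hi.injective ≫ cofMap (cylTopι hi.injective) = 0 := by
    rw [← Category.assoc]
    exact comp_cofMap _
  let k : LC.cof (incl 1 A) ⟶ LC.cof (cylTopι hi.injective) :=
    cofDesc (incl 1 A) (cylSide hi.injective ≫ cofMap (cylTopι hi.injective)) hc
  have hk : cofMap (incl 1 A) ≫ k = cylSide hi.injective ≫ cofMap (cylTopι hi.injective) :=
    cofMap_cofDesc _ _ _
  have h1 : IsPushout (incl 1 A ≫ cylSide hi.injective) (0 : A ⟶ LC.of Empty)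
      (cofMap (cylTopι hi.injective)) ((0 : LC.of Empty ⟶ LC.cof (incl 1 A)) ≫ k) := by
    rw [Limits.zero_comp]
    exact isPushout_cofMap (cylTopι hi.injective)
  have h2 : IsPushout (cylSide hi.injective) (cofMap (incl 1 A))
      (cofMap (cylTopι hi.injective)) k :=
    IsPushout.of_left h1 hk.symm (isPushout_cofMap (incl 1 A))
  have h3 := IsPushout.paste_vert (isPushout_cyl hi.injective) h2
  have h4 : Cofib k := hi.pushout h3
  exact ((isHEquiv_cofMap h4 (contr_cof_incl A)).hequiv).trans
    (HEquiv.of_iso (cofPushout h3).symm)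

/-- The strict cofibre of a closed subspace is the complement. -/
noncomputable def cofSubIso {S : Set X} (hS : IsClosed S) :
    LC.cof (subι hS) ≅ opn hS.isOpen_compl :=
  cofClosedOpen (Z := sub hS) (Y := X) (U := opn hS.isOpen_compl) (fun u => u.1)
    (isClosedEmbedding_subι hS) (fun u => u.1) (hS.isOpen_compl.isOpenEmbedding_subtypeVal) (by
      have h1 : Set.range (fun u : sub hS => (u.1 : X)) = S := Subtype.range_val
      have h2 : Set.range (fun u : opn hS.isOpen_compl => (u.1 : X)) = Sᶜ := Subtype.range_val
      rw [h1, h2]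
      exact isCompl_compl)

/-- The strict cofibre of an injective map with image `S` is the complement. -/
noncomputable def cofOpnIso {i : A ⟶ X} (hi : Function.Injective (app i)) {S : Set X}
    (hS : IsClosed S) (hr : Set.range (app i) = ptd S) : LC.cof i ≅ opn hS.isOpen_compl := by
  refine (cofIso isZero_empty (k := 0) (q := cofMap (subι hS)) (l := 0) ?_) ≪≫ cofSubIso hS
  have h1 : i = (isoOfRange hi (injective_subι hS) (hr.trans (range_subι hS).symm)).hom ≫
      subι hS := (isoOfRange_hom_comp _ _ _).symm
  refine IsPushout.of_iso (isPushout_cofMap (subι hS))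
    (isoOfRange hi (injective_subι hS) (hr.trans (range_subι hS).symm)).symm (Iso.refl _)
    (Iso.refl _) (Iso.refl _) ?_ ?_ ?_ ?_
  · rw [Iso.refl_hom, Category.comp_id, Iso.symm_hom, isoOfRange_inv_comp]
  · rw [Limits.zero_comp, Limits.comp_zero]
  · rw [Iso.refl_hom, Iso.refl_hom, Category.comp_id, Category.id_comp]
  · rw [Limits.zero_comp, Limits.comp_zero]

/-- The complement of the top of the cylinder is homotopy equivalent to the strict cofibre. -/
theorem hequiv_opn_cylTop {i : A ⟶ B} (hi : Cofib i) :
    HEquiv (opn (NDR.cylTop i).isClosed.isOpen_compl) (LC.cof i) :=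
  (HEquiv.of_iso (cofOpnIso (cylTopι_injective hi.injective) (NDR.cylTop i).isClosed
    (range_cylTopι hi.injective)).symm).trans (hequiv_cof_cylTop hi)

end complement

/-! ### The mapping cone -/

section mappingCone

theorem range_eq_ptd (j : C ⟶ D) :
    Set.range (app j) = ptd {d : D | (d : OnePoint D) ∈ Set.range (app j)} := by
  ext z
  induction z using OnePoint.rec with
  | infty => exact ⟨fun _ => infty_mem_ptd _, fun _ => infty_mem_range _⟩
  | coe z => exact (coe_mem_ptd (S := {d : D | (d : OnePoint D) ∈ Set.range (app j)})).symm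

/-- the base of the mapping cone -/
noncomputable def coneSubIso (f : X ⟶ Y) : Y ≅ sub (NDR.cone f).isClosed :=
  isoOfRange (injective_coneInr f) (injective_subι _)
    ((range_eq_ptd (coneInr f)).trans (range_subι _).symm)

/-- the complement of the base of the mapping cone -/
noncomputable def coneOpnIso (f : X ⟶ Y) :
    X ⊗ RR ≅ opn (NDR.cone f).isClosed.isOpen_compl :=
  (cofConeInr f).symm ≪≫
    cofOpnIso (injective_coneInr f) (NDR.cone f).isClosed (range_eq_ptd (coneInr f))

end mappingCone

/-! ### `HC` and arbitrary cofibrations -/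

/-- `HC` is closed under extensions along arbitrary cofibrations. -/
theorem HC.cofib_ext {a b : ℕ} {i : A ⟶ B} {m n : ℤ} (hA : HC a b A m) (hi : Cofib i)
    (hC : HC a b (LC.cof i) n) : HC a b B (m + n) :=
  ((hA.hequiv (HEquiv.of_iso (cylTopIso hi.injective))).ext (NDR.cylTop i)
    (hC.hequiv (hequiv_opn_cylTop hi).symm)).hequiv (hequiv_cyl i)

theorem HC.of_iso' {a b : ℕ} {m : ℤ} (h : HC a b X m) (e : X ≅ Y) : HC a b Y m :=
  h.hequiv (HEquiv.of_iso e)

/-- extensions along cofibrations, with the strict cofibre up to homotopy equivalence -/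
theorem HC.cofib_ext' {a b : ℕ} {i : A ⟶ B} {m n : ℤ} (hi : Cofib i) (hA : HC a b A m)
    (e : HEquiv (LC.cof i) C) (hC : HC a b C n) : HC a b B (m + n) :=
  hA.cofib_ext hi (hC.hequiv e.symm)

/-- the mapping cone -/
theorem HC.cone_susp {a b : ℕ} {m n : ℤ} (f : X ⟶ Y) (hY : HC a b Y n)
    (hX : HC a b (X ⊗ RR) m) : HC a b (LC.cone f) (n + m) :=
  (hY.of_iso' (coneSubIso f)).ext (NDR.cone f) (hX.of_iso' (coneOpnIso f))

end Vale.Agent.P093.N2
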