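import Vale.Agent.P093.N2.ThmA
import Vale.Agent.P093.N2.NicePairs

/-!
# P093, part N2: Theorem A, the half space and the final form
-/

open CategoryTheory MonoidalCategory Filter Topology OnePoint

set_option linter.unusedSectionVars false

namespace Vale.Agent.P093.N2

open Vale.Agent.P251.G Vale.Agent.P251.G.LC

/-- `ℝⁿ × ℝ ≅ ℝⁿ⁺¹` -/
noncomputable def sphSuspIso (n : ℕ) : Sph n ⊗ RR ≅ Sph (n + 1) :=
  whiskerLeftIso (Sph n) (ofHomeo (X := RR) (Y := Sph 1)
    (Homeomorph.funUnique (Fin 1) ℝ).symm) ≪≫ sphTensor n 1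

/-- the half space -/
theorem nonempty_halfData (n : ℕ) : Nonempty (HalfData n) :=
  ⟨{ H := Sph n ⊗ HH
     S := _
     N := NDR.base (Sph n)
     contr := contr_tensor_HH (Sph n)
     bot := HEquiv.of_iso (isoOfRange (injective_coneBase (Sph n))
       (injective_subι (NDR.base (Sph n)).isClosed)
       ((range_coneBase (Sph n)).trans (range_subι _).symm)).symm
     top := HEquiv.of_iso ((cofOpnIso (injective_coneBase (Sph n)) (NDR.base (Sph n)).isClosed
       (range_coneBase (Sph n))).symm ≪≫ cofConeBase (Sph n) ≪≫ sphSuspIso n) }⟩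

variable {G : Type} [Group G] [Fintype G] {X : LC} {Z : Type}
  [TopologicalSpace Z] [T2Space Z] [LocallyCompactSpace Z] [MulAction G Z]
  [ContinuousConstSMul G Z] {a b c d : ℕ} {m z : ℤ}

/-- **Theorem A.** -/
theorem HC.rz (hp : (Fintype.card G).Prime)
    (hX : HC a b X m) (hZ : HC c d (LC.of Z) z) :
    HC c (Fintype.card G * b + 1 + d) (RZ G X Z) (z * qchi (Fintype.card G) m) := by
  classical
  exact HC.rz' nonempty_halfData hp hX hZ

end Vale.Agent.P093.N2
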