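import Vale.Agent.P093.N2.Ect
import Vale.Agent.P093.N2.ThmAFin
import Mathlib.Data.ZMod.Basic

/-!
# P093, part N2: Step 2, final form
-/

open CategoryTheory MonoidalCategory Limits Topology OnePoint

namespace Vale.Agent.P093.N2

open Vale.Agent.P251.G Vale.Agent.P251.G.LC Vale.Agent.P251.I Vale.Agent.P251.T

theorem thA {G : Type} [Group G] [Fintype G] (hp : (Fintype.card G).Prime) :
    ThA G (Fintype.card G) := by
  intro X a b m hX Z _ _ _ _ _ c d z hZ
  exact HC.rz hp hX hZ

universe v u

variable {T : Type u} [Category.{v} T] [Preadditive T] [HasZeroObject T]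
    [HasShift T ℤ] [∀ n : ℤ, (shiftFunctor T n).Additive] [Pretriangulated T]
    [MonoidalCategory T] [SymmetricCategory T] [TensorTriangulated T]

/-- **Step 2**, without hypotheses. -/
theorem ectIn (F : SpaceFunctor T) {p : ℕ} (hp : p.Prime) : N.Fin.EctIn F p := by
  have : NeZero p := ⟨hp.ne_zero⟩
  have hc : Fintype.card (Multiplicative (ZMod p)) = p := by
    rw [Fintype.card_multiplicative, ZMod.card]
  refine ectIn_of (G := Multiplicative (ZMod p)) hp F ?_
  have h := thA (G := Multiplicative (ZMod p)) (by rw [hc]; exact hp)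
  rwa [hc] at h

end Vale.Agent.P093.N2
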