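import Vale.Agent.P093.N2.BorsukHEP
import Vale.Agent.P251.G.Glue

/-!
# P093, block N2/Borsuk: maps to spheres and contractible closed subspaces in `LC`

* `hepS`: every injective morphism of `LC` has the homotopy extension property for maps to the
  spheres `Sph n`;
* `null_cone`: if `W ⟶ Z` is injective and `W` is contractible, then every morphism from the
  mapping cone of `Z ⟶ Z / W` to a sphere is null-homotopic.
-/

open CategoryTheory MonoidalCategory Filter Topology OnePoint Limits

namespace Vale.Agent.P093.N2

open Vale.Agent.P251.G Vale.Agent.P251.G.LC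

section hep

variable {A B : LC} {i : A ⟶ B}

/-- Homotopy extension for maps to spheres along injective morphisms. -/
theorem hepS (hi : Function.Injective (app i)) (n : ℕ) (f : B ⟶ Sph n)
    (H : A ⊗ II ⟶ Sph n) (h0 : incl 0 A ≫ H = i ≫ f) :
    ∃ K : B ⊗ II ⟶ Sph n, incl 0 B ≫ K = f ∧ i ▷ II ≫ K = H := by
  have hemb : IsClosedEmbedding (app i) := (continuous_app i).isClosedEmbedding hi
  let e : OnePoint A ≃ₜ Set.range (app i) := hemb.isEmbedding.toHomeomorph
  have he : ∀ a : OnePoint A, (e a : OnePoint B) = app i a := fun a => rfl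
  obtain ⟨K, hK, K0, KD⟩ := hep_sphere n hemb.isClosed_range (app f) (continuous_app f)
    (fun p => app H (smash (e.symm p.1) (p.2 : OnePoint unitInterval)))
    ((continuous_app H).comp (continuous_smash.comp
      ((e.symm.continuous.comp continuous_fst).prodMk
        (OnePoint.continuous_coe.comp continuous_snd)))) (by
      intro d
      obtain ⟨a, rfl⟩ := e.surjective d
      change app H (smash (e.symm (e a)) ((0 : unitInterval) : OnePoint unitInterval)) =
        app f (app i a)
      rw [e.symm_apply_apply, ← app_incl, ← app_comp, h0, app_comp])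
  have KA : ∀ (a : OnePoint A) (t : unitInterval), K (app i a, t) =
      app H (smash a (t : OnePoint unitInterval)) := by
    intro a t
    have h1 := KD (e a) t
    change K (app i a, t) = app H (smash (e.symm (e a)) (t : OnePoint unitInterval)) at h1
    rwa [e.symm_apply_apply] at h1
  let J : B × unitInterval → OnePoint B × unitInterval := Prod.map (↑) id
  have hJ : IsOpenEmbedding J := OnePoint.isOpenEmbedding_coe.prodMap IsOpenEmbedding.id
  have hinf : ∀ k, k ∉ Set.range J → K k = ∞ := by
    rintro ⟨b, t⟩ hk
    induction b using OnePoint.rec with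
    | infty =>
      have h1 := KA ∞ t
      rw [app_infty, smash_infty_left, app_infty] at h1
      exact h1
    | coe b => exact absurd ⟨(b, t), rfl⟩ hk
  let L : LC.of (B × unitInterval) ⟶ Sph n := ofCompactification J hJ K hK hinf
  have hL : ∀ (b : OnePoint B) (t : unitInterval),
      app L (smash b (t : OnePoint unitInterval)) = K (b, t) := by
    intro b t
    induction b using OnePoint.rec with
    | infty =>
      rw [smash_infty_left, app_infty, hinf]
      rintro ⟨⟨b, t'⟩, h⟩
      exact OnePoint.coe_ne_infty b (congrArg Prod.fst h)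
    | coe b => rfl
  refine ⟨L, ?_, ?_⟩
  · apply app_ext
    intro b
    rw [app_comp, app_incl]
    exact (hL b 0).trans (K0 b)
  · apply app_ext
    intro p
    obtain ⟨a, t, rfl⟩ := exists_smash p
    induction t using OnePoint.rec with
    | infty =>
      rw [smash_infty_right]
      exact (app_infty _).trans (app_infty H).symm
    | coe t =>
      rw [app_comp, app_whiskerRight_smash]
      exact (hL (app i a) t).trans (KA a t)

/-- A map to a sphere which is null-homotopic on a closed subspace can be deformed to a map which
is trivial on it. -/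
theorem exists_deform (hi : Function.Injective (app i)) (n : ℕ) (f : B ⟶ Sph n)
    (h : Homotopic (i ≫ f) 0) : ∃ f' : B ⟶ Sph n, Homotopic f f' ∧ i ≫ f' = 0 := by
  obtain ⟨H, h0, h1⟩ := h
  obtain ⟨K, k0, k1⟩ := hepS hi n f H h0
  refine ⟨incl 1 B ≫ K, ⟨K, k0, rfl⟩, ?_⟩
  rw [← incl_naturality_assoc, k1, h1]

end hep

section cone

variable {W Z : LC} (i : W ⟶ Z)

/-- The inclusion of the open cone on `W` in the mapping cone of `Z ⟶ Z / W`. -/
noncomputable def openCone : cof (coneBase W) ⟶ cone (cofMap i) :=
  cofDesc (coneBase W) (i ▷ HH ≫ coneInl (cofMap i)) (by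
    rw [coneBase_naturality_assoc, cone_w, comp_cofMap_assoc, zero_comp])

@[reassoc]
theorem cofMap_openCone : cofMap (coneBase W) ≫ openCone i = i ▷ HH ≫ coneInl (cofMap i) :=
  cofMap_cofDesc _ _ _

variable {i}

theorem injective_openCone (hi : Function.Injective (app i)) :
    Function.Injective (app (openCone i)) := by
  obtain ⟨-, hb⟩ := bij_of_isPushout (injective_coneBase Z) (isPushout_cone (cofMap i))
  have hval : ∀ (w : W) (t : NNReal) (hu : (((w, t) : W × NNReal) : OnePoint (W × NNReal)) ∉
      Set.range (app (coneBase W))),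
      app (openCone i) (OnePoint.some (X := cof (coneBase W)) ⟨(w, t), hu⟩) =
        app (coneInl (cofMap i)) (smash (app i w) (t : OnePoint NNReal)) := by
    intro w t hu
    have h := app_cofMap_coe (coneBase W) ⟨(w, t), hu⟩
    change app (cofMap (coneBase W)) _ =
      OnePoint.some (X := cof (coneBase W)) ⟨(w, t), hu⟩ at h
    rw [← h, ← app_comp, cofMap_openCone, app_comp]
    rfl
  have hne : ∀ (w : W) (t : NNReal), (((w, t) : W × NNReal) : OnePoint (W × NNReal)) ∉
      Set.range (app (coneBase W)) →
      smash (app i w) (t : OnePoint NNReal) ∉ Set.range (app (coneBase Z)) := by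
    rintro w t hu ⟨z, hz⟩
    rw [app_coneBase] at hz
    rcases smash_inj hz with ⟨-, h2⟩ | ⟨-, h2⟩
    · apply hu
      refine ⟨(w : OnePoint W), ?_⟩
      rw [app_coneBase, h2]
      rfl
    · rw [smash_eq_infty] at h2
      rcases h2 with h2 | h2
      · have := hi (h2.trans (app_infty i).symm)
        exact OnePoint.coe_ne_infty _ this
      · exact OnePoint.coe_ne_infty _ h2
  intro x y hxy
  induction x using OnePoint.rec with
  | infty =>
    induction y using OnePoint.rec with
    | infty => rfl
    | coe y =>
      obtain ⟨⟨w, t⟩, hu⟩ := y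
      exfalso
      rw [app_infty] at hxy
      have h1 := hb.mapsTo (hne w t hu)
      apply h1
      refine ⟨∞, ?_⟩
      rw [app_infty, hxy]
      exact hval w t hu
  | coe x =>
    obtain ⟨⟨w, t⟩, hu⟩ := x
    induction y using OnePoint.rec with
    | infty =>
      exfalso
      rw [app_infty] at hxy
      have h1 := hb.mapsTo (hne w t hu)
      apply h1
      refine ⟨∞, ?_⟩
      rw [app_infty, ← hxy]
      exact hval w t hu
    | coe y =>
      obtain ⟨⟨w', t'⟩, hu'⟩ := y
      have h1 : app (coneInl (cofMap i)) (smash (app i w) (t : OnePoint NNReal)) =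
          app (coneInl (cofMap i)) (smash (app i w') (t' : OnePoint NNReal)) :=
        (hval w t hu).symm.trans (hxy.trans (hval w' t' hu'))
      have h2 := hb.injOn (hne w t hu) (hne w' t' hu') h1
      rcases smash_inj h2 with ⟨h3, h4⟩ | ⟨h3, -⟩
      · have h5 := OnePoint.coe_injective (hi h3)
        have h6 := OnePoint.coe_injective h4
        subst h5 h6
        rfl
      · exfalso
        rw [smash_eq_infty] at h3
        rcases h3 with h3 | h3
        · have := hi (h3.trans (app_infty i).symm)
          exact OnePoint.coe_ne_infty _ this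
        · exact OnePoint.coe_ne_infty _ h3

variable (i) in
/-- The map from the mapping cone of `Z ⟶ C` to the cone of `C`, `C = Z / W`. -/
noncomputable def coneCone : cone (cofMap i) ⟶ cof i ⊗ HH :=
  (isPushout_cone (cofMap i)).desc (cofMap i ▷ HH) (coneBase (cof i)) (coneBase_naturality _)

/-- A morphism from the mapping cone of `Z ⟶ Z / W` which is trivial on the open cone of `W`
is null-homotopic. -/
theorem null_of_openCone {Y : LC} (f : cone (cofMap i) ⟶ Y) (h : openCone i ≫ f = 0) :
    Homotopic f 0 := by
  have h1 : i ▷ HH ≫ (coneInl (cofMap i) ≫ f) = 0 := by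
    rw [← Category.assoc, ← cofMap_openCone, Category.assoc, h, comp_zero]
  let H : cof i ⊗ HH ⟶ Y := (cofWhiskerRight i HH).inv ≫ cofDesc (i ▷ HH) _ h1
  have h2 : cofMap i ▷ HH ≫ H = coneInl (cofMap i) ≫ f := by
    rw [← cofMap_cofWhiskerRight, Category.assoc, Iso.hom_inv_id_assoc, cofMap_cofDesc]
  have h3 : f = coneCone i ≫ H := by
    apply cone_hom_ext
    · rw [coneCone, IsPushout.inl_desc_assoc, h2]
    · rw [coneCone, IsPushout.inr_desc_assoc, ← cancel_epi (cofMap i),
        ← coneBase_naturality_assoc, h2, cone_w_assoc]
  rw [h3]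
  have h4 := Homotopic.comp_left (coneCone i) ((contr_tensor_HH (cof i)).comp_right H)
  rw [Category.id_comp, zero_comp, comp_zero] at h4
  exact h4

/-- Every morphism from the mapping cone of `Z ⟶ Z / W`, `W` closed and contractible, to a
sphere is null-homotopic. -/
theorem null_cone (hi : Function.Injective (app i)) (hW : Contr W) (n : ℕ)
    (f : cone (cofMap i) ⟶ Sph n) : Homotopic f 0 := by
  have hW' : Contr (cof (coneBase W)) :=
    (hW.tensor RR).of_hequiv (HEquiv.of_iso (cofConeBase W).symm)
  have h1 : Homotopic (openCone i ≫ f) 0 := by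
    have h2 := hW'.comp_right (openCone i ≫ f)
    rwa [Category.id_comp, zero_comp] at h2
  obtain ⟨f', hf, hf'⟩ := exists_deform (injective_openCone hi) n f h1
  exact hf.trans (null_of_openCone f' hf')

end cone

end Vale.Agent.P093.N2
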