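import Vale.Agent.P093.N2.BorsukLC
import Vale.Agent.P251.M.SpaceCells
import Vale.Agent.P251.I.CofTriangle

/-!
# P093, block N2/Borsuk: closed subspaces give distinguished triangles

For a suspension spectrum functor `F` and an injective morphism (closed subspace) `i : A ⟶ B`
between finite cell spaces whose strict cofibre `cof i` is again a finite cell space, the map
`cone i ⟶ cof i` goes to an isomorphism, hence `S A ⟶ S B ⟶ S (cof i)` is part of a distinguished
triangle. The morphism `i` is not assumed to be a cofibration.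
-/

open CategoryTheory MonoidalCategory Filter Topology OnePoint Limits Pretriangulated

universe v u

namespace Vale.Agent.P093.N2

open Vale.Agent.P251.G Vale.Agent.P251.G.LC Vale.Agent.P251.I Vale.Agent.P251.T
open Vale.Agent.P251.H Vale.Agent.P251.M

section space

variable {W Z : LC} (i : W ⟶ Z)

/-- `(X × [0, ∞)) × Y ≅ (X × Y) × [0, ∞)` -/
def swapHH (X Y : LC) : (X ⊗ HH) ⊗ Y ≅ (X ⊗ Y) ⊗ HH :=
  ofHomeo (X := LC.of ((X × NNReal) × Y)) (Y := LC.of ((X × Y) × NNReal))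
    { toFun := fun p => ((p.1.1, p.2), p.1.2)
      invFun := fun p => ((p.1.1, p.2), p.1.2)
      left_inv := fun _ => rfl
      right_inv := fun _ => rfl
      continuous_toFun := by fun_prop
      continuous_invFun := by fun_prop }

theorem coneBase_swapHH (X Y : LC) : coneBase X ▷ Y ≫ (swapHH X Y).hom = coneBase (X ⊗ Y) := by
  apply tensor_ext
  intro x y
  rw [app_comp, app_whiskerRight_smash, app_coneBase, app_coneBase]
  rfl

/-- The mapping cone of `Z ⟶ Z / W` tensored with `Y`. -/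
noncomputable def coneTensorIso (Y : LC) : cone (cofMap i) ⊗ Y ≅ cone (cofMap (i ▷ Y)) :=
  IsPushout.isoIsPushout _ _
    (IsPushout.of_iso (isPushout_whiskerRight Y (injective_coneBase Z)
      (isPushout_cone (cofMap i))) (Iso.refl (Z ⊗ Y)) (swapHH Z Y) (cofWhiskerRight i Y).symm
      (Iso.refl (cone (cofMap i) ⊗ Y)) (f' := coneBase (Z ⊗ Y)) (g' := cofMap (i ▷ Y))
      (inl' := (swapHH Z Y).inv ≫ coneInl (cofMap i) ▷ Y)
      (inr' := (cofWhiskerRight i Y).hom ≫ coneInr (cofMap i) ▷ Y)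
      (by rw [coneBase_swapHH, Iso.refl_hom, Category.id_comp])
      (by
        rw [Iso.refl_hom, Category.id_comp, Iso.symm_hom, ← cofMap_cofWhiskerRight,
          Category.assoc, Iso.hom_inv_id, Category.comp_id])
      (by rw [Iso.refl_hom, Category.comp_id, Iso.hom_inv_id_assoc])
      (by rw [Iso.refl_hom, Category.comp_id, Iso.symm_hom, Iso.inv_hom_id_assoc]))
    (isPushout_cone (cofMap (i ▷ Y)))

variable {i}

/-- Every stable map from the mapping cone of `Z ⟶ Z / W`, `W` closed and contractible, to a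
sphere is null-homotopic. -/
theorem null_cone_tensor (hi : Function.Injective (app i)) (hW : Contr W) (m n : ℕ)
    (f : cone (cofMap i) ⊗ Sph m ⟶ Sph n) : Homotopic f 0 := by
  have h1 : Homotopic ((coneTensorIso i (Sph m)).inv ≫ f) 0 :=
    null_cone (injective_whiskerRight (Sph m) hi) (hW.tensor (Sph m)) n _
  have h2 := Homotopic.comp_left (coneTensorIso i (Sph m)).hom h1
  rwa [Iso.hom_inv_id_assoc, comp_zero] at h2

end space

section stable

variable {T : Type u} [Category.{v} T] [Preadditive T] [HasZeroObject T]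
    [HasShift T ℤ] [∀ n : ℤ, (shiftFunctor T n).Additive] [Pretriangulated T]
    [MonoidalCategory T] [SymmetricCategory T] [TensorTriangulated T] (F : SpaceFunctor T)

/-- no maps from the shifts of `S X` to `Y` -/
def NoMaps (X : FCat) (Y : T) : Prop := ∀ (k : ℤ) (g : (F.S.obj X)⟦k⟧ ⟶ Y), g = 0

variable {F} {X : FCat}

theorem NoMaps.of_iso {Y Y' : T} (h : NoMaps F X Y) (e : Y ≅ Y') : NoMaps F X Y' := by
  intro k g
  have h1 := h k (g ≫ e.inv)
  rw [← cancel_mono e.inv, h1, zero_comp]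

theorem NoMaps.ext {Y₁ Y₂ Y₃ : T} {f : Y₁ ⟶ Y₂} {g : Y₂ ⟶ Y₃} {h : Y₃ ⟶ Y₁⟦(1 : ℤ)⟧}
    (D : Dist f g h) (h1 : NoMaps F X Y₁) (h3 : NoMaps F X Y₃) : NoMaps F X Y₂ := by
  intro k a
  obtain ⟨b, rfl⟩ := D.lift₂ a (h3 k _)
  rw [h1 k b, zero_comp]

theorem noMaps_sphere (hX : ∀ (m n : ℕ) (f : X.obj ⊗ Sph m ⟶ Sph n), Homotopic f 0) (n : ℕ) :
    NoMaps F X ((𝟙_ T)⟦(n : ℤ)⟧) := by
  have key : ∀ (a b : ℕ) (g : F.S.obj (X ⊗ SphF a) ⟶ F.S.obj (SphF b)), g = 0 := by
    intro a b g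
    refine eq_zero_of_homotopic F (fun m f => ?_) g
    have h1 := hX (a + m) (b + m)
      (X.obj ◁ (sphTensor a m).inv ≫ (α_ X.obj (Sph a) (Sph m)).inv ≫ f ≫ (sphTensor b m).hom)
    have h2 := Homotopic.comp_left ((α_ X.obj (Sph a) (Sph m)).hom ≫
      X.obj ◁ (sphTensor a m).hom) (h1.comp_right (sphTensor b m).inv)
    have h3 : ((α_ X.obj (Sph a) (Sph m)).hom ≫ X.obj ◁ (sphTensor a m).hom) ≫
        (X.obj ◁ (sphTensor a m).inv ≫ (α_ X.obj (Sph a) (Sph m)).inv ≫ f ≫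
          (sphTensor b m).hom) ≫ (sphTensor b m).inv = f := by
      simp only [Category.assoc, Iso.hom_inv_id, Category.comp_id,
        MonoidalCategory.whiskerLeft_hom_inv_assoc, Iso.hom_inv_id_assoc]
    rw [h3] at h2
    rw [zero_comp, comp_zero] at h2
    exact h2
  intro k g
  let l : ℕ := k.natAbs
  obtain ⟨a, ha⟩ : ∃ a : ℕ, k + (l : ℤ) = a := ⟨(k + l).toNat, by omega⟩
  -- `S (X ⊗ Sph a) ≅ (S X)⟦a⟧ ≅ ((S X)⟦k⟧)⟦l⟧`
  let e1 : F.S.obj (X ⊗ SphF a) ≅ ((F.S.obj X)⟦k⟧)⟦(l : ℤ)⟧ :=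
    (tensorIso F X (SphF a)).symm ≪≫ whiskerLeftIso (F.S.obj X) (sphIso F a) ≪≫
      Vale.Agent.P251.M.tensorUnitShiftIso (F.S.obj X) (a : ℤ) ≪≫
      (shiftFunctorAdd' T k (l : ℤ) (a : ℤ) ha).app (F.S.obj X)
  let e2 : ((𝟙_ T)⟦(n : ℤ)⟧)⟦(l : ℤ)⟧ ≅ F.S.obj (SphF (n + l)) :=
    (shiftFunctorAdd' T (n : ℤ) (l : ℤ) ((n + l : ℕ) : ℤ) (by push_cast; ring)).symm.app (𝟙_ T) ≪≫
      (sphIso F (n + l)).symm
  have h1 := key a (n + l) (e1.hom ≫ g⟦(l : ℤ)⟧' ≫ e2.hom)
  have h2 : g⟦(l : ℤ)⟧' = 0 := by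
    rw [← cancel_epi e1.hom, ← cancel_mono e2.hom, Category.assoc, h1, comp_zero, zero_comp]
  exact (shiftFunctor T (l : ℤ)).map_injective (by rw [h2, Functor.map_zero])

theorem noMaps_space (hX : ∀ (m n : ℕ) (f : X.obj ⊗ Sph m ⟶ Sph n), Homotopic f 0) {Y : LC}
    (hY : FC Y) : NoMaps F X (F.S.obj (⟨Y, hY⟩ : FCat)) := by
  induction hY with
  | empty =>
    intro k g
    exact (F.isZero (X := (⟨LC.of Empty, FC.empty⟩ : FCat))
      (inferInstanceAs (IsEmpty Empty))).eq_of_tgt _ _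
  | sph n => exact (noMaps_sphere hX n).of_iso (sphIso F n).symm
  | @hequiv Y Y' hY hYY ih =>
    obtain ⟨f, g, h1, h2⟩ := hYY
    have hi : IsIso (F.S.map (FCat.hom f : (⟨Y, hY⟩ : FCat) ⟶ ⟨Y', hY.hequiv ⟨f, g, h1, h2⟩⟩)) :=
      isIso_of_isHEquiv F _ ⟨g, h1, h2⟩
    exact ih.of_iso (asIso (F.S.map
      (FCat.hom f : (⟨Y, hY⟩ : FCat) ⟶ ⟨Y', hY.hequiv ⟨f, g, h1, h2⟩⟩)))
  | @ext A B i hi hA hC ihA ihC =>
    obtain ⟨h, D⟩ := exists_cofTriangle F
      (FCat.hom i : (⟨A, hA⟩ : FCat) ⟶ ⟨B, hA.ext hi hC⟩) hi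
    exact ihA.ext D ihC

variable (F) in
/-- A finite cell space all of whose stable maps to spheres are null-homotopic has trivial
suspension spectrum. -/
theorem isZero_of_null (X : FCat)
    (hX : ∀ (m n : ℕ) (f : X.obj ⊗ Sph m ⟶ Sph n), Homotopic f 0) : IsZero (F.S.obj X) := by
  have h := noMaps_space (F := F) hX X.property 0
    ((shiftFunctorZero T ℤ).hom.app (F.S.obj X))
  rw [IsZero.iff_id_eq_zero]
  have h2 : (shiftFunctorZero T ℤ).inv.app (F.S.obj X) ≫
      (shiftFunctorZero T ℤ).hom.app (F.S.obj X) = 𝟙 _ := by simp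
  exact h2.symm.trans
    ((congrArg (fun t => (shiftFunctorZero T ℤ).inv.app (F.S.obj X) ≫ t) h).trans comp_zero)

variable (F)

/-- the map from a finite cell space to its quotient by a contractible closed subspace goes to an
isomorphism -/
theorem isIso_cofMap_of_contr {W Z : LC} {i : W ⟶ Z} (hi : Function.Injective (app i))
    (hW : Contr W) (hZ : FC Z) (hC : FC (cof i)) :
    IsIso (F.S.map (FCat.hom (cofMap i) : (⟨Z, hZ⟩ : FCat) ⟶ ⟨cof i, hC⟩)) := by
  have h1 : IsZero (F.S.obj (coneF (FCat.hom (cofMap i) : (⟨Z, hZ⟩ : FCat) ⟶ ⟨cof i, hC⟩))) :=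
    isZero_of_null F _ (fun m n f => null_cone_tensor hi hW m n f)
  exact (Triangle.isZero₃_iff_isIso₁ _ (F.cone_distinguished
    (FCat.hom (cofMap i) : (⟨Z, hZ⟩ : FCat) ⟶ ⟨cof i, hC⟩))).mp h1

/-- the map from the mapping cone to the strict cofibre, in `FCat` -/
noncomputable abbrev coneToCofI {A B : FCat} (i : A ⟶ B) (hC : FC (cof i.hom)) :
    coneF i ⟶ (⟨cof i.hom, hC⟩ : FCat) := FCat.hom (coneToCof i.hom)

/-- **Borsuk's lemma**: for a closed subspace `A` of `B` with `A`, `B` and `B - A` finite cell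
spaces, the map `cone i ⟶ cof i` goes to an isomorphism (`i` need not be a cofibration). -/
theorem isIso_coneToCof {A B : FCat} (i : A ⟶ B) (hi : Function.Injective (app i.hom))
    (hC : FC (cof i.hom)) : IsIso (F.S.map (coneToCofI i hC)) := by
  have hinj : Function.Injective (app (coneInl i.hom)) :=
    injective_of_isPushout hi (isPushout_cone i.hom).flip
  let e := cofPushout (isPushout_cone i.hom).flip
  have hC' : FC (cof (coneInl i.hom)) := hC.of_iso e
  have h1 := isIso_cofMap_of_contr F hinj (contr_tensor_HH A.obj)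
    (FC.cone A.property B.property i.hom) hC'
  have h2 : IsIso (F.S.map (FCat.hom e.inv : (⟨cof (coneInl i.hom), hC'⟩ : FCat) ⟶
      ⟨cof i.hom, hC⟩)) := isIso_of_isHEquiv F _ (isHEquiv_of_iso e.inv)
  have h3 : coneToCofI i hC =
      (FCat.hom (cofMap (coneInl i.hom)) : coneF i ⟶ ⟨cof (coneInl i.hom), hC'⟩) ≫
        (FCat.hom e.inv : (⟨cof (coneInl i.hom), hC'⟩ : FCat) ⟶ ⟨cof i.hom, hC⟩) := by
    apply ObjectProperty.hom_ext
    change coneToCof i.hom = cofMap (coneInl i.hom) ≫ e.inv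
    rw [Iso.eq_comp_inv]
    apply cone_hom_ext
    · rw [coneInl_coneToCof_assoc, zero_comp, comp_cofMap]
    · rw [coneInr_coneToCof_assoc, cofMap_cofPushout]
  rw [h3, Functor.map_comp]
  exact IsIso.comp_isIso

/-- The distinguished triangle of a closed subspace (not assumed to be a cofibration). -/
theorem exists_closedTriangle {A B : FCat} (i : A ⟶ B) (hi : Function.Injective (app i.hom))
    (hC : FC (cof i.hom)) :
    ∃ h, Dist (F.S.map i) (F.S.map (FCat.hom (cofMap i.hom) : B ⟶ ⟨cof i.hom, hC⟩)) h := by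
  have h1 := isIso_coneToCof F i hi hC
  refine ⟨inv (F.S.map (coneToCofI i hC)) ≫ F.coneδ i,
    dist_of_iso₃ (F.cone_distinguished i) (asIso (F.S.map (coneToCofI i hC))) ?_ ?_⟩
  · rw [asIso_hom, ← Functor.map_comp]
    congr 1
    ext1
    exact coneInr_coneToCof i.hom
  · rw [asIso_hom, IsIso.hom_inv_id_assoc]

/-- The distinguished triangle `S Z ⟶ S Y ⟶ S U` of a closed subspace `Z` of `Y` with open
complement `U`, all three finite cell spaces. -/
theorem exists_closedOpenTriangle {Z Y U : FCat} (z : Z.obj → Y.obj) (hz : IsClosedEmbedding z)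
    (w : U.obj → Y.obj) (hw : IsOpenEmbedding w) (h : IsCompl (Set.range z) (Set.range w)) :
    ∃ d, Dist (F.S.map (FCat.hom (ofClosed z hz) : Z ⟶ Y))
      (F.S.map (FCat.hom (ofOpen w hw) : Y ⟶ U)) d := by
  let e := cofClosedOpen z hz w hw h
  have hC : FC (cof (ofClosed z hz)) := U.property.of_iso e.symm
  obtain ⟨d, D⟩ := exists_closedTriangle F (FCat.hom (ofClosed z hz) : Z ⟶ Y)
    (injective_app_ofClosed z hz) hC
  have h2 : IsIso (F.S.map (FCat.hom e.hom : (⟨cof (ofClosed z hz), hC⟩ : FCat) ⟶ U)) :=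
    isIso_of_isHEquiv F _ (isHEquiv_of_iso e.hom)
  refine ⟨inv (F.S.map (FCat.hom e.hom : (⟨cof (ofClosed z hz), hC⟩ : FCat) ⟶ U)) ≫ d,
    dist_of_iso₃ D (asIso (F.S.map
      (FCat.hom e.hom : (⟨cof (ofClosed z hz), hC⟩ : FCat) ⟶ U))) ?_ ?_⟩
  · rw [asIso_hom, ← Functor.map_comp]
    congr 1
    ext1
    exact cofMap_cofClosedOpen z hz w hw h
  · rw [asIso_hom, IsIso.hom_inv_id_assoc]

end stable

end Vale.Agent.P093.N2
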