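import Vale.Agent.P093.N2.ChiBasis
import Mathlib.LinearAlgebra.Dimension.FreeAndStrongRankCondition
import Mathlib.LinearAlgebra.FiniteDimensional.Defs
import Mathlib.Data.Rat.Lemmas

/-!
# P093, N2, block 2E: from rational dimensions to bases
-/

open CategoryTheory MonoidalCategory Limits Pretriangulated MonObj

universe v u

set_option linter.unusedSectionVars false

namespace Vale.Agent.P093.N2

open Vale.Agent.P251 Vale.Agent.P251.M Vale.Agent.P251.T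

/-- A finite family of rational numbers has a common denominator. -/
theorem exists_den {J : Type*} [Fintype J] (q : J → ℚ) :
    ∃ (m : ℤ) (a : J → ℤ), m ≠ 0 ∧ ∀ i, (m : ℚ) * q i = a i := by
  classical
  refine ⟨∏ i, ((q i).den : ℤ), fun i => (∏ j ∈ Finset.univ.erase i, ((q j).den : ℤ)) * (q i).num,
    Finset.prod_ne_zero_iff.2 fun i _ => by exact_mod_cast (q i).den_ne_zero, fun i => ?_⟩
  rw [← Finset.mul_prod_erase Finset.univ (fun i => ((q i).den : ℤ)) (Finset.mem_univ i)]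
  push_cast
  have h1 : ((q i).den : ℚ) * q i = (q i).num := by
    rw [mul_comm]
    exact Rat.mul_den_eq_num (q i)
  rw [mul_right_comm, h1]
  ring

theorem rat_smul_eq {V : Type*} [AddCommGroup V] [Module ℚ V] (a : ℤ) (v : V) :
    (a : ℚ) • v = a • v := Int.cast_smul_eq_zsmul ℚ a v

variable {T : Type u} [Category.{v} T] [Preadditive T] [HasZeroObject T]
    [HasShift T ℤ] [∀ n : ℤ, (shiftFunctor T n).Additive] [Pretriangulated T]
    [MonoidalCategory T] [SymmetricCategory T] [TensorTriangulated T] {R : T} [MonObj R]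

/-- A basis of the rational homology, from the finiteness of the dimensions. -/
theorem GBasis.exists_of_rat (Y : T) (N : ℕ)
    (van : ∀ k : ℤ, k < 0 ∨ (N : ℤ) ≤ k → ∀ x : (𝟙_ T)⟦k⟧ ⟶ R ⊗ Y, x = 0)
    [∀ k : ℕ, Module ℚ ((𝟙_ T)⟦(k : ℤ)⟧ ⟶ R ⊗ Y)]
    [∀ k : ℕ, FiniteDimensional ℚ ((𝟙_ T)⟦(k : ℤ)⟧ ⟶ R ⊗ Y)] :
    ∃ B : GBasis R Y N, ∀ k, B.d k = Module.finrank ℚ ((𝟙_ T)⟦(k : ℤ)⟧ ⟶ R ⊗ Y) := by
  refine ⟨{
    d := fun k => Module.finrank ℚ ((𝟙_ T)⟦(k : ℤ)⟧ ⟶ R ⊗ Y)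
    g := fun k i => Module.finBasis ℚ ((𝟙_ T)⟦(k : ℤ)⟧ ⟶ R ⊗ Y) i
    span := ?_
    indep := ?_
    van := van }, fun k => rfl⟩
  · intro k _ x
    obtain ⟨m, a, hm, h⟩ := exists_den fun i =>
      (Module.finBasis ℚ ((𝟙_ T)⟦(k : ℤ)⟧ ⟶ R ⊗ Y)).repr x i
    refine ⟨m, a, hm, ?_⟩
    conv_lhs => rw [← (Module.finBasis ℚ ((𝟙_ T)⟦(k : ℤ)⟧ ⟶ R ⊗ Y)).sum_repr x]
    rw [← rat_smul_eq, Finset.smul_sum]
    refine Finset.sum_congr rfl fun i _ => ?_
    rw [smul_smul, h, rat_smul_eq]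
  · intro k _ a h
    have h1 := (Module.finBasis ℚ ((𝟙_ T)⟦(k : ℤ)⟧ ⟶ R ⊗ Y)).linearIndependent
    rw [Fintype.linearIndependent_iff] at h1
    have h2 := h1 (fun i => (a i : ℚ)) (by
      rw [← h]
      exact Finset.sum_congr rfl fun i _ => rat_smul_eq _ _)
    funext i
    exact_mod_cast h2 i

end Vale.Agent.P093.N2
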