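import Vale.Agent.P093.N2.ChiTrace
import Vale.Agent.P251.S.TensorShift
import Vale.Agent.P251.H.Dist
import Vale.Agent.P251.M.Even
import Vale.Agent.P251.M.CofIn
import Vale.Agent.P251.M.SpaceConn
import Vale.Agent.P251.I.CofTriangle
import Mathlib.CategoryTheory.Monoidal.Closed.Basic

/-!
# P093, N2, block 2E: dualizable objects

`Dz K` : `K` has a dual. In a closed tensor triangulated category the dualizable objects contain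
the spheres `𝟙⟦n⟧` and are closed under isomorphisms, tensor products, shifts and extensions.
-/

open CategoryTheory MonoidalCategory Limits Pretriangulated

universe v u

namespace Vale.Agent.P093.N2

open Vale.Agent.P251 Vale.Agent.P251.M

section pairing

variable {C : Type u} [Category.{v} C] [MonoidalCategory C]

/-- An exact pairing from one triangle identity and a uniqueness property. -/
@[instance_reducible]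
def exactPairingOf {L K : C} (η : 𝟙_ C ⟶ L ⊗ K) (ε : K ⊗ L ⟶ 𝟙_ C)
    (h1 : K ◁ η ≫ (α_ K L K).inv ≫ ε ▷ K = (ρ_ K).hom ≫ (λ_ K).inv)
    (h2 : ∀ u : L ⟶ L, K ◁ u ≫ ε = ε → u = 𝟙 L) : ExactPairing L K where
  coevaluation' := η
  evaluation' := ε
  coevaluation_evaluation' := h1
  evaluation_coevaluation' := by
    have key : K ◁ ((λ_ L).inv ≫ η ▷ L ≫ (α_ L K L).hom ≫ L ◁ ε ≫ (ρ_ L).hom) ≫ ε = ε := by
      calc _ = 𝟙 _ ⊗≫ K ◁ η ▷ L ⊗≫ ((K ⊗ L) ◁ ε ≫ ε ▷ 𝟙_ C) ⊗≫ 𝟙 (𝟙_ C) := by monoidal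
        _ = 𝟙 _ ⊗≫ K ◁ η ▷ L ⊗≫ (ε ▷ (K ⊗ L) ≫ 𝟙_ C ◁ ε) ⊗≫ 𝟙 (𝟙_ C) := by
          rw [whisker_exchange]
        _ = 𝟙 _ ⊗≫ (K ◁ η ≫ (α_ K L K).inv ≫ ε ▷ K) ▷ L ⊗≫ ε := by monoidal
        _ = 𝟙 _ ⊗≫ ((ρ_ K).hom ≫ (λ_ K).inv) ▷ L ⊗≫ ε := by rw [h1]
        _ = ε := by monoidal
    have h3 := h2 _ key
    rw [← cancel_epi (λ_ L).inv, ← cancel_mono (ρ_ L).hom]
    simpa using h3

/-- `u ↦ A ⊗ W ⟶ A ⊗ (L ⊗ Y) ⟶ Y` -/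
def nu {A L : C} (ε : A ⊗ L ⟶ 𝟙_ C) {W Y : C} (u : W ⟶ L ⊗ Y) : A ⊗ W ⟶ Y :=
  A ◁ u ≫ (α_ A L Y).inv ≫ ε ▷ Y ≫ (λ_ Y).hom

theorem nu_comp {A L : C} (ε : A ⊗ L ⟶ 𝟙_ C) {W Y Y' : C} (u : W ⟶ L ⊗ Y) (f : Y ⟶ Y') :
    nu ε (u ≫ L ◁ f) = nu ε u ≫ f := by
  simp only [nu, MonoidalCategory.whiskerLeft_comp, Category.assoc]
  rw [associator_inv_naturality_right_assoc, whisker_exchange_assoc, leftUnitor_naturality]

/-- the universal property of a (weak) dual -/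
def Univ {A L : C} (ε : A ⊗ L ⟶ 𝟙_ C) : Prop :=
  ∀ W : C, Function.Bijective fun u : W ⟶ L => A ◁ u ≫ ε

/-- `Hom(W, L ⊗ Y) = Hom(A ⊗ W, Y)` -/
def Good {A L : C} (ε : A ⊗ L ⟶ 𝟙_ C) (Y : C) : Prop :=
  ∀ W : C, Function.Bijective fun u : W ⟶ L ⊗ Y => nu ε u

theorem nu_whiskerRight {A L : C} (ε : A ⊗ L ⟶ 𝟙_ C) {W Y M : C} (e : Y ⊗ M ⟶ 𝟙_ C)
    (u : W ⟶ L ⊗ Y) : nu ε u ▷ M ≫ e =
      (α_ A W M).hom ≫ A ◁ (u ▷ M ≫ (α_ L Y M).hom ≫ L ◁ e ≫ (ρ_ L).hom) ≫ ε := by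
  symm
  calc _ = 𝟙 _ ⊗≫ A ◁ u ▷ M ⊗≫ ((A ⊗ L) ◁ e ≫ ε ▷ 𝟙_ C) ⊗≫ 𝟙 (𝟙_ C) := by monoidal
    _ = 𝟙 _ ⊗≫ A ◁ u ▷ M ⊗≫ (ε ▷ (Y ⊗ M) ≫ 𝟙_ C ◁ e) ⊗≫ 𝟙 (𝟙_ C) := by rw [whisker_exchange]
    _ = nu ε u ▷ M ≫ e := by
      rw [nu]
      monoidal

/-- The comparison is bijective for dualizable `Y`. -/
theorem good_of_dual {A L : C} {ε : A ⊗ L ⟶ 𝟙_ C} (hε : Univ ε) {M Y : C} [ExactPairing M Y] :
    Good ε Y := by
  intro W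
  have e1 : ∀ u : W ⟶ L ⊗ Y, (tensorRightHomEquiv W M Y L).symm u =
      u ▷ M ≫ (α_ L Y M).hom ≫ L ◁ ε_ M Y ≫ (ρ_ L).hom := fun u => rfl
  have e2 : ∀ v : A ⊗ W ⟶ Y, (tensorRightHomEquiv (A ⊗ W) M Y (𝟙_ C)).symm (v ≫ (λ_ Y).inv) =
      v ▷ M ≫ ε_ M Y := by
    intro v
    change (v ≫ (λ_ Y).inv) ▷ M ≫ (α_ (𝟙_ C) Y M).hom ≫ (𝟙_ C) ◁ ε_ M Y ≫ (ρ_ (𝟙_ C)).hom = _
    generalize ε_ M Y = e
    calc _ = v ▷ M ≫ (λ_ (Y ⊗ M)).inv ≫ (𝟙_ C) ◁ e ≫ (ρ_ (𝟙_ C)).hom := by monoidal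
      _ = _ := by
        rw [← leftUnitor_inv_naturality_assoc, ← unitors_equal, Iso.inv_hom_id]
        simp
  have inj2 : ∀ v v' : A ⊗ W ⟶ Y, v ▷ M ≫ ε_ M Y = v' ▷ M ≫ ε_ M Y → v = v' := by
    intro v v' h
    rw [← e2, ← e2] at h
    have h2 := (tensorRightHomEquiv (A ⊗ W) M Y (𝟙_ C)).symm.injective h
    exact (cancel_mono _).1 h2
  constructor
  · intro u u' h
    have h1 : nu ε u ▷ M ≫ ε_ M Y = nu ε u' ▷ M ≫ ε_ M Y := congrArg (fun v => v ▷ M ≫ ε_ M Y) h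
    rw [nu_whiskerRight, nu_whiskerRight, cancel_epi, ← e1, ← e1] at h1
    exact (tensorRightHomEquiv W M Y L).symm.injective ((hε _).1 h1)
  · intro v
    obtain ⟨u', hu'⟩ := (hε (W ⊗ M)).2 ((α_ A W M).inv ≫ v ▷ M ≫ ε_ M Y)
    refine ⟨tensorRightHomEquiv W M Y L u', inj2 _ _ ?_⟩
    rw [nu_whiskerRight, ← e1, Equiv.symm_apply_apply]
    dsimp only at hu'
    rw [hu', Iso.hom_inv_id_assoc]

/-- If the comparison is bijective for `Y = K`, then `K` is dualizable. -/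
theorem nonempty_of_good {K L : C} {ε : K ⊗ L ⟶ 𝟙_ C} (hε : Univ ε) (h : Good ε K) :
    Nonempty (ExactPairing L K) := by
  obtain ⟨η, hη⟩ := (h (𝟙_ C)).2 (ρ_ K).hom
  refine ⟨exactPairingOf η ε ?_ ?_⟩
  · dsimp only at hη
    rw [nu] at hη
    rw [← hη]
    simp
  · intro u hu
    refine (hε L).1 ?_
    dsimp only
    rw [hu, MonoidalCategory.whiskerLeft_id, Category.id_comp]

/-- `K` has a dual. -/
def Dz (K : C) : Prop := ∃ L : C, Nonempty (ExactPairing L K)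

theorem Dz.of_iso {K K' : C} (h : Dz K) (e : K ≅ K') : Dz K' := by
  obtain ⟨L, ⟨_⟩⟩ := h
  exact ⟨L, ⟨exactPairingCongrRight e.symm⟩⟩

theorem Dz.tensor {K K' : C} (h : Dz K) (h' : Dz K') : Dz (K ⊗ K') := by
  obtain ⟨L, ⟨_⟩⟩ := h
  obtain ⟨L', ⟨_⟩⟩ := h'
  exact ⟨L' ⊗ L, ⟨ExactPairing.tensor⟩⟩

theorem Dz.unit : Dz (𝟙_ C) := ⟨𝟙_ C, ⟨exactPairingUnit⟩⟩

/-- An invertible object has an invertible dual. -/
theorem exists_pairing_of_iso [BraidedCategory C] {M L : C} (i : M ⊗ L ≅ 𝟙_ C) [IsInv L] :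
    ∃ _ : ExactPairing M L, IsIso (η_ M L) ∧ IsIso (ε_ M L) := by
  have hR : (tensorRight L).IsEquivalence :=
    Functor.isEquivalence_of_iso (BraidedCategory.tensorLeftIsoTensorRight L)
  let f : (L ⊗ M) ⊗ L ⟶ 𝟙_ C ⊗ L := (α_ L M L).hom ≫ L ◁ i.hom ≫ (ρ_ L).hom ≫ (λ_ L).inv
  let ε : L ⊗ M ⟶ 𝟙_ C := (tensorRight L).preimage f
  have hε : ε ▷ L = f := (tensorRight L).map_preimage f
  have hi : IsIso ε := by
    have : IsIso ((tensorRight L).map ε) := by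
      change IsIso (ε ▷ L)
      rw [hε]
      infer_instance
    exact isIso_of_reflects_iso ε (tensorRight L)
  refine ⟨exactPairingOf i.inv ε ?_ ?_, ?_, ?_⟩
  · rw [hε]
    simp only [f, Iso.inv_hom_id_assoc]
    rw [← MonoidalCategory.whiskerLeft_comp_assoc, Iso.inv_hom_id]
    simp
  · intro u hu
    refine whiskerLeft_inj L ?_
    rw [← cancel_mono ε, hu]
    simp
  · change IsIso i.inv
    infer_instance
  · exact hi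

end pairing

section closed

variable {C : Type u} [Category.{v} C] [MonoidalCategory C] [MonoidalClosed C]

/-- the evaluation `A ⊗ D A ⟶ 𝟙` -/
noncomputable def evD (A : C) : A ⊗ (ihom A).obj (𝟙_ C) ⟶ 𝟙_ C := (ihom.ev A).app (𝟙_ C)

theorem univ_evD (A : C) : Univ (evD A) := by
  intro W
  have h : (fun u : W ⟶ (ihom A).obj (𝟙_ C) => A ◁ u ≫ evD A) = MonoidalClosed.uncurry := by
    funext u
    exact (MonoidalClosed.uncurry_eq u).symm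
  rw [h]
  exact ⟨MonoidalClosed.uncurry_injective, fun f => ⟨MonoidalClosed.curry f,
    MonoidalClosed.uncurry_curry f⟩⟩

theorem Dz.good {Y : C} (h : Dz Y) (A : C) : Good (evD A) Y := by
  obtain ⟨M, ⟨hM⟩⟩ := h
  exact good_of_dual (M := M) (univ_evD A)

theorem Dz.of_good {K : C} (h : Good (evD K) K) : Dz K :=
  ⟨_, nonempty_of_good (univ_evD K) h⟩

end closed

section triangulated

open Vale.Agent.P251.T Vale.Agent.P251.H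

set_option linter.unusedSectionVars false

variable {T : Type u} [Category.{v} T] [Preadditive T] [HasZeroObject T]
    [HasShift T ℤ] [∀ n : ℤ, (shiftFunctor T n).Additive] [Pretriangulated T]
    [MonoidalCategory T] [SymmetricCategory T] [TensorTriangulated T]

/-- `𝟙⟦a⟧ ⊗ 𝟙⟦b⟧ ≅ 𝟙⟦a + b⟧` -/
noncomputable def shTen' (a b c : ℤ) (h : a + b = c) :
    (𝟙_ T)⟦a⟧ ⊗ (𝟙_ T)⟦b⟧ ≅ (𝟙_ T)⟦c⟧ :=
  S.tensorSph b ((𝟙_ T)⟦a⟧) ≪≫ (shiftFunctorAdd' T a b c h).symm.app (𝟙_ T)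

/-- `𝟙⟦-n⟧ ⊗ 𝟙⟦n⟧ ≅ 𝟙` -/
noncomputable def shInv (n : ℤ) : (𝟙_ T)⟦-n⟧ ⊗ (𝟙_ T)⟦n⟧ ≅ 𝟙_ T :=
  shTen' (-n) n 0 (by ring) ≪≫ (shiftFunctorZero T ℤ).app (𝟙_ T)

instance isInv_sphere (n : ℤ) : IsInv ((𝟙_ T)⟦n⟧) where
  equiv := by
    have : (shiftFunctor T n).IsEquivalence := inferInstance
    exact Functor.isEquivalence_of_iso
      (NatIso.ofComponents (fun Y => (S.sphTensor n Y).symm)
        (fun {Y Z} f => by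
          change f⟦n⟧' ≫ (S.sphTensor n Z).inv = (S.sphTensor n Y).inv ≫ ((𝟙_ T)⟦n⟧) ◁ f
          rw [Iso.comp_inv_eq, Category.assoc, S.sphTensor_naturality, Iso.inv_hom_id_assoc]) :
        shiftFunctor T n ≅ tensorLeft ((𝟙_ T)⟦n⟧))

theorem exists_pairing_sphere (n : ℤ) : ∃ _ : ExactPairing ((𝟙_ T)⟦-n⟧) ((𝟙_ T)⟦n⟧),
    IsIso (η_ ((𝟙_ T)⟦-n⟧) ((𝟙_ T)⟦n⟧)) ∧ IsIso (ε_ ((𝟙_ T)⟦-n⟧) ((𝟙_ T)⟦n⟧)) :=
  exists_pairing_of_iso (shInv n)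

theorem Dz.sphere (n : ℤ) : Dz ((𝟙_ T)⟦n⟧) := by
  obtain ⟨h, -⟩ := exists_pairing_sphere (T := T) n
  exact ⟨_, ⟨h⟩⟩

theorem Dz.shift {K : T} (h : Dz K) (n : ℤ) : Dz (K⟦n⟧) :=
  (h.tensor (Dz.sphere n)).of_iso (S.tensorSph n K)

theorem Dz.of_isZero {K : T} (h : IsZero K) : Dz K := by
  have h1 : IsZero (K ⊗ 𝟙_ T) := h.of_iso (ρ_ K)
  exact ⟨K, ⟨exactPairingOf 0 0 (h1.eq_of_src _ _) (fun u _ => h.eq_of_src _ _)⟩⟩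

theorem nu_add {A L : T} (ε : A ⊗ L ⟶ 𝟙_ T) {W Y : T} (u u' : W ⟶ L ⊗ Y) :
    nu ε (u + u') = nu ε u + nu ε u' := by
  simp only [nu, MonoidalPreadditive.whiskerLeft_add, Preadditive.add_comp]

theorem nu_zero {A L : T} (ε : A ⊗ L ⟶ 𝟙_ T) {W Y : T} : nu ε (0 : W ⟶ L ⊗ Y) = 0 := by
  simp only [nu, MonoidalPreadditive.whiskerLeft_zero, zero_comp]

theorem nu_sub {A L : T} (ε : A ⊗ L ⟶ 𝟙_ T) {W Y : T} (u u' : W ⟶ L ⊗ Y) :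
    nu ε (u - u') = nu ε u - nu ε u' := by
  rw [eq_sub_iff_add_eq, ← nu_add, sub_add_cancel]

/-- The comparison is bijective for extensions. -/
theorem Good.ext {A L : T} {ε : A ⊗ L ⟶ 𝟙_ T} {Y₁ Y₂ Y₃ : T} {f : Y₁ ⟶ Y₂} {g : Y₂ ⟶ Y₃}
    {h : Y₃ ⟶ Y₁⟦(1 : ℤ)⟧} (D : Dist f g h) (h1 : Good ε Y₁) (h1' : Good ε (Y₁⟦(1 : ℤ)⟧))
    (h3 : Good ε Y₃) (h3' : Good ε (Y₃⟦(-1 : ℤ)⟧)) : Good ε Y₂ := by
  intro W
  obtain ⟨δ, D'⟩ : ∃ δ : L ⊗ Y₃ ⟶ (L ⊗ Y₁)⟦(1 : ℤ)⟧, Dist (L ◁ f) (L ◁ g) δ :=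
    ⟨_, S.dist_whiskerLeft L D⟩
  obtain ⟨θ, D''⟩ : ∃ θ : L ⊗ Y₁⟦(1 : ℤ)⟧ ⟶ (L ⊗ Y₂)⟦(1 : ℤ)⟧, Dist (L ◁ g) (L ◁ h) θ :=
    ⟨_, S.dist_whiskerLeft L D.rot⟩
  constructor
  · intro u u' huu
    rw [← sub_eq_zero] at huu ⊢
    dsimp only at huu
    rw [← nu_sub] at huu
    generalize u - u' = w at huu ⊢
    have e1 : w ≫ L ◁ g = 0 := by
      refine (h3 W).1 ?_
      dsimp only
      rw [nu_comp, huu, zero_comp, nu_zero]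
    obtain ⟨w1, hw1⟩ := D'.lift₂ w e1
    have e2 : nu ε w1 ≫ f = 0 := by rw [← nu_comp, hw1, huu]
    obtain ⟨a, b, D0⟩ := Dist.invRot' D
    obtain ⟨c, hc⟩ := D0.lift₂ _ e2
    obtain ⟨w0, hw0⟩ := (h3' W).2 c
    dsimp only at hw0
    have e3 : w0 ≫ L ◁ a = w1 := by
      refine (h1 W).1 ?_
      dsimp only
      rw [nu_comp, hw0, hc]
    rw [← hw1, ← e3, Category.assoc, ← MonoidalCategory.whiskerLeft_comp, D0.zero₁₂,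
      MonoidalPreadditive.whiskerLeft_zero, comp_zero]
  · intro v
    obtain ⟨u3, hu3⟩ := (h3 W).2 (v ≫ g)
    dsimp only at hu3
    have e1 : u3 ≫ L ◁ h = 0 := by
      refine (h1' W).1 ?_
      dsimp only
      rw [nu_comp, hu3, nu_zero, Category.assoc, D.zero₂₃, comp_zero]
    obtain ⟨u2, hu2⟩ := D''.lift₂ u3 e1
    have e2 : (v - nu ε u2) ≫ g = 0 := by
      rw [Preadditive.sub_comp, ← nu_comp, hu2, hu3, sub_self]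
    obtain ⟨v1, hv1⟩ := D.lift₂ _ e2
    obtain ⟨u1, hu1⟩ := (h1 W).2 v1
    dsimp only at hu1
    refine ⟨u2 + u1 ≫ L ◁ f, ?_⟩
    dsimp only
    rw [nu_add, nu_comp, hu1, hv1, add_sub_cancel]

section closed

variable [MonoidalClosed T]

/-- Extensions of dualizable objects are dualizable. -/
theorem Dz.ext {Y₁ Y₂ Y₃ : T} {f : Y₁ ⟶ Y₂} {g : Y₂ ⟶ Y₃} {h : Y₃ ⟶ Y₁⟦(1 : ℤ)⟧}
    (D : Dist f g h) (h1 : Dz Y₁) (h3 : Dz Y₃) : Dz Y₂ :=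
  Dz.of_good (Good.ext D (h1.good _) ((h1.shift 1).good _) (h3.good _) ((h3.shift (-1)).good _))

/-- Spectra of finite cell spaces are dualizable. -/
theorem Dz.space (F : I.SpaceFunctor T) (X : I.FCat) : Dz (F.S.obj X) := by
  obtain ⟨X, hX⟩ := X
  induction hX with
  | empty => exact Dz.of_isZero (F.isZero (X := ⟨G.LC.of Empty, G.LC.FC.empty⟩)
      (inferInstanceAs (IsEmpty Empty)))
  | sph n => exact (Dz.sphere (n : ℤ)).of_iso (sphIso F n).symm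
  | @hequiv X Y hX h ih =>
    obtain ⟨f, g, h1, h2⟩ := h
    have := F.isIso_map (I.FCat.hom f : (⟨X, hX⟩ : I.FCat) ⟶ ⟨Y, hX.hequiv ⟨f, g, h1, h2⟩⟩)
      ⟨g, h1, h2⟩
    exact ih.of_iso (asIso (F.S.map (I.FCat.hom f : (⟨X, hX⟩ : I.FCat) ⟶
      ⟨Y, hX.hequiv ⟨f, g, h1, h2⟩⟩)))
  | @ext A B i hi hA hC ihA ihC =>
    have hB : G.LC.FC B := .ext hi hA hC
    exact Dz.ext (F.cof_distinguished (I.FCat.hom i : (⟨A, hA⟩ : I.FCat) ⟶ ⟨B, hB⟩) hi) ihA ihC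

end closed

end triangulated

end Vale.Agent.P093.N2
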