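import Vale.Agent.P093.N2.ChiDual

/-!
# P093, N2, block 2E: the symmetry and the trace of the spheres

The symmetry of `𝟙⟦n⟧` is `(-1)^n`, and so is the trace of its identity.
-/

open CategoryTheory MonoidalCategory Limits Pretriangulated

universe v u

set_option linter.unusedSectionVars false

namespace Vale.Agent.P093.N2

open Vale.Agent.P251 Vale.Agent.P251.M Vale.Agent.P251.T

theorem braiding_unit {C : Type u} [Category.{v} C] [MonoidalCategory C] [BraidedCategory C] :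
    (β_ (𝟙_ C) (𝟙_ C)).hom = 𝟙 (𝟙_ C ⊗ 𝟙_ C) := by
  rw [← cancel_mono (λ_ (𝟙_ C)).hom, braiding_leftUnitor, Category.id_comp, unitors_equal]

variable {T : Type u} [Category.{v} T] [Preadditive T] [HasZeroObject T]
    [HasShift T ℤ] [∀ n : ℤ, (shiftFunctor T n).Additive] [Pretriangulated T]
    [MonoidalCategory T] [SymmetricCategory T] [TensorTriangulated T]

/-- The symmetry of the sphere `𝟙⟦n⟧`. -/
theorem braiding_sphere (n : ℕ) : (β_ ((𝟙_ T)⟦(n : ℤ)⟧) ((𝟙_ T)⟦(n : ℤ)⟧)).hom =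
    ((-1) ^ n : ℤ) • 𝟙 ((𝟙_ T)⟦(n : ℤ)⟧ ⊗ (𝟙_ T)⟦(n : ℤ)⟧) := by
  induction n with
  | zero =>
    have h : (β_ (𝟙_ T) (𝟙_ T)).hom = ((-1) ^ 0 : ℤ) • 𝟙 (𝟙_ T ⊗ 𝟙_ T) := by
      rw [braiding_unit, pow_zero, one_smul]
    exact braiding_of_iso ((shiftFunctorZero T ℤ).app (𝟙_ T)).symm h
  | succ n ih =>
    have h1 : (β_ ((𝟙_ T)⟦(1 : ℤ)⟧) ((𝟙_ T)⟦(1 : ℤ)⟧)).hom =
        (-1 : ℤ) • 𝟙 ((𝟙_ T)⟦(1 : ℤ)⟧ ⊗ (𝟙_ T)⟦(1 : ℤ)⟧) := by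
      rw [TensorTriangulated.sign, neg_smul, one_smul]
    rw [pow_succ]
    exact braiding_of_iso (shTen' (n : ℤ) 1 ((n + 1 : ℕ) : ℤ) (by push_cast; ring))
      (braiding_tensor_self ih h1)

/-- The trace of the identity of the sphere `𝟙⟦n⟧`. -/
theorem exists_pairing_sphere_tr (n : ℕ) :
    ∃ _ : ExactPairing ((𝟙_ T)⟦-(n : ℤ)⟧) ((𝟙_ T)⟦(n : ℤ)⟧),
      trc ((𝟙_ T)⟦-(n : ℤ)⟧) ((𝟙_ T)⟦(n : ℤ)⟧) (𝟙 _) = ((-1) ^ n : ℤ) • 𝟙 (𝟙_ T) := by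
  obtain ⟨h, h1, h2⟩ := exists_pairing_sphere (T := T) (n : ℤ)
  refine ⟨h, tr_id_of_braiding (braiding_sphere n) ?_⟩
  rw [← mul_pow]
  norm_num

end Vale.Agent.P093.N2
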