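import Vale.Agent.P251.G.CofibEx
import Vale.Agent.P251.G.PowLC

/-!
# P093, part N2: descent along surjective morphisms of `LC`

Morphisms, homotopies and retractions of cylinders (hence cofibrations) descend along morphisms
`π : P ⟶ Y` for which `app π` is surjective, and more generally along continuous surjections
`c : C → OnePoint Y` of a compact space `C`.
-/

open CategoryTheory MonoidalCategory Filter Topology OnePoint

namespace Vale.Agent.P093.N2

open Vale.Agent.P251.G Vale.Agent.P251.G.LC

section cover

variable {C : Type*} [TopologicalSpace C] [CompactSpace C] {A Y Z : LC}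

/-- A continuous surjection of a compact space onto a one-point compactification is a quotient
map. -/
theorem isQuotientMap_cover {c : C → OnePoint Y} (hc : Continuous c)
    (hs : Function.Surjective c) : IsQuotientMap c :=
  IsQuotientMap.of_surjective_continuous hs hc

/-- The morphism `Y ⟶ Z` induced by a continuous map on a cover of `OnePoint Y`. -/
noncomputable def coverDesc (c : C → OnePoint Y) (hc : Continuous c)
    (hs : Function.Surjective c) (F : C → OnePoint Z) (hF : Continuous F)
    (h : ∀ x y, c x = c y → F x = F y) (hinf : ∀ x, c x = ∞ → F x = ∞) : Y ⟶ Z :=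
  ⟨⟨IsQuotientMap.lift (f := ⟨c, hc⟩) (isQuotientMap_cover hc hs) ⟨F, hF⟩ h,
    map_continuous _⟩, by
    obtain ⟨x, hx⟩ := hs ∞
    have h1 : IsQuotientMap.lift (f := ⟨c, hc⟩) (isQuotientMap_cover hc hs) ⟨F, hF⟩ h (c x) =
        F x := DFunLike.congr_fun (IsQuotientMap.lift_comp (f := ⟨c, hc⟩)
          (isQuotientMap_cover hc hs) ⟨F, hF⟩ h) x
    rw [hx, hinf x hx] at h1
    exact h1⟩

theorem app_coverDesc (c : C → OnePoint Y) (hc : Continuous c)
    (hs : Function.Surjective c) (F : C → OnePoint Z) (hF : Continuous F)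
    (h : ∀ x y, c x = c y → F x = F y) (hinf : ∀ x, c x = ∞ → F x = ∞) (x : C) :
    app (coverDesc c hc hs F hF h hinf) (c x) = F x :=
  DFunLike.congr_fun (IsQuotientMap.lift_comp (f := ⟨c, hc⟩)
    (isQuotientMap_cover hc hs) ⟨F, hF⟩ h) x

/-- the induced cover of the cylinder -/
def cylCover (c : C → OnePoint Y) (p : C × unitInterval) : OnePoint (Y × unitInterval) :=
  smash (c p.1) (p.2 : OnePoint unitInterval)

theorem continuous_cylCover {c : C → OnePoint Y} (hc : Continuous c) :
    Continuous (cylCover c) :=
  continuous_smash.comp ((hc.comp continuous_fst).prodMk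
    (OnePoint.continuous_coe.comp continuous_snd))

theorem surjective_cylCover {c : C → OnePoint Y} (hs : Function.Surjective c) :
    Function.Surjective (cylCover c) := by
  intro p
  obtain ⟨y, t, h⟩ := smash_coe_surjective p
  obtain ⟨x, rfl⟩ := hs y
  exact ⟨(x, t), h⟩

/-- Descent of a homotopy. -/
theorem homotopic_of_cover (c : C → OnePoint Y) (hc : Continuous c)
    (hs : Function.Surjective c) (F : C × unitInterval → OnePoint Z) (hF : Continuous F)
    (h : ∀ x y t, c x = c y → F (x, t) = F (y, t)) (hinf : ∀ x t, c x = ∞ → F (x, t) = ∞)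
    {f g : Y ⟶ Z} (h0 : ∀ x, F (x, 0) = app f (c x)) (h1 : ∀ x, F (x, 1) = app g (c x)) :
    Homotopic f g := by
  have hcompat : ∀ p q : C × unitInterval, cylCover c p = cylCover c q → F p = F q := by
    rintro ⟨x, t⟩ ⟨y, s⟩ hxy
    obtain ⟨h2, h3⟩ := smash_coe_eq_iff.mp hxy
    rcases h3 with h3 | h3
    · rw [hinf x t h3, hinf y s (h2 ▸ h3)]
    · have h4 : t = s := h3
      subst h4
      exact h x y t h2
  have hi : ∀ p : C × unitInterval, cylCover c p = ∞ → F p = ∞ := by
    rintro ⟨x, t⟩ hp
    rcases smash_eq_infty.mp hp with h2 | h2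
    · exact hinf x t h2
    · exact absurd h2 (OnePoint.coe_ne_infty _)
  let H : Y ⊗ II ⟶ Z := coverDesc (Y := LC.of (Y × unitInterval)) (cylCover c)
    (continuous_cylCover hc) (surjective_cylCover hs) F hF hcompat hi
  have hH : ∀ (x : C) (t : unitInterval), app H (smash (c x) (t : OnePoint unitInterval)) = F (x, t) := fun x t =>
    app_coverDesc (Y := LC.of (Y × unitInterval)) (cylCover c)
      (continuous_cylCover hc) (surjective_cylCover hs) F hF hcompat hi (x, t)
  refine ⟨H, ?_, ?_⟩
  · apply hom_ext'
    intro y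
    obtain ⟨x, rfl⟩ := hs y
    rw [app_comp, app_incl, hH, h0]
  · apply hom_ext'
    intro y
    obtain ⟨x, rfl⟩ := hs y
    rw [app_comp, app_incl, hH, h1]

/-- **Descent of cofibrations.**  A retraction of the cylinder given on a compact cover `C` of
`OnePoint Y`. -/
theorem cofib_of_cover {i : A ⟶ Y} (hi : Function.Injective (app i)) (c : C → OnePoint Y)
    (hc : Continuous c) (hs : Function.Surjective c)
    (F : C × unitInterval → OnePoint (Y × unitInterval)) (hF : Continuous F)
    (h : ∀ x y t, c x = c y → F (x, t) = F (y, t))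
    (hzero : ∀ x, F (x, 0) = smash (c x) ((0 : unitInterval) : OnePoint unitInterval))
    (hmem : ∀ x t, c x ∈ Set.range (app i) →
      F (x, t) = smash (c x) (t : OnePoint unitInterval))
    (hrange : ∀ x t, ∃ (b : OnePoint Y) (s : unitInterval),
      F (x, t) = smash b (s : OnePoint unitInterval) ∧ (s = 0 ∨ b ∈ Set.range (app i))) :
    Cofib i := by
  have hinf : ∀ x t, c x = ∞ → F (x, t) = ∞ := by
    intro x t hx
    rw [hmem x t (hx ▸ infty_mem_range_app i), hx, smash_infty_left]
  have hcompat : ∀ p q : C × unitInterval, cylCover c p = cylCover c q → F p = F q := by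
    rintro ⟨x, t⟩ ⟨y, s⟩ hxy
    obtain ⟨h2, h3⟩ := smash_coe_eq_iff.mp hxy
    rcases h3 with h3 | h3
    · rw [hinf x t h3, hinf y s (h2 ▸ h3)]
    · have h4 : t = s := h3
      subst h4
      exact h x y t h2
  have hi' : ∀ p : C × unitInterval, cylCover c p = ∞ → F p = ∞ := by
    rintro ⟨x, t⟩ hp
    rcases smash_eq_infty.mp hp with h2 | h2
    · exact hinf x t h2
    · exact absurd h2 (OnePoint.coe_ne_infty _)
  let r : Y ⊗ II ⟶ Y ⊗ II := coverDesc (Y := LC.of (Y × unitInterval))
    (Z := LC.of (Y × unitInterval)) (cylCover c)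
    (continuous_cylCover hc) (surjective_cylCover hs) F hF hcompat hi'
  have hr : ∀ (x : C) (t : unitInterval), app r (smash (c x) (t : OnePoint unitInterval)) = F (x, t) := fun x t =>
    app_coverDesc (Y := LC.of (Y × unitInterval)) (Z := LC.of (Y × unitInterval)) (cylCover c)
      (continuous_cylCover hc) (surjective_cylCover hs) F hF hcompat hi' (x, t)
  refine cofib_of_isRetr hi (r := r) ⟨?_, ?_, ?_⟩
  · intro b
    obtain ⟨x, rfl⟩ := hs b
    rw [hr, hzero]
  · intro b hb t
    obtain ⟨x, rfl⟩ := hs b
    rw [hr, hmem x t hb]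
  · intro p
    obtain ⟨y, t, rfl⟩ := smash_coe_surjective (X := Y) (Y := unitInterval) p
    obtain ⟨x, rfl⟩ := hs y
    rw [hr]
    exact hrange x t

end cover

section morphism

variable {P Y Z : LC}

/-- Descent of a morphism along a surjective morphism. -/
noncomputable def descHom (π : P ⟶ Y) (hπ : Function.Surjective (app π)) (f : P ⟶ Z)
    (h : ∀ x y, app π x = app π y → app f x = app f y) : Y ⟶ Z :=
  coverDesc (app π) (continuous_app π) hπ (app f) (continuous_app f) h (fun x hx =>
    (h x ∞ (hx.trans (app_infty π).symm)).trans (app_infty f))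

@[simp] theorem app_descHom (π : P ⟶ Y) (hπ : Function.Surjective (app π)) (f : P ⟶ Z)
    (h : ∀ x y, app π x = app π y → app f x = app f y) (x : OnePoint P) :
    app (descHom π hπ f h) (app π x) = app f x :=
  app_coverDesc _ _ _ _ _ _ _ x

@[simp] theorem comp_descHom (π : P ⟶ Y) (hπ : Function.Surjective (app π)) (f : P ⟶ Z)
    (h : ∀ x y, app π x = app π y → app f x = app f y) : π ≫ descHom π hπ f h = f := by
  apply hom_ext'
  intro x
  rw [app_comp, app_descHom]

theorem cancel_surj (π : P ⟶ Y) (hπ : Function.Surjective (app π)) {f g : Y ⟶ Z}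
    (h : π ≫ f = π ≫ g) : f = g := by
  apply hom_ext'
  intro y
  obtain ⟨x, rfl⟩ := hπ y
  rw [← app_comp, ← app_comp, h]

theorem surjective_ofIsProper {q : P → Y} (hq : IsProperMap q) (hs : Function.Surjective q) :
    Function.Surjective (app (ofIsProper q hq)) := by
  intro y
  induction y using OnePoint.rec with
  | infty => exact ⟨∞, app_infty _⟩
  | coe y => obtain ⟨x, rfl⟩ := hs y; exact ⟨x, rfl⟩

theorem surjective_ofOpen {j : Y → P} (hj : IsOpenEmbedding j) :
    Function.Surjective (app (ofOpen j hj)) := by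
  intro y
  induction y using OnePoint.rec with
  | infty => exact ⟨∞, app_infty _⟩
  | coe y => exact ⟨(j y : OnePoint P), app_ofOpen_coe j hj y⟩

theorem app_ofOpen_eq_infty_iff {j : Y → P} (hj : IsOpenEmbedding j) (x : OnePoint P) :
    app (ofOpen j hj) x = ∞ ↔ ∀ y : Y, (j y : OnePoint P) ≠ x := by
  constructor
  · rintro h y rfl
    rw [app_ofOpen_coe] at h
    exact OnePoint.coe_ne_infty _ h
  · intro h
    induction x using OnePoint.rec with
    | infty => exact app_infty _
    | coe x =>
      apply app_ofOpen_of_notMem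
      rintro ⟨y, rfl⟩
      exact h y rfl

/-- Homotopies descend along surjective morphisms. -/
theorem homotopic_desc (π : P ⟶ Y) (hπ : Function.Surjective (app π)) (H : P ⊗ II ⟶ Z)
    (h : ∀ x y (t : unitInterval), app π x = app π y →
      app H (smash x (t : OnePoint unitInterval)) = app H (smash y (t : OnePoint unitInterval)))
    {f g : Y ⟶ Z} (h0 : incl 0 P ≫ H = π ≫ f) (h1 : incl 1 P ≫ H = π ≫ g) :
    Homotopic f g := by
  refine homotopic_of_cover (app π) (continuous_app π) hπ
    (fun p => app H (smash p.1 (p.2 : OnePoint unitInterval)))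
    ((continuous_app H).comp (continuous_smash.comp (continuous_fst.prodMk
      (OnePoint.continuous_coe.comp continuous_snd)))) h ?_ ?_ ?_
  · intro x t hx
    rw [h x ∞ t (hx.trans (app_infty π).symm), smash_infty_left]
    exact app_infty H
  · intro x
    change app H (smash x _) = _
    rw [← app_comp, ← h0, app_comp, app_incl]
  · intro x
    change app H (smash x _) = _
    rw [← app_comp, ← h1, app_comp, app_incl]

end morphism

end Vale.Agent.P093.N2
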