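import Vale.Agent.P251.X.HomIso
import Vale.Agent.P251.X.Small
import Vale.Agent.P251.X.HQ
import Vale.Agent.P251.S.TensorShift
import Mathlib.CategoryTheory.Monoidal.Rigid.Braided

/-!
# P093, part N, block N2-DUAL: duality in a stable homotopy category

* `exists_exactPairing` : a compact object `X` is dualizable, with dual `ihom X 𝟙`.
-/

open CategoryTheory MonoidalCategory Limits Pretriangulated
open Vale.Agent.P251 Vale.Agent.P251.T

universe v u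

set_option linter.unusedSectionVars false

namespace Vale.Agent.P093.N2.Dual

variable {T : Type u} [Category.{v} T] [Preadditive T] [HasZeroObject T]
    [HasShift T ℤ] [∀ n : ℤ, (shiftFunctor T n).Additive] [Pretriangulated T] [IsTriangulated T]
    [MonoidalCategory T] [SymmetricCategory T] [TensorTriangulated T]

/-! ### The comparison map -/

section theta

variable {X D : T} (ε : X ⊗ D ⟶ 𝟙_ T)

/-- `Hom (W, D ⊗ Y) ⟶ Hom (X ⊗ W, Y)` -/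
def theta (W Y : T) : (W ⟶ D ⊗ Y) →+ (X ⊗ W ⟶ Y) where
  toFun f := X ◁ f ≫ (α_ X D Y).inv ≫ ε ▷ Y ≫ (λ_ Y).hom
  map_zero' := by simp
  map_add' f g := by simp [MonoidalPreadditive.whiskerLeft_add, Preadditive.add_comp]

lemma theta_apply {W Y : T} (f : W ⟶ D ⊗ Y) :
    theta ε W Y f = X ◁ f ≫ (α_ X D Y).inv ≫ ε ▷ Y ≫ (λ_ Y).hom := rfl

lemma theta_comp {W Y Y' : T} (f : W ⟶ D ⊗ Y) (g : Y ⟶ Y') :
    theta ε W Y' (f ≫ D ◁ g) = theta ε W Y f ≫ g := by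
  simp only [theta_apply, MonoidalCategory.whiskerLeft_comp, Category.assoc]
  congr 1
  rw [← leftUnitor_naturality, ← whisker_exchange_assoc]
  simp

lemma comp_theta {W W' Y : T} (g : W' ⟶ W) (f : W ⟶ D ⊗ Y) :
    theta ε W' Y (g ≫ f) = X ◁ g ≫ theta ε W Y f := by
  simp only [theta_apply, MonoidalCategory.whiskerLeft_comp, Category.assoc]

lemma theta_bij_of_iso {W W' Y Y' : T} (e : W ≅ W') (i : Y ≅ Y')
    (h : Function.Bijective (theta ε W Y)) : Function.Bijective (theta ε W' Y') := by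
  constructor
  · intro f g hfg
    have h1 : theta ε W Y (e.hom ≫ f ≫ D ◁ i.inv) = theta ε W Y (e.hom ≫ g ≫ D ◁ i.inv) := by
      rw [comp_theta ε e.hom, comp_theta ε e.hom, theta_comp, theta_comp, hfg]
    have h2 := h.1 h1
    rw [cancel_epi] at h2
    rwa [cancel_mono] at h2
  · intro g
    obtain ⟨f, hf⟩ := h.2 (X ◁ e.hom ≫ g ≫ i.inv)
    refine ⟨e.inv ≫ f ≫ D ◁ i.hom, ?_⟩
    rw [comp_theta ε e.inv, theta_comp, hf]
    simp only [Category.assoc, Iso.inv_hom_id, Category.comp_id]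
    rw [← MonoidalCategory.whiskerLeft_comp_assoc]
    simp

lemma theta_whiskerRight {W Y : T} (f : W ⟶ D ⊗ Y) (Z : T) :
    theta ε (W ⊗ Z) (Y ⊗ Z) (f ▷ Z ≫ (α_ D Y Z).hom) =
      (α_ X W Z).inv ≫ theta ε W Y f ▷ Z := by
  simp only [theta_apply, MonoidalCategory.whiskerLeft_comp, comp_whiskerRight, Category.assoc]
  simp

/-- `ε : X ⊗ D ⟶ 𝟙` is universal. -/
def Univ : Prop := ∀ W : T, Function.Bijective fun f : W ⟶ D => X ◁ f ≫ ε

variable {ε}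

lemma theta_unit (hε : Univ ε) (W : T) : Function.Bijective (theta ε W (𝟙_ T)) := by
  have h : (theta ε W (𝟙_ T) : (W ⟶ D ⊗ 𝟙_ T) → (X ⊗ W ⟶ 𝟙_ T)) =
      (fun f : W ⟶ D => X ◁ f ≫ ε) ∘ fun f => f ≫ (ρ_ D).hom := by
    funext f
    simp only [theta_apply, Function.comp_apply, MonoidalCategory.whiskerLeft_comp,
      Category.assoc, unitors_equal, rightUnitor_naturality]
    simp
  rw [h]
  refine (hε W).comp ⟨fun f g hfg => ?_, fun g => ⟨g ≫ (ρ_ D).inv, by simp⟩⟩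
  exact (cancel_mono (ρ_ D).hom).1 hfg

lemma whiskerRight_sphere_bij (A B : T) (n : ℤ) :
    Function.Bijective fun f : A ⟶ B => f ▷ ((𝟙_ T)⟦n⟧) := by
  have h : ∀ f : A ⟶ B, f ▷ ((𝟙_ T)⟦n⟧) =
      (S.tensorSph n A).hom ≫ f⟦n⟧' ≫ (S.tensorSph n B).inv := by
    intro f
    rw [← S.tensorSph_naturality_assoc]
    simp
  constructor
  · intro f g hfg
    simp only [h] at hfg
    rw [cancel_epi, cancel_mono] at hfg
    exact (shiftFunctor T n).map_injective hfg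
  · intro g
    refine ⟨(shiftFunctor T n).preimage ((S.tensorSph n A).inv ≫ g ≫ (S.tensorSph n B).hom), ?_⟩
    simp only [h, Functor.map_preimage]
    simp

lemma theta_sphere (hε : Univ ε) (W : T) (n : ℤ) :
    Function.Bijective (theta ε W ((𝟙_ T)⟦n⟧)) := by
  have h1 : Function.Bijective (theta ε (W⟦-n⟧ ⊗ (𝟙_ T)⟦n⟧) (𝟙_ T ⊗ (𝟙_ T)⟦n⟧)) := by
    let a : (W⟦-n⟧ ⟶ D ⊗ 𝟙_ T) → (W⟦-n⟧ ⊗ (𝟙_ T)⟦n⟧ ⟶ D ⊗ 𝟙_ T ⊗ (𝟙_ T)⟦n⟧) :=
      fun f => f ▷ ((𝟙_ T)⟦n⟧) ≫ (α_ D (𝟙_ T) ((𝟙_ T)⟦n⟧)).hom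
    have ha : Function.Bijective a := by
      have h2 := whiskerRight_sphere_bij (W⟦-n⟧) (D ⊗ 𝟙_ T) n
      refine ⟨fun f g hfg => h2.1 ?_, fun g => ?_⟩
      · exact (cancel_mono (α_ D (𝟙_ T) ((𝟙_ T)⟦n⟧)).hom).1 hfg
      · obtain ⟨f, hf⟩ := h2.2 (g ≫ (α_ D (𝟙_ T) ((𝟙_ T)⟦n⟧)).inv)
        refine ⟨f, ?_⟩
        simp only [a] at hf ⊢
        rw [hf]
        simp
    have h3 : theta ε (W⟦-n⟧ ⊗ (𝟙_ T)⟦n⟧) (𝟙_ T ⊗ (𝟙_ T)⟦n⟧) ∘ a =
        (fun g => (α_ X (W⟦-n⟧) ((𝟙_ T)⟦n⟧)).inv ≫ g) ∘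
          (fun g : X ⊗ W⟦-n⟧ ⟶ 𝟙_ T => g ▷ ((𝟙_ T)⟦n⟧)) ∘ theta ε (W⟦-n⟧) (𝟙_ T) := by
      funext f
      exact theta_whiskerRight ε f _
    have h4 : Function.Bijective
        (theta ε (W⟦-n⟧ ⊗ (𝟙_ T)⟦n⟧) (𝟙_ T ⊗ (𝟙_ T)⟦n⟧) ∘ a) := by
      rw [h3]
      refine Function.Bijective.comp ?_ ((whiskerRight_sphere_bij _ _ n).comp (theta_unit hε _))
      refine ⟨fun f g hfg => ?_, fun g => ⟨(α_ X (W⟦-n⟧) ((𝟙_ T)⟦n⟧)).hom ≫ g, by simp⟩⟩
      exact (cancel_epi (α_ X (W⟦-n⟧) ((𝟙_ T)⟦n⟧)).inv).1 hfg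
    exact (Function.Bijective.of_comp_iff _ ha).1 h4
  refine theta_bij_of_iso ε ?_ (λ_ _) h1
  exact S.tensorSph n (W⟦-n⟧) ≪≫ (shiftFunctorCompIsoId T (-n) n (by simp)).app W

end theta

/-! ### Compact objects and coproducts -/

section cpt

variable [HasCoproducts.{0} T]

theorem bij_coprod {W : T} (hW : S.IsCpt W) {I : Type} [DecidableEq I] (X : I → T) {Y : T}
    (a : ∀ i, X i ⟶ Y) [IsIso (Sigma.desc a)] :
    Function.Bijective (DirectSum.toAddMonoid fun i => Preadditive.rightComp W (a i)) := by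
  have key : ∀ (u : DirectSum I fun i => (W ⟶ X i)) (i : I),
      DirectSum.toAddMonoid (fun i => Preadditive.rightComp W (a i)) u ≫
        inv (Sigma.desc a) ≫ S.sproj X i = u i := by
    intro u i
    induction u using DirectSum.induction_on with
    | zero => simp
    | add u v hu hv => simp [Preadditive.add_comp, hu, hv]
    | of j x =>
      rw [DirectSum.toAddMonoid_of]
      change (x ≫ a j) ≫ _ = _
      have h1 : a j ≫ inv (Sigma.desc a) = Sigma.ι X j := by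
        rw [IsIso.comp_inv_eq, Sigma.ι_desc]
      rw [Category.assoc, reassoc_of% h1]
      by_cases hij : j = i
      · subst hij
        rw [S.ι_sproj_self, Category.comp_id, DirectSum.of_eq_same]
      · rw [S.ι_sproj_ne X hij, comp_zero, DirectSum.of_eq_of_ne _ _ _ (Ne.symm hij)]
  constructor
  · rw [injective_iff_map_eq_zero]
    intro u hu
    refine DFinsupp.ext fun i => ?_
    rw [← key u i, hu, zero_comp]
    rfl
  · intro f
    obtain ⟨s, g, hg⟩ := hW X (f ≫ inv (Sigma.desc a))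
    refine ⟨∑ i ∈ s, DirectSum.of (fun i => (W ⟶ X i)) i (g i), ?_⟩
    rw [map_sum, ← cancel_mono (inv (Sigma.desc a)), hg, Preadditive.sum_comp]
    refine Finset.sum_congr rfl fun i _ => ?_
    rw [DirectSum.toAddMonoid_of]
    change (g i ≫ a i) ≫ _ = _
    rw [Category.assoc]
    congr 1
    rw [IsIso.comp_inv_eq, Sigma.ι_desc]

variable [MonoidalClosed T]

/-- The homology theory `Y ↦ Hom (W, D ⊗ Y)`. -/
@[simps -isSimp]
noncomputable def homTh {W : T} (hW : S.IsCpt W) (D : T) : X.HomAb.{v} T where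
  V Y := W ⟶ D ⊗ Y
  map f := Preadditive.rightComp W (D ◁ f)
  map_id x := by
    change x ≫ _ = x
    simp
  map_comp f g x := by
    change x ≫ _ = (x ≫ _) ≫ _
    simp
  map_add f g x := by
    change x ≫ _ = x ≫ _ + x ≫ _
    rw [MonoidalPreadditive.whiskerLeft_add, Preadditive.comp_add]
  exact {X Y Z f g h} Δ y hy := by
    have Δ' : H.Dist (D ◁ f) (D ◁ g) _ := TensorTriangulated.distinguished D _ Δ
    exact Δ'.lift₂ y hy
  coprod {I} _ X := by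
    have : IsIso (Sigma.desc fun i => D ◁ Sigma.ι X i) := by
      have h : Sigma.desc (fun i => D ◁ Sigma.ι X i) =
          (PreservesCoproduct.iso (tensorLeft D) X).inv := by
        refine Sigma.hom_ext _ _ fun i => ?_
        rw [Sigma.ι_desc, PreservesCoproduct.inv_hom]
        exact (ι_comp_sigmaComparison (tensorLeft D) X i).symm
      rw [h]
      infer_instance
    exact bij_coprod hW (fun i => D ⊗ X i) (fun i => D ◁ Sigma.ι X i)

/-- The homology theory `Y ↦ Hom (W, Y)`. -/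
@[simps -isSimp]
noncomputable def homTh' {W : T} (hW : S.IsCpt W) : X.HomAb.{v} T where
  V Y := W ⟶ Y
  map f := Preadditive.rightComp W f
  map_id x := by
    change x ≫ _ = x
    simp
  map_comp f g x := by
    change x ≫ _ = (x ≫ _) ≫ _
    simp
  map_add f g x := by
    change x ≫ _ = x ≫ _ + x ≫ _
    rw [Preadditive.comp_add]
  exact {X Y Z f g h} Δ y hy := Δ.lift₂ y hy
  coprod {I} _ X := by
    have : IsIso (Sigma.desc fun i => Sigma.ι X i) := by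
      have h : Sigma.desc (fun i => Sigma.ι X i) = 𝟙 _ := by
        refine Sigma.hom_ext _ _ fun i => ?_
        simp
      rw [h]
      infer_instance
    exact bij_coprod hW X (fun i => Sigma.ι X i)

variable [HasProducts.{0} T] [StableCat T] [LocallySmall.{0} T]

theorem theta_bij {X D : T} {ε : X ⊗ D ⟶ 𝟙_ T} (hε : Univ ε) {W : T} (hW : S.IsCpt W)
    (hXW : S.IsCpt (X ⊗ W)) (Y : T) : Function.Bijective (theta ε W Y) :=
  Vale.Agent.P251.X.HomAb.bijective_of_gen (F := homTh hW D) (G := homTh' hXW)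
    (η := fun Y => theta ε W Y) Vale.Agent.P251.X.unit_isCpt Vale.Agent.P251.X.unit_isGen
    (fun f x => theta_comp ε x f) (theta_sphere hε W) Y

theorem isCpt_unit : S.IsCpt (𝟙_ T) := Vale.Agent.P251.X.cpt_unit

theorem isCpt_sphere (n : ℤ) : S.IsCpt ((𝟙_ T)⟦n⟧) := Vale.Agent.P251.X.cpt_sphere n

/-- **A compact object is dualizable**: every universal pairing `ε : X ⊗ D ⟶ 𝟙` is exact. -/
theorem exists_exactPairing_of {X D : T} {ε : X ⊗ D ⟶ 𝟙_ T} (hε : Univ ε) (hX : S.IsCpt X) :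
    ∃ c : 𝟙_ T ⟶ D ⊗ X, X ◁ c ≫ (α_ X D X).inv ≫ ε ▷ X = (ρ_ X).hom ≫ (λ_ X).inv ∧
      c ▷ D ≫ (α_ D X D).hom ≫ D ◁ ε = (λ_ D).hom ≫ (ρ_ D).inv := by
  obtain ⟨c, hc⟩ := (theta_bij hε isCpt_unit (hX.of_iso (ρ_ X).symm) X).2 (ρ_ X).hom
  rw [theta_apply] at hc
  have h1 : X ◁ c ≫ (α_ X D X).inv ≫ ε ▷ X = (ρ_ X).hom ≫ (λ_ X).inv := by
    rw [← hc]
    simp
  refine ⟨c, h1, ?_⟩
  rw [← cancel_epi (λ_ D).inv, ← cancel_mono (ρ_ D).hom]
  apply (hε D).1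
  simp only [Iso.inv_hom_id_assoc, Category.assoc, Iso.inv_hom_id]
  have h2 : ∀ g : D ⟶ D ⊗ X ⊗ D, X ◁ (g ≫ D ◁ ε ≫ (ρ_ D).hom) ≫ ε =
      X ◁ g ≫ (α_ X D (X ⊗ D)).inv ≫ (ε ▷ (X ⊗ D)) ≫ (λ_ _).hom ≫ ε := by
    intro g
    rw [← leftUnitor_naturality, ← whisker_exchange_assoc]
    simp [unitors_equal]
  have h3 : (X ◁ c ≫ (α_ X D X).inv ≫ ε ▷ X) ▷ D = ((ρ_ X).hom ≫ (λ_ X).inv) ▷ D :=
    congrArg (fun g => g ▷ D) h1
  have h4 := h2 ((λ_ D).inv ≫ c ▷ D ≫ (α_ D X D).hom)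
  simp only [Category.assoc] at h4
  change X ◁ ((λ_ D).inv ≫ c ▷ D ≫ (α_ D X D).hom ≫ D ◁ ε ≫ (ρ_ D).hom) ≫ ε = X ◁ 𝟙 D ≫ ε
  rw [h4]
  have h5 : X ◁ ((λ_ D).inv ≫ c ▷ D ≫ (α_ D X D).hom) ≫ (α_ X D (X ⊗ D)).inv ≫
      ε ▷ (X ⊗ D) = (ρ_ X).inv ▷ D ≫ (X ◁ c ≫ (α_ X D X).inv ≫ ε ▷ X) ▷ D ≫
        (α_ (𝟙_ T) X D).hom := by
    simp
  rw [reassoc_of% h5, h3]
  simp

/-- the evaluation `X ⊗ [X, 𝟙] ⟶ 𝟙` is universal -/
theorem univ_ihom (X : T) : Univ ((ihom.ev X).app (𝟙_ T)) := by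
  intro W
  have h : (fun f : W ⟶ (ihom X).obj (𝟙_ T) => X ◁ f ≫ (ihom.ev X).app (𝟙_ T)) =
      ((ihom.adjunction X).homEquiv W (𝟙_ T)).symm := by
    funext f
    exact (MonoidalClosed.uncurry_eq f).symm
  rw [h]
  exact Equiv.bijective _

/-- **A compact object is dualizable** (Mathlib form). -/
theorem exists_dual {X : T} (hX : S.IsCpt X) :
    Nonempty (ExactPairing ((ihom X).obj (𝟙_ T)) X) := by
  obtain ⟨c, h1, h2⟩ := exists_exactPairing_of (univ_ihom X) hX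
  exact ⟨{ coevaluation' := c
           evaluation' := (ihom.ev X).app (𝟙_ T)
           coevaluation_evaluation' := h1
           evaluation_coevaluation' := h2 }⟩

theorem exists_dual' {X : T} (hX : S.IsCpt X) :
    Nonempty (ExactPairing X ((ihom X).obj (𝟙_ T))) := by
  obtain ⟨h⟩ := exists_dual hX
  exact ⟨BraidedCategory.exactPairing_swap _ _⟩

/-! ### Detection by cohomotopy -/

/-- A compact object without cohomotopy is zero. -/
theorem isZero_of_cohomotopy {X : T} (hX : S.IsCpt X)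
    (h : ∀ (n : ℤ) (g : X ⟶ (𝟙_ T)⟦n⟧), g = 0) : IsZero X := by
  let ε := (ihom.ev X).app (𝟙_ T)
  have hε : Univ ε := univ_ihom X
  have hD : IsZero ((ihom X).obj (𝟙_ T)) := by
    refine StableCat.generator _ fun n f => (hε _).1 ?_
    change X ◁ f ≫ ε = X ◁ (0 : (𝟙_ T)⟦n⟧ ⟶ _) ≫ ε
    rw [MonoidalPreadditive.whiskerLeft_zero, zero_comp]
    let e : X ⊗ (𝟙_ T)⟦n⟧ ≅ X⟦n⟧ := S.tensorSph n X
    let g : X⟦n⟧ ⟶ 𝟙_ T := e.inv ≫ X ◁ f ≫ ε
    suffices hg : g = 0 by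
      have h1 : X ◁ f ≫ ε = e.hom ≫ g := by simp [g]
      rw [h1, hg, comp_zero]
    apply (shiftFunctor T (-n)).map_injective
    have h2 := h (-n) ((shiftFunctorCompIsoId T n (-n) (by simp)).inv.app X ≫ g⟦-n⟧')
    rw [Functor.map_zero, ← cancel_epi ((shiftFunctorCompIsoId T n (-n) (by simp)).inv.app X),
      comp_zero]
    exact h2
  obtain ⟨c, h1, -⟩ := exists_exactPairing_of hε hX
  have hc : c = 0 := by
    have h3 : IsZero ((ihom X).obj (𝟙_ T) ⊗ X) :=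
      (tensorRight X).map_isZero hD
    exact h3.eq_of_tgt _ _
  rw [hc, MonoidalPreadditive.whiskerLeft_zero, zero_comp] at h1
  rw [IsZero.iff_id_eq_zero]
  have h4 : 𝟙 X = (ρ_ X).inv ≫ ((ρ_ X).hom ≫ (λ_ X).inv) ≫ (λ_ X).hom := by simp
  rw [h4, ← h1, zero_comp, comp_zero]

/-- **A map of compact objects which is bijective on cohomotopy is an isomorphism.** -/
theorem isIso_of_cohomotopy {A B : T} (hA : S.IsCpt A) (hB : S.IsCpt B) (f : A ⟶ B)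
    (h : ∀ n : ℤ, Function.Bijective fun g : B ⟶ (𝟙_ T)⟦n⟧ => f ≫ g) : IsIso f := by
  obtain ⟨Z, g, k, Δ⟩ := H.exists_cone f
  have hZ : S.IsCpt Z := S.IsCpt.of_dist _ Δ hA hB
  suffices hz : IsZero Z from (Triangle.isZero₃_iff_isIso₁ _ Δ).1 hz
  refine isZero_of_cohomotopy hZ fun n a => ?_
  have h1 : g ≫ a = 0 := by
    apply (h n).1
    change f ≫ g ≫ a = f ≫ 0
    rw [← Category.assoc, Δ.zero₁₂, zero_comp, comp_zero]
  obtain ⟨b, rfl⟩ := Δ.desc₃ a h1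
  have e : (𝟙_ T)⟦n⟧ ≅ ((𝟙_ T)⟦n - 1⟧)⟦(1 : ℤ)⟧ :=
    (shiftFunctorAdd' T (n - 1) 1 n (by ring)).app (𝟙_ T)
  obtain ⟨b', hb'⟩ := (shiftFunctor T (1 : ℤ)).map_surjective (b ≫ e.hom)
  obtain ⟨c, hc⟩ := (h (n - 1)).2 b'
  have h2 : b = f⟦(1 : ℤ)⟧' ≫ c⟦(1 : ℤ)⟧' ≫ e.inv := by
    rw [← Functor.map_comp_assoc]
    simp only at hc
    rw [hc, hb']
    simp
  rw [h2, ← Category.assoc, Δ.zero₃₁, zero_comp]

/-! ### The dimension of a compact object -/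

/-- The trace of the identity with respect to a universal pairing. -/
def IsDim (X : T) (d : 𝟙_ T ⟶ 𝟙_ T) : Prop :=
  ∃ (D : T) (ε : X ⊗ D ⟶ 𝟙_ T) (c : 𝟙_ T ⟶ D ⊗ X), Univ ε ∧
    X ◁ c ≫ (α_ X D X).inv ≫ ε ▷ X = (ρ_ X).hom ≫ (λ_ X).inv ∧
      c ▷ D ≫ (α_ D X D).hom ≫ D ◁ ε = (λ_ D).hom ≫ (ρ_ D).inv ∧
        d = c ≫ (β_ D X).hom ≫ ε

theorem exists_isDim {X : T} (hX : S.IsCpt X) : ∃ d, IsDim X d := by
  obtain ⟨c, h1, h2⟩ := exists_exactPairing_of (univ_ihom X) hX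
  exact ⟨_, _, _, c, univ_ihom X, h1, h2, rfl⟩

/-- `X ⊗ -` is faithful up to the dimension of `X`. -/
theorem IsDim.whiskerLeft_eq_zero {X : T} {m : ℤ} (h : IsDim X (m • 𝟙 _)) {W Z : T} (y : W ⟶ Z)
    (hy : X ◁ y = 0) : m • y = 0 := by
  obtain ⟨D, ε, c, -, -, -, hd⟩ := h
  have h1 : m • y = (λ_ W).inv ≫ (m • 𝟙 (𝟙_ T)) ▷ W ≫ (𝟙_ T) ◁ y ≫ (λ_ Z).hom := by
    have h2 : (m • 𝟙 (𝟙_ T)) ▷ W = m • 𝟙 _ := by
      have h3 := (tensorRight W).map_zsmul (f := 𝟙 (𝟙_ T)) (r := m)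
      rw [CategoryTheory.Functor.map_id] at h3
      exact h3
    rw [h2]
    simp
  have h4 : (D ⊗ X) ◁ y = 0 := by
    have h5 : (D ⊗ X) ◁ y = (α_ D X W).hom ≫ D ◁ (X ◁ y) ≫ (α_ D X Z).inv := by simp
    rw [h5, hy]
    simp
  have h6 : (c ≫ (β_ D X).hom ≫ ε) ▷ W ≫ (𝟙_ T) ◁ y = 0 := by
    rw [← whisker_exchange]
    simp only [comp_whiskerRight]
    rw [← Category.assoc, whisker_exchange, h4, comp_zero, zero_comp]
  rw [h1, hd, reassoc_of% h6, zero_comp, comp_zero]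

end cpt

end Vale.Agent.P093.N2.Dual
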