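import Vale.Agent.P093.N2.HC
import Vale.Agent.P093.N4.Dim
import Vale.Agent.P251.I.CofTriangle
import Vale.Agent.P251.M.SpaceCells

/-!
# P093, part N2: the stable side of `HC`

`Cells a b W` : `W` is built from finitely many spheres `𝟙⟦k⟧`, `a ≤ k ≤ b`, by extensions.
If `HC a b X m`, then `Cells a b (S X)`; there are no nonzero maps from an object of `Cells a b`
to an object of `Cells c d` if `b < c`.
-/

open CategoryTheory MonoidalCategory Limits Pretriangulated ZeroObject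
open Vale.Agent.P251.T Vale.Agent.P251.M Vale.Agent.P251.S Vale.Agent.P251.I Vale.Agent.P251.G
  Vale.Agent.P251.G.LC Vale.Agent.P093.N.LR

set_option linter.unusedSectionVars false

universe v u

namespace Vale.Agent.P093.N2

variable {T : Type u} [Category.{v} T] [Preadditive T] [HasZeroObject T]
    [HasShift T ℤ] [∀ n : ℤ, (shiftFunctor T n).Additive] [Pretriangulated T]
    [MonoidalCategory T]

/-- `W` is built from finitely many spheres `𝟙⟦k⟧`, `a ≤ k ≤ b`. -/
inductive Cells (a b : ℤ) : T → Prop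
  | zero {X : T} (h : IsZero X) : Cells a b X
  | sphere (k : ℤ) (ha : a ≤ k) (hb : k ≤ b) : Cells a b ((𝟙_ T)⟦k⟧)
  | ext (Δ : Triangle T) (hΔ : Δ ∈ distTriang T) (h₁ : Cells a b Δ.obj₁)
      (h₃ : Cells a b Δ.obj₃) : Cells a b Δ.obj₂

namespace Cells

variable {a b c d : ℤ} {X Y W : T}

lemma of_iso (hX : Cells a b X) (e : X ≅ Y) : Cells a b Y := by
  have h0 : IsZero (0 : T) := isZero_zero T
  refine ext (Triangle.mk e.hom (0 : Y ⟶ 0) 0) ?_ hX (zero h0)
  rw [Triangle.distinguished_iff_of_isZero₃ _ h0]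
  change IsIso e.hom
  infer_instance

lemma mono (hX : Cells a b X) (h1 : c ≤ a) (h2 : b ≤ d) : Cells c d X := by
  induction hX with
  | zero h' => exact zero h'
  | sphere k ha hb => exact sphere k (h1.trans ha) (hb.trans h2)
  | ext Δ hΔ _ _ ih₁ ih₃ => exact ext Δ hΔ ih₁ ih₃

lemma shift' (hX : Cells a b X) :
    ∀ (m c d : ℤ), a + m = c → b + m = d → Cells c d (X⟦m⟧) := by
  induction hX with
  | zero h' =>
    intro m c d _ _
    exact zero (Functor.map_isZero (shiftFunctor T m) h')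
  | sphere k ha hb =>
    intro m c d h1 h2
    exact (sphere (k + m) (by omega) (by omega)).of_iso
      ((shiftFunctorAdd' T k m (k + m) rfl).app (𝟙_ T))
  | ext Δ hΔ _ _ ih₁ ih₃ =>
    intro m c d h1 h2
    exact ext _ (Triangle.shift_distinguished Δ hΔ m) (ih₁ m c d h1 h2) (ih₃ m c d h1 h2)

lemma shift (hX : Cells a b X) (m : ℤ) : Cells (a + m) (b + m) (X⟦m⟧) :=
  hX.shift' m _ _ rfl rfl

/-- the third object of a triangle -/
lemma ext₃ (Δ : Triangle T) (hΔ : Δ ∈ distTriang T) (h₁ : Cells (a - 1) (b - 1) Δ.obj₁)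
    (h₂ : Cells a b Δ.obj₂) : Cells a b Δ.obj₃ :=
  ext _ (rot_of_distTriang _ hΔ) h₂ (h₁.shift' 1 a b (by ring) (by ring))

/-- the first object of a triangle -/
lemma ext₁ (Δ : Triangle T) (hΔ : Δ ∈ distTriang T) (h₂ : Cells a b Δ.obj₂)
    (h₃ : Cells (a + 1) (b + 1) Δ.obj₃) : Cells a b Δ.obj₁ :=
  ext _ (inv_rot_of_distTriang _ hΔ) (h₃.shift' (-1) a b (by ring) (by ring)) h₂

lemma dimLE (hX : Cells a b X) : DimLE b X := by
  induction hX with
  | zero h' => exact .zero h'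
  | sphere k ha hb => exact .sphere k hb
  | ext Δ hΔ _ _ ih₁ ih₃ => exact .ext Δ hΔ ih₁ ih₃

lemma _root_.Vale.Agent.P093.N2.exists_cells_of_dimLE (hX : DimLE b X) :
    ∃ a, Cells a b X := by
  induction hX with
  | zero h' => exact ⟨0, .zero h'⟩
  | sphere k hb => exact ⟨k, .sphere k le_rfl hb⟩
  | ext Δ hΔ _ _ ih₁ ih₃ =>
    obtain ⟨a, ha⟩ := ih₁
    obtain ⟨a', ha'⟩ := ih₃
    exact ⟨min a a', .ext Δ hΔ (ha.mono (min_le_left _ _) le_rfl)
      (ha'.mono (min_le_right _ _) le_rfl)⟩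

lemma conn (h0 : Conn 0 (𝟙_ T)) (hX : Cells a b X) : Conn a X := by
  induction hX with
  | zero h' => exact Conn.zero h'
  | sphere k ha hb => exact (h0.shift k k (by ring)).mono ha
  | ext Δ hΔ _ _ ih₁ ih₃ => exact Conn.ext Δ hΔ ih₁ ih₃

/-- no maps from low dimensional to highly connected objects -/
lemma hom_eq_zero (h0 : Conn 0 (𝟙_ T)) (hX : Cells a b X) (hY : Cells c d Y) (h : b < c)
    (f : X ⟶ Y) : f = 0 :=
  hX.dimLE.hom_eq_zero h (hY.conn h0) f

lemma isCpt [HasCoproducts.{0} T] (hS : IsCpt (𝟙_ T)) (hX : Cells a b X) : IsCpt X :=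
  hX.dimLE.isCpt hS

section Tensor

variable [SymmetricCategory T] [TensorTriangulated T]

lemma tensor (hX : Cells a b X) (hY : Cells c d Y) (e f : ℤ) (he : a + c = e) (hf : b + d = f) :
    Cells e f (X ⊗ Y) := by
  induction hY with
  | zero h' =>
    refine zero ?_
    rw [IsZero.iff_id_eq_zero, ← whiskerLeft_id, h'.eq_of_src (𝟙 _) 0,
      MonoidalPreadditive.whiskerLeft_zero]
  | sphere k hk hk' =>
    exact ((hX.shift k).mono (by omega) (by omega)).of_iso (tensorUnitShiftIso X k).symm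
  | ext Δ hΔ _ _ ih₁ ih₃ =>
    exact ext _ (TensorTriangulated.distinguished X Δ hΔ) ih₁ ih₃

end Tensor

end Cells

namespace HC

variable [SymmetricCategory T] [TensorTriangulated T] (F : SpaceFunctor T)

/-- homotopy equivalent spaces have isomorphic suspension spectra -/
theorem _root_.Vale.Agent.P093.N2.nonempty_iso_of_hequiv {X Y : FCat}
    (h : HEquiv X.obj Y.obj) : Nonempty (F.S.obj X ≅ F.S.obj Y) := by
  obtain ⟨f, g, h1, h2⟩ := h
  refine ⟨⟨F.S.map (FCat.hom f), F.S.map (FCat.hom g), ?_, ?_⟩⟩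
  · rw [← Functor.map_comp, ← CategoryTheory.Functor.map_id]
    exact F.map_eq _ _ h1
  · rw [← Functor.map_comp, ← CategoryTheory.Functor.map_id]
    exact F.map_eq _ _ h2

theorem cells {a b : ℕ} {X : LC} {m : ℤ} (h : HC a b X m) :
    ∀ hX : FC X, Cells (a : ℤ) (b : ℤ) (F.S.obj ⟨X, hX⟩) := by
  induction h with
  | empty => exact fun hX => .zero (F.isZero (inferInstanceAs (IsEmpty Empty)))
  | sph n ha hb =>
    exact fun hX => (Cells.sphere (n : ℤ) (by exact_mod_cast ha) (by exact_mod_cast hb)).of_iso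
      (sphIso F n).symm
  | @hequiv X Y m h e ih =>
    intro hY
    obtain ⟨e'⟩ := nonempty_iso_of_hequiv F (X := ⟨X, h.fc⟩) (Y := ⟨Y, hY⟩) e
    exact (ih h.fc).of_iso e'
  | @ext X S m n N hA hC ihA ihC =>
    intro hX
    have hi := N.cofib
    have hd := F.cof_distinguished (A := ⟨sub N.isClosed, hA.fc⟩) (B := ⟨X, hX⟩)
      (FCat.hom (subι N.isClosed)) hi
    refine Cells.ext _ hd (ihA hA.fc) ((ihC hC.fc).of_iso (F.S.mapIso ?_))
    exact fcIso (X := ⟨_, hC.fc⟩) (Y := cofF (A := ⟨sub N.isClosed, hA.fc⟩) (B := ⟨X, hX⟩)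
      (FCat.hom (subι N.isClosed)) hi) (cofSub N.isClosed).symm

/-- no maps between suspension spectra of low dimensional and highly connected spaces -/
theorem hom_eq_zero {X Y : FCat} {a b c d : ℕ} {m n : ℤ} (hX : HC a b X.obj m)
    (hY : HC c d Y.obj n) (h : b < c) (f : F.S.obj X ⟶ F.S.obj Y) : f = 0 :=
  Cells.hom_eq_zero (unit_conn F) (hX.cells F X.property) (hY.cells F Y.property)
    (by exact_mod_cast h) f

end HC

end Vale.Agent.P093.N2
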