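import Vale.Agent.P093.N2.HC
import Vale.Agent.P093.N2.StarZ

/-!
# P093, part N2: the powers of the star are finite cell spaces

* `NDR.ofMap`: neighbourhood deformation retract data from honest proper maps;
* `hc_St : HC 1 1 (LC.of (St G)) (-(|G| - 1))`;
* `hc_SP : HC M M (LC.of (SP G (Fin M))) ((-(|G| - 1)) ^ M)`.
-/

open CategoryTheory MonoidalCategory Filter Topology OnePoint
open Vale.Agent.P251.G Vale.Agent.P251.G.LC

set_option linter.unusedSectionVars false

namespace Vale.Agent.P093.N2

/-- neighbourhood deformation retract data from honest proper maps -/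
def NDR.ofMap {X : LC} {S : Set X} (u : X → unitInterval) (hu : Continuous u)
    (h : X × unitInterval → X) (hc : Continuous h)
    (hp : Tendsto h (cocompact (X × unitInterval)) (cocompact X))
    (h1 : ∀ x, u x = 0 ↔ x ∈ S) (h2 : ∀ x, h (x, 0) = x) (h3 : ∀ x ∈ S, ∀ t, h (x, t) = x)
    (h4 : ∀ x t, u x < t → h (x, t) ∈ S) : NDR X S where
  u := u
  u_cont := hu
  h := ofProper (X := LC.of (X × unitInterval)) (Y := X) h hc hp
  u_eq_zero := h1
  h_zero x := congrArg OnePoint.some (h2 x)
  h_mem x hx t := congrArg OnePoint.some (h3 x hx t)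
  h_lt x t hx := coe_mem_ptd.mpr (h4 x t hx)

namespace Star

/-- forget the group action -/
def ENDR.toNDR {G Z : Type} [TopologicalSpace Z] [LocallyCompactSpace Z] [T2Space Z] [SMul G Z]
    {S : Set Z} (N : ENDR G Z S) : NDR (LC.of Z) S :=
  NDR.ofMap (X := LC.of Z) N.u N.u_cont N.h N.h_cont N.h_proper N.u_eq_zero N.h_zero N.h_mem N.h_lt

/-- a deformation of a closed subset of a finite-dimensional space which moves points by a bounded
amount is proper -/
theorem tendsto_of_norm_le {E : Type} [NormedAddCommGroup E] [ProperSpace E] {Z : Set E}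
    (hZ : IsClosed Z) {h : Z × unitInterval → Z}
    (hb : ∀ (z : Z) t, ‖(z : E)‖ ≤ ‖(h (z, t) : E)‖ + 1) :
    Tendsto h (cocompact (Z × unitInterval)) (cocompact Z) := by
  rw [(hasBasis_cocompact (X := Z)).tendsto_right_iff]
  intro K hK
  obtain ⟨R, hR⟩ : ∃ R : ℝ, ∀ z ∈ K, ‖(z : E)‖ ≤ R := by
    obtain ⟨R, hR⟩ := (hK.image (f := fun z : Z => ‖(z : E)‖)
      (continuous_subtype_val.norm)).bddAbove
    exact ⟨R, fun z hz => hR ⟨z, hz, rfl⟩⟩
  have h1 : IsCompact {z : Z | ‖(z : E)‖ ≤ R + 1} := by
    have h := hZ.isClosedEmbedding_subtypeVal.isCompact_preimage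
      (isCompact_closedBall (0 : E) (R + 1))
    convert h using 1
    ext z
    simp
  have hC : IsCompact ({z : Z | ‖(z : E)‖ ≤ R + 1} ×ˢ (Set.univ : Set unitInterval)) :=
    h1.prod isCompact_univ
  refine Filter.mem_of_superset hC.compl_mem_cocompact ?_
  rintro ⟨z, t⟩ hz hmem
  apply hz
  refine ⟨?_, Set.mem_univ _⟩
  have h1 := hR _ hmem
  have h2 := hb z t
  show ‖(z : E)‖ ≤ R + 1
  linarith

section St

open Finset

variable {G : Type}

theorem continuous_Stval (g : G) : Continuous fun f : St G => f.1 g :=
  (continuous_apply g).comp continuous_subtype_val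

variable [Group G] [Fintype G]

instance : LocallyCompactSpace (St G) := isClosed_St.locallyCompactSpace

variable [DecidableEq G]

/-- the mass off the leg of `1` -/
noncomputable def off (f : St G) : ℝ := ∑ g ∈ univ.erase 1, f.1 g

theorem continuous_off : Continuous (off : St G → ℝ) :=
  continuous_finsetSum _ fun g _ => continuous_Stval g

theorem off_nonneg (f : St G) : 0 ≤ off f := sum_nonneg fun g _ => f.2.1 g

theorem le_off (f : St G) {g : G} (hg : g ≠ 1) : f.1 g ≤ off f :=
  single_le_sum (f := fun g => f.1 g) (fun g _ => f.2.1 g) (mem_erase.mpr ⟨hg, mem_univ g⟩)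

/-- the leg of `1` -/
def legSet (G : Type) [Group G] : Set (St G) := {f | ∀ g, g ≠ 1 → f.1 g = 0}

theorem off_eq_zero {f : St G} : off f = 0 ↔ f ∈ legSet G := by
  constructor
  · intro h g hg
    exact le_antisymm ((le_off f hg).trans h.le) (f.2.1 g)
  · intro h
    exact sum_eq_zero fun g hg => h g (ne_of_mem_erase hg)

/-- cut off all legs but that of `1` -/
noncomputable def cutOff (p : St G × unitInterval) : St G :=
  ⟨fun g => if g = 1 then p.1.1 g else max (p.1.1 g - p.2) 0, by
    have key : ∀ g, p.1.1 g = 0 → (if g = 1 then p.1.1 g else max (p.1.1 g - p.2) 0) = 0 := by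
      intro g hg
      split_ifs
      · exact hg
      · rw [hg]
        exact max_eq_right (by simpa using p.2.2.1)
    refine ⟨fun g => ?_, fun g h hg hh => p.1.2.2 g h (fun h0 => hg (key g h0))
      (fun h0 => hh (key h h0))⟩
    change 0 ≤ if g = 1 then p.1.1 g else max (p.1.1 g - p.2) 0
    split_ifs
    · exact p.1.2.1 g
    · exact le_max_right _ _⟩

theorem cutOff_val (f : St G) (t : unitInterval) (g : G) :
    (cutOff (f, t)).1 g = if g = 1 then f.1 g else max (f.1 g - t) 0 := rfl

theorem continuous_cutOff : Continuous (cutOff : St G × unitInterval → St G) := by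
  refine Continuous.subtype_mk (continuous_pi fun g => ?_) _
  by_cases hg : g = 1
  · simp only [hg, if_true]
    exact (continuous_Stval 1).comp continuous_fst
  · simp only [hg, if_false]
    exact (((continuous_Stval g).comp continuous_fst).sub
      (continuous_subtype_val.comp continuous_snd)).max continuous_const

theorem norm_le_cutOff (f : St G) (t : unitInterval) : ‖f.1‖ ≤ ‖(cutOff (f, t)).1‖ + 1 := by
  refine (pi_norm_le_iff_of_nonneg (by positivity)).mpr fun g => ?_
  rw [Real.norm_of_nonneg (f.2.1 g)]
  have h1 : (cutOff (f, t)).1 g ≤ ‖(cutOff (f, t)).1‖ :=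
    (Real.le_norm_self _).trans (norm_le_pi_norm _ g)
  rw [cutOff_val] at h1
  have h3 := t.2.2
  split_ifs at h1 with hg
  · linarith
  · have h2 := (le_max_left (f.1 g - (t : ℝ)) 0).trans h1
    linarith

/-- the leg of `1` is a neighbourhood deformation retract of the star -/
noncomputable def ndrLeg : NDR (LC.of (St G)) (legSet G) :=
  NDR.ofMap (X := LC.of (St G))
    (fun f => ⟨min 1 (off f), le_min zero_le_one (off_nonneg f), min_le_left _ _⟩)
    (Continuous.subtype_mk (continuous_const.min continuous_off) _)
    cutOff continuous_cutOff (tendsto_of_norm_le isClosed_St norm_le_cutOff)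
    (fun f => by
      rw [Subtype.ext_iff, ← off_eq_zero]
      simp only [Set.Icc.coe_zero]
      constructor
      · intro h
        rcases min_choice (1 : ℝ) (off f) with h1 | h1
        · rw [h1] at h; exact absurd h one_ne_zero
        · rwa [h1] at h
      · intro h
        rw [h]
        exact min_eq_right zero_le_one)
    (fun f => by
      refine Subtype.ext (funext fun g => ?_)
      rw [cutOff_val]
      split_ifs
      · rfl
      · simpa using f.2.1 g)
    (fun f hf t => by
      refine Subtype.ext (funext fun g => ?_)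
      rw [cutOff_val]
      split_ifs with hg
      · rfl
      · rw [hf g hg]
        exact max_eq_right (by simpa using t.2.1))
    (fun f t h => by
      intro g hg
      rw [cutOff_val, if_neg hg]
      have h0 : min 1 (off f) < (t : ℝ) := h
      have h1 : off f < t := by
        rcases min_lt_iff.mp h0 with h2 | h2
        · exact absurd t.2.2 (not_le.mpr h2)
        · exact h2
      exact max_eq_right (by linarith [le_off f hg]))

/-- the leg of `1` is a half line -/
noncomputable def homeoLeg : HH ≃ₜ legSet G where
  toFun r := ⟨⟨Pi.single 1 (r : ℝ), single_mem_St (1 : G) r.2⟩,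
    fun g hg => Pi.single_eq_of_ne hg _⟩
  invFun f := ⟨f.1.1 1, f.1.2.1 1⟩
  left_inv r := Subtype.ext (by simp)
  right_inv f := by
    refine Subtype.ext (Subtype.ext (funext fun g => ?_))
    by_cases hg : g = 1
    · rw [hg]; exact Pi.single_eq_same _ _
    · rw [f.2 g hg]; exact Pi.single_eq_of_ne hg _
  continuous_toFun := by
    refine Continuous.subtype_mk (Continuous.subtype_mk ?_ _) _
    exact (continuous_single 1).comp continuous_subtype_val
  continuous_invFun :=
    Continuous.subtype_mk ((continuous_Stval 1).comp continuous_subtype_val) _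

/-- the leg on which a point of the star lies -/
noncomputable def lg (f : St G) : G := (exists_leg f.2).choose

theorem lg_spec (f : St G) (g : G) (hg : g ≠ lg f) : f.1 g = 0 :=
  (exists_leg f.2).choose_spec g hg

theorem eq_lg {f : St G} {g : G} (h : f.1 g ≠ 0) : g = lg f := by
  by_contra h0
  exact h (lg_spec f g h0)

/-- the distance to the centre -/
noncomputable def rad (f : St G) : ℝ := ∑ g, f.1 g

theorem continuous_rad : Continuous (rad : St G → ℝ) :=
  continuous_finsetSum _ fun g _ => continuous_Stval g

theorem rad_eq (f : St G) : rad f = f.1 (lg f) :=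
  sum_eq_single _ (fun g _ hg => lg_spec f g hg) (by simp)

theorem lg_ne_one {f : St G} (h : f ∉ legSet G) : lg f ≠ 1 := by
  intro h1
  exact h fun g hg => lg_spec f g (h1 ▸ hg)

theorem rad_pos {f : St G} (h : f ∉ legSet G) : 0 < rad f := by
  refine lt_of_le_of_ne (sum_nonneg fun g _ => f.2.1 g) fun h0 => h fun g _ => ?_
  rw [rad_eq] at h0
  by_cases hg : g = lg f
  · rw [hg]; exact h0.symm
  · exact lg_spec f g hg

/-- the point on the leg of `g` with distance `exp r` to the centre -/
noncomputable def pt (g : G) (r : ℝ) : St G := ⟨Pi.single g (Real.exp r),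
  single_mem_St _ (Real.exp_pos _).le⟩

theorem pt_same (g : G) (r : ℝ) : (pt g r).1 g = Real.exp r := Pi.single_eq_same _ _

theorem pt_ne {g h : G} (hg : h ≠ g) (r : ℝ) : (pt g r).1 h = 0 := Pi.single_eq_of_ne hg _

theorem lg_pt (g : G) (r : ℝ) : lg (pt g r) = g := by
  symm
  apply eq_lg
  rw [pt_same]
  exact (Real.exp_pos _).ne'

theorem rad_pt (g : G) (r : ℝ) : rad (pt g r) = Real.exp r := by
  rw [rad_eq, lg_pt, pt_same]

theorem continuous_pt (g : G) : Continuous (pt g) :=
  Continuous.subtype_mk ((continuous_single g).comp Real.continuous_exp) _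

theorem pt_lg {f : St G} (h : f ∉ legSet G) : pt (lg f) (Real.log (rad f)) = f := by
  refine Subtype.ext (funext fun g => ?_)
  by_cases hg : g = lg f
  · rw [hg, pt_same, Real.exp_log (rad_pos h), rad_eq]
  · rw [pt_ne hg, lg_spec f g hg]

/-- the complement of the leg of `1` -/
noncomputable def homeoLegCompl : LC.finProd RR (Fintype.card {g : G // g ≠ 1}) ≃ₜ
    ((legSet G)ᶜ : Set (St G)) where
  toFun p := ⟨pt ((Fintype.equivFin {g : G // g ≠ 1}).symm p.1).1 p.2, fun h => by
      have h1 := h _ ((Fintype.equivFin {g : G // g ≠ 1}).symm p.1).2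
      rw [pt_same] at h1
      exact (Real.exp_pos _).ne' h1⟩
  invFun f := (Fintype.equivFin {g : G // g ≠ 1} ⟨lg f.1, lg_ne_one f.2⟩, Real.log (rad f.1))
  left_inv p := by
    refine Prod.ext ?_ ?_
    · simp only [lg_pt, Subtype.coe_eta, Equiv.apply_symm_apply]
    · simp only [rad_pt, Real.log_exp]
  right_inv f := by
    refine Subtype.ext ?_
    simp only [Equiv.symm_apply_apply]
    exact pt_lg f.2
  continuous_toFun := by
    refine Continuous.subtype_mk (continuous_prod_of_discrete_left.mpr fun i => ?_) _
    exact continuous_pt ((Fintype.equivFin {g : G // g ≠ 1}).symm i).1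
  continuous_invFun := by
    refine Continuous.prodMk ?_ ?_
    · rw [continuous_discrete_rng]
      intro i
      have h1 : (fun f : ((legSet G)ᶜ : Set (St G)) =>
          Fintype.equivFin {g : G // g ≠ 1} ⟨lg f.1, lg_ne_one f.2⟩) ⁻¹' {i} =
          {f | f.1.1 ((Fintype.equivFin {g : G // g ≠ 1}).symm i).1 ≠ 0} := by
        ext f
        rw [Set.mem_preimage, Set.mem_singleton_iff, Set.mem_ofPred_eq,
          ← Equiv.eq_symm_apply]
        constructor
        · intro h
          rw [← h]
          change f.1.1 (lg f.1) ≠ 0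
          rw [← rad_eq]
          exact (rad_pos f.2).ne'
        · intro h
          exact Subtype.ext (eq_lg h).symm
      rw [h1]
      exact (isClosed_eq ((continuous_Stval _).comp continuous_subtype_val)
        continuous_const).isOpen_compl
    · exact (continuous_rad.comp continuous_subtype_val).log fun f => (rad_pos f.2).ne'

omit [DecidableEq G] in
/-- the star is built from `|G| - 1` lines -/
theorem hc_St : HC 1 1 (LC.of (St G)) (-((Fintype.card G : ℤ) - 1)) := by
  classical
  refine (HC.of_pieces (X := LC.of (St G)) (ndrLeg (G := G)) (homeoLeg (G := G))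
    (homeoLegCompl (G := G)) HC.halfLine (HC.line.finProd _)).cast ?_
  have h1 : Fintype.card {g : G // g ≠ 1} = Fintype.card G - 1 := by
    rw [Fintype.card_subtype_compl, Fintype.card_subtype_eq]
  have h2 : 1 ≤ Fintype.card G := Fintype.card_pos
  rw [h1]
  push_cast [h2]
  ring

/-- the power of the star as a product -/
def homeoSP (M : ℕ) : powObj (Fin M) (LC.of (St G)) ≃ₜ SP G (Fin M) where
  toFun x := ⟨fun k => (x k).1, fun k => (x k).2⟩
  invFun z := fun k => ⟨z.1 k, z.2 k⟩
  left_inv _ := rfl
  right_inv _ := rfl
  continuous_toFun := Continuous.subtype_mk (continuous_pi fun k =>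
    continuous_subtype_val.comp (continuous_apply k)) _
  continuous_invFun := continuous_pi fun k => Continuous.subtype_mk
    ((continuous_apply k).comp continuous_subtype_val) _

omit [DecidableEq G] in
/-- **The power of the star is built from cells of dimension `M`.** -/
theorem hc_SP (M : ℕ) :
    HC M M (LC.of (SP G (Fin M))) ((-((Fintype.card G : ℤ) - 1)) ^ M) := by
  have h := (hc_St (G := G)).pow (Fin M)
  rw [Nat.card_eq_fintype_card, Fintype.card_fin, mul_one] at h
  exact h.of_homeo (homeoSP M)

end St

end Star

end Vale.Agent.P093.N2
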