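import Vale.Agent.P093.N2.StarSide
import Vale.Agent.P093.N2.StarZ
import Vale.Agent.P093.N2.StarHC
import Vale.Agent.P093.N2.Asm
import Vale.Agent.P093.N2.HCT

/-!
# P093, part N2 (block 2B): the tower `(Y × SS M)/G`

`G` is a finite group, `Y` a locally compact Hausdorff `G`-space (the action need not be free).

* `AS G Y M = (Y × SS G (Fin M))/G`: `AS G Y 0` is empty, `AS.incl : AS G Y M ⟶ AS G Y (M + 1)` is
  a cofibration with cofibre `Y × SP G (Fin M)`;
* `ES G Y M = (Y × SP G (Fin M))/G`: the zero section `ES.zero : Y/G ⟶ ES G Y M` is a cofibration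
  with cofibre `AS G Y M × ℝ`;
* `Cl.side`: if `S Y` lies in a thick class `P` and `S (Y/G) ⟶ S (ES G Y M)` is zero for some `M`,
  then `S (Y/G)` lies in `P`.
-/

open CategoryTheory MonoidalCategory Limits Filter Topology OnePoint
open Vale.Agent.P251.G Vale.Agent.P251.G.LC

set_option linter.unusedSectionVars false

namespace Vale.Agent.P093.N2.SQ

open Vale.Agent.P093.N2.Star (SS SP ENDR)

/-- conversion of the deformation data -/
def toGNDR {G : Type} [Group G] {Z₀ Z : Type} [TopologicalSpace Z] [MulAction G Z]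
    {S : Set Z} (N : ENDR G Z S) (a : Z₀ → Z) (ha : Set.range a = S) : GNDR G a where
  u z := (N.u z : ℝ)
  h := N.h
  u_cont := continuous_subtype_val.comp N.u_cont
  u_nonneg z := (N.u z).2.1
  u_smul g z := congrArg Subtype.val (N.u_smul g z)
  u_eq_zero z := by
    rw [ha, ← N.u_eq_zero, Subtype.ext_iff]
    rfl
  h_cont := N.h_cont
  h_proper := N.h_proper
  h_smul := N.h_smul
  h_zero := N.h_zero
  h_of_zero z t hz := N.h_mem z ((N.u_eq_zero z).mp (Subtype.ext hz)) t
  h_one z hz := by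
    rw [ha]
    exact N.h_lt z 1 (Subtype.coe_lt_coe.mp hz)

section slice

variable {G : Type} [Group G] [Fintype G] [DecidableEq G] {M : ℕ}

/-- the slice `SP G (Fin M) → SS G (Fin (M + 1))` -/
noncomputable def slice (z : SP G (Fin M)) : SS G (Fin (M + 1)) := Star.SS.b (1, z)

theorem isOpenEmbedding_slice :
    IsOpenEmbedding (slice : SP G (Fin M) → SS G (Fin (M + 1))) := by
  let _ : TopologicalSpace G := ⊥
  have _ : DiscreteTopology G := ⟨rfl⟩
  have h1 : IsOpenEmbedding (fun z : SP G (Fin M) => ((1 : G), z)) := by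
    refine IsOpenEmbedding.of_continuous_injective_isOpenMap (continuous_const.prodMk continuous_id)
      (fun a b h => congrArg Prod.snd h) ?_
    intro U hU
    have : (fun z : SP G (Fin M) => ((1 : G), z)) '' U = {(1 : G)} ×ˢ U := by
      ext ⟨g, z⟩
      constructor
      · rintro ⟨z', hz', h⟩
        rw [Prod.mk.injEq] at h
        exact ⟨h.1.symm, h.2 ▸ hz'⟩
      · rintro ⟨rfl, hz⟩
        exact ⟨z, hz, rfl⟩
    rw [this]
    exact (isOpen_discrete _).prod hU
  exact Star.SS.isOpenEmbedding_b.comp h1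

theorem leg_smul_slice (g : G) (z : SP G (Fin M)) : Star.SS.leg (g • slice z) = g := by
  have h : g • slice z = Star.SS.b (g, z) := by
    rw [slice, ← Star.SS.b_smul, mul_one]
  rw [h, Star.SS.leg_b]

theorem slice_free (g : G) (z z' : SP G (Fin M)) (h : g • slice z = slice z') :
    g = 1 := by
  have h1 := congrArg Star.SS.leg h
  rw [leg_smul_slice] at h1
  rw [h1, slice, Star.SS.leg_b]

theorem slice_notMem (z : SP G (Fin M)) :
    slice z ∉ Set.range (Star.SS.a : SS G (Fin M) → SS G (Fin (M + 1))) := by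
  let _ : TopologicalSpace G := ⊥
  have _ : DiscreteTopology G := ⟨rfl⟩
  rw [Star.SS.range_a]
  intro h
  have h1 : slice z ∈ Set.range (Star.SS.b : G × SP G (Fin M) → SS G (Fin (M + 1))) := ⟨_, rfl⟩
  rw [Star.SS.range_b] at h1
  exact h1 h

theorem exists_slice (x : SS G (Fin (M + 1)))
    (hx : x ∉ Set.range (Star.SS.a : SS G (Fin M) → SS G (Fin (M + 1)))) :
    ∃ (g : G) (z : SP G (Fin M)), g • slice z = x := by
  let _ : TopologicalSpace G := ⊥
  have _ : DiscreteTopology G := ⟨rfl⟩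
  rw [Star.SS.range_a] at hx
  have h1 : x ∈ Set.range (Star.SS.b : G × SP G (Fin M) → SS G (Fin (M + 1))) := by
    rw [Star.SS.range_b]
    exact hx
  obtain ⟨⟨g, z⟩, rfl⟩ := h1
  exact ⟨g, z, by rw [slice, ← Star.SS.b_smul, mul_one]⟩

end slice

section point

variable (G : Type) [Group G] [Finite G]
  (Y : Type) [TopologicalSpace Y] [LocallyCompactSpace Y] [T2Space Y] [MulAction G Y]
  [ContinuousConstSMul G Y]

/-- `(Y × Z)/G = Y/G` if `Z` is a point -/
def unitHomeo (Z : Type) [Unique Z] [TopologicalSpace Z] [MulAction G Z] :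
    Orb G (Y × Z) ≃ₜ Orb G Y where
  toFun := orbMap Prod.fst (fun _ _ => rfl)
  invFun := orbMap (fun y => (y, default)) (fun _ _ => Prod.ext rfl (Subsingleton.elim _ _))
  left_inv b := by
    obtain ⟨⟨y, z⟩, rfl⟩ := orb_surjective b
    rw [orbMap_orb, orbMap_orb]
    exact congrArg orb (Prod.ext rfl (Subsingleton.elim _ _))
  right_inv b := by
    obtain ⟨y, rfl⟩ := orb_surjective b
    rfl
  continuous_toFun := continuous_orbMap continuous_fst _
  continuous_invFun := continuous_orbMap (continuous_id.prodMk continuous_const) _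

end point

section tower

variable (G : Type) [Group G] [Fintype G]
  (Y : Type) [TopologicalSpace Y] [LocallyCompactSpace Y] [T2Space Y] [MulAction G Y]
  [ContinuousConstSMul G Y]

instance (M : ℕ) : LocallyCompactSpace (SS G (Fin M)) := inferInstance

/-- `(Y × SS G (Fin M))/G` -/
abbrev AS (M : ℕ) : LC := orbLC G (Y × SS G (Fin M))

/-- `(Y × SP G (Fin M))/G` -/
abbrev ES (M : ℕ) : LC := orbLC G (Y × SP G (Fin M))

/-- the power of the star as an object of `LC` -/
abbrev SPo (M : ℕ) : LC := LC.of (SP G (Fin M))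

theorem AS.isEmpty : IsEmpty (AS G Y 0) := by
  refine ⟨fun b => ?_⟩
  obtain ⟨⟨y, x⟩, -⟩ := orb_surjective (G := G) (W := Y × SS G (Fin 0)) b
  exact Star.SS.isEmpty.false x

/-- the inclusion of the tower -/
def AS.incl (M : ℕ) : AS G Y M ⟶ AS G Y (M + 1) :=
  ofClosed (X := AS G Y M) (Y := AS G Y (M + 1)) (sideMap Y Star.SS.a Star.SS.a_smul)
    (isClosedEmbedding_sideMap Y Star.SS.isClosedEmbedding_a Star.SS.a_smul)

theorem AS.cofib_incl (M : ℕ) : Cofib (AS.incl G Y M) := by
  classical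
  exact cofib_side Star.SS.isClosedEmbedding_a Star.SS.a_smul
    (toGNDR (Star.SS.endr (G := G) (Fin.last M)) Star.SS.a Star.SS.range_a)

/-- the cofibre of the inclusion -/
noncomputable def AS.cofIso (M : ℕ) : cof (AS.incl G Y M) ≅ LC.of Y ⊗ SPo G M := by
  classical
  exact cofClosedOpen (Z := AS G Y M) (Y := AS G Y (M + 1)) (U := LC.of (Y × SP G (Fin M)))
    (sideMap Y Star.SS.a Star.SS.a_smul) (isClosedEmbedding_sideMap Y Star.SS.isClosedEmbedding_a Star.SS.a_smul)
    (fun p : Y × SP G (Fin M) => (orb (p.1, slice p.2) : Orb G (Y × SS G (Fin (M + 1)))))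
    (isOpenEmbedding_sideFree Y isOpenEmbedding_slice slice_free)
    (isCompl_sideFree Y Star.SS.a_smul slice_notMem exists_slice)

/-- the zero section -/
noncomputable def ES.zero (M : ℕ) : orbLC G Y ⟶ ES G Y M :=
  ofClosed (X := orbLC G Y) (Y := ES G Y M) (sidePt Y (Star.SP.smul_zero (κ := Fin M)))
    (isClosedEmbedding_sidePt Y (Star.SP.smul_zero (κ := Fin M)))

theorem ES.cofib_zero (M : ℕ) : Cofib (ES.zero G Y M) :=
  cofib_sidePt Y (Star.SP.smul_zero (κ := Fin M)) (toGNDR Star.SP.endr Star.SP.a Star.SP.range_a)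

theorem SP.range_b' {M : ℕ} :
    Set.range (Star.SP.b : SS G (Fin M) × ℝ → SP G (Fin M)) = {Star.SP.zero}ᶜ := by
  rw [Star.SP.range_b]
  ext z
  constructor
  · intro h h'
    exact h (congrArg Subtype.val (h' : z = Star.SP.zero))
  · intro h h'
    exact h (Subtype.ext h' : z = Star.SP.zero)

/-- the cofibre of the zero section -/
noncomputable def ES.cofIso (M : ℕ) : cof (ES.zero G Y M) ≅ AS G Y M ⊗ RR :=
  cofClosedOpen (Z := orbLC G Y) (Y := ES G Y M)
    (U := LC.of (Orb G (Y × SS G (Fin M)) × ℝ))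
    (sidePt Y (Star.SP.smul_zero (κ := Fin M))) (isClosedEmbedding_sidePt Y (Star.SP.smul_zero (κ := Fin M)))
    (sideProd Y Star.SP.b Star.SP.b_smul)
    (isOpenEmbedding_sideProd Y Star.SP.isOpenEmbedding_b Star.SP.b_smul)
    (isCompl_sideProd Y Star.SP.b_smul (Star.SP.smul_zero (κ := Fin M)) (SP.range_b' G))

variable {Y}

theorem SPo.fc (M : ℕ) : FC (SPo G M) := (Star.hc_SP (G := G) M).fc

theorem AS.fc (hY : FC (LC.of Y)) (M : ℕ) : FC (AS G Y M) := by
  induction M with
  | zero =>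
    have := AS.isEmpty G Y
    exact FC.of_isEmpty _
  | succ M ih =>
    exact FC.of_ext (AS.cofib_incl G Y M) ih (AS.cofIso G Y M) (hY.tensor (SPo.fc G M))

theorem ES.fc (hY : FC (LC.of Y)) (hB : FC (orbLC G Y)) (M : ℕ) : FC (ES G Y M) :=
  FC.of_ext (ES.cofib_zero G Y M) hB (ES.cofIso G Y M) (AS.fc G hY M).susp

end tower

section thick

open Vale.Agent.P251.T Vale.Agent.P251.I Vale.Agent.P251.M Pretriangulated

universe v u

variable {T : Type u} [Category.{v} T] [Preadditive T] [HasZeroObject T]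
    [HasShift T ℤ] [∀ n : ℤ, (shiftFunctor T n).Additive] [Pretriangulated T]
    [MonoidalCategory T] [SymmetricCategory T] [TensorTriangulated T] {P : T → Prop}
    (F : SpaceFunctor T)

variable (G : Type) [Group G] [Fintype G]
  {Y : Type} [TopologicalSpace Y] [LocallyCompactSpace Y] [T2Space Y] [MulAction G Y]
  [ContinuousConstSMul G Y]

/-- If `S Y` lies in the thick class `P` and `S` of the zero section `Y/G ⟶ (Y × SP G (Fin M))/G`
is zero, then `S (Y/G)` lies in `P`. -/
theorem Cl.side (hP : Cl P) (hY : FC (LC.of Y)) (hB : FC (orbLC G Y))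
    (hPY : P (F.S.obj ⟨LC.of Y, hY⟩)) (M : ℕ)
    (h0 : F.S.map (FCat.hom (ES.zero G Y M) :
      (⟨orbLC G Y, hB⟩ : FCat) ⟶ ⟨ES G Y M, ES.fc G hY hB M⟩) = 0) :
    P (F.S.obj ⟨orbLC G Y, hB⟩) := by
  refine hP.step F (U := ⟨LC.of Y, hY⟩) hPY (fun M => ⟨AS G Y M, AS.fc G hY M⟩)
    (AS.isEmpty G Y) (fun M => FCat.hom (AS.incl G Y M)) (fun M => AS.cofib_incl G Y M)
    (fun M => ⟨SPo G M, SPo.fc G M⟩) (fun M => HEquiv.of_iso (AS.cofIso G Y M))
    (fun M => ⟨ES G Y M, ES.fc G hY hB M⟩) (fun M => FCat.hom (ES.zero G Y M))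
    (fun M => ES.cofib_zero G Y M) (fun M => HEquiv.of_iso (ES.cofIso G Y M)) M h0

/-- The same with cells: if `Y/G` has cells in dimensions at most `b` and `(Y × SP G (Fin M))/G`
has cells in dimensions at least `M`, for one `M > b`, then `S Y ∈ P` implies `S (Y/G) ∈ P`. -/
theorem Cl.side_hc (hP : Cl P) (hY : FC (LC.of Y)) {a b c d M : ℕ} {m n : ℤ}
    (hB : HC a b (orbLC G Y) m) (hE : HC c d (ES G Y M) n) (hM : b < c)
    (hPY : P (F.S.obj ⟨LC.of Y, hY⟩)) : P (F.S.obj ⟨orbLC G Y, hB.fc⟩) :=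
  Cl.side F G hP hY hB.fc hPY M
    (HC.hom_eq_zero F (X := ⟨orbLC G Y, hB.fc⟩) (Y := ⟨ES G Y M, ES.fc G hY hB.fc M⟩) hB hE hM _)

end thick

end Vale.Agent.P093.N2.SQ
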