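import Vale.Agent.P093.N2.UTCone
import Vale.Agent.P093.N2.NicePairs
import Vale.Agent.P093.N2.StarTower
import Vale.Agent.P093.N.Final

/-!
# P093, part N2: the step `m ↦ (mᵖ - m) / p` and the input `EctIn` of `N/Final.lean`

* `step_of` : if `X` has Euler characteristic `m`, then the thick class generated by `S X` contains
  `S B`, `B = UT G X / G` with Euler characteristic `(mᵖ - m) / p`;
* `exists_hc` : finite cell spaces with Euler characteristic `m` are in the class `HC`;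
* `ectIn_of` : the iteration of the step.

The input is `ThA` (the cells of `RZ G X Z`).
-/

open CategoryTheory MonoidalCategory Limits Topology OnePoint

set_option linter.unusedSectionVars false

namespace Vale.Agent.P093.N2

open Vale.Agent.P251.G Vale.Agent.P251.G.LC Vale.Agent.P251.I Vale.Agent.P251.T

/-- Theorem A for the group `G` -/
def ThA (G : Type) [Group G] [Finite G] (p : ℕ) : Prop :=
  ∀ (X : LC) (a b : ℕ) (m : ℤ), HC a b X m → ∀ (Z : Type) [TopologicalSpace Z] [T2Space Z]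
    [LocallyCompactSpace Z] [MulAction G Z] [ContinuousConstSMul G Z] (c d : ℕ) (z : ℤ),
    HC c d (LC.of Z) z → HC c (p * b + 1 + d) (RZ G X Z) (z * qchi p m)

universe v u

variable {T : Type u} [Category.{v} T] [Preadditive T] [HasZeroObject T]
    [HasShift T ℤ] [∀ n : ℤ, (shiftFunctor T n).Additive] [Pretriangulated T]
    [MonoidalCategory T] [SymmetricCategory T] [TensorTriangulated T]

section step

variable {G : Type} [Group G] [Fintype G] {p : ℕ} {X : LC} {a b : ℕ} {m : ℤ}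

theorem hc_orbUT (hA : ThA G p) (hX : HC a b X m) :
    HC 0 (p * b + 1) (SQ.orbLC G (UTo G X)) (qchi p m) :=
  ((hA X a b m hX Unit 0 0 1 (HC.of_unique (LC.of Unit))).of_homeo
    (Y := SQ.orbLC G (UTo G X)) (SQ.unitHomeo G (UTo G X) Unit)).cast (by ring)

/-- **The step.** -/
theorem step_of (F : SpaceFunctor T) (hA : ThA G p) {P : T → Prop} (hP : Cl P)
    (hX : HC a b X m) (h : P (F.S.obj ⟨X, hX.fc⟩)) :
    ∃ (Y : LC) (hY : HC 0 (p * b + 1) Y (qchi p m)), P (F.S.obj ⟨Y, hY.fc⟩) :=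
  ⟨_, hc_orbUT hA hX, SQ.Cl.side_hc F G hP (fc_UT G hX.fc) (hc_orbUT hA hX)
    (hA X a b m hX _ (p * b + 2) _ _ (Star.hc_SP (G := G) (p * b + 2))) (by omega)
    (Cl.UT G F hP (X := ⟨X, hX.fc⟩) h)⟩

end step

/-- **Finite cell spaces with Euler characteristic `m` are in the class `HC`.** -/
theorem exists_hc {X : LC} {m : ℤ} (h : HasChi X m) : ∃ b, HC 0 b X m := by
  induction h with
  | empty => exact ⟨0, HC.empty⟩
  | sph n => exact ⟨n, HC.sph n (Nat.zero_le _) le_rfl⟩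
  | hequiv _ h ih =>
    obtain ⟨b, hb⟩ := ih
    exact ⟨b, hb.hequiv h⟩
  | ext hi _ _ ihA ihC =>
    obtain ⟨b, hb⟩ := ihA
    obtain ⟨c, hc⟩ := ihC
    exact ⟨max b c, HC.cofib_ext (hb.mono le_rfl (le_max_left _ _)) hi
      (hc.mono le_rfl (le_max_right _ _))⟩

open Vale.Agent.P093.N.Fin in
/-- **Step 2.** -/
theorem ectIn_of {G : Type} [Group G] [Fintype G] {p : ℕ} (hp : p.Prime)
    (F : SpaceFunctor T) (hA : ThA G p) : EctIn F p := by
  classical
  intro P hP X m hX hm h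
  obtain ⟨b, hb⟩ := exists_hc hX
  obtain ⟨X', m', ⟨hX', h'⟩, -, hd⟩ := exists_not_dvd_of_step hp
    (R := fun X m => ∃ hX : HasChi X m, (∃ b, HC 0 b X m) ∧ P (F.S.obj ⟨X, hX.fc⟩))
    (Q := fun _ => True) (fun X m h _ => by
      obtain ⟨h1, ⟨b, h2⟩, h3⟩ := h
      obtain ⟨Y, h4, h5⟩ := step_of F hA hP h2 h3
      exact ⟨Y, ⟨h4.hasChi, ⟨_, h4⟩, h5⟩, trivial⟩) hm ⟨hX, ⟨b, hb⟩, h⟩ trivial
  exact ⟨X', m', hX', hd, h'.2⟩

end Vale.Agent.P093.N2
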