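import Vale.Agent.P251.G.Glue

/-!
# P093, part N2: spaces whose one-point compactification embeds in a Euclidean space

`Emb X` : there is an injective continuous map `X⁺ → ℝ^N`.  This class of locally compact
Hausdorff spaces contains the `ℝⁿ` and is closed under isomorphism, closed subspaces, open
subspaces, products and mapping cones.
-/

open CategoryTheory MonoidalCategory Filter Topology OnePoint Limits

namespace Vale.Agent.P093.N2

open Vale.Agent.P251.G Vale.Agent.P251.G.LC

/-- The one-point compactification of `X` injects continuously into some `ℝ^N`. -/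
def Emb (X : LC) : Prop :=
  ∃ N : ℕ, ∃ j : OnePoint X → (Fin N → ℝ), Continuous j ∧ Function.Injective j

namespace Emb

variable {X Y Z : LC}

/-- `ℝ^N` may be replaced by any finite dimensional space -/
theorem of_injective {E : Type*} [NormedAddCommGroup E] [NormedSpace ℝ E] [FiniteDimensional ℝ E]
    (j : OnePoint X → E) (hj : Continuous j) (hi : Function.Injective j) : Emb X := by
  let b := Module.finBasis ℝ E
  let e : E ≃L[ℝ] (Fin (Module.finrank ℝ E) → ℝ) := b.equivFun.toContinuousLinearEquiv
  exact ⟨Module.finrank ℝ E, fun x => e (j x), e.continuous.comp hj, e.injective.comp hi⟩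

/-- an embedding which sends `∞` to `0` -/
theorem exists_zero (h : Emb X) :
    ∃ N : ℕ, ∃ j : OnePoint X → (Fin N → ℝ), Continuous j ∧ Function.Injective j ∧ j ∞ = 0 := by
  obtain ⟨N, j, hj, hi⟩ := h
  exact ⟨N, fun x => j x - j ∞, hj.sub continuous_const, fun x y hxy => hi (sub_left_inj.mp hxy),
    sub_self _⟩

theorem of_app (f : X ⟶ Y) (hf : Function.Injective (app f)) (h : Emb Y) : Emb X := by
  obtain ⟨N, j, hj, hi⟩ := h
  exact ⟨N, fun x => j (app f x), hj.comp (continuous_app f), hi.comp hf⟩

theorem of_iso (h : Emb X) (e : X ≅ Y) : Emb Y := by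
  refine of_app e.inv ?_ h
  intro a b hab
  have h2 : ∀ y : OnePoint Y, app e.hom (app e.inv y) = y := fun y => by
    rw [← app_comp, e.inv_hom_id, app_id]
  rw [← h2 a, hab, h2 b]

theorem of_homeo (h : Emb X) (e : X ≃ₜ Y) : Emb Y := h.of_iso (ofHomeo e)

theorem of_closed (z : X → Y) (hz : IsClosedEmbedding z) (h : Emb Y) : Emb X :=
  of_app (ofClosed z hz) (injective_app_ofClosed z hz) h

/-- closed subspaces of finite dimensional spaces -/
theorem of_closed_fd {E : Type} [NormedAddCommGroup E] [NormedSpace ℝ E] [FiniteDimensional ℝ E]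
    (z : X → E) (hz : IsClosedEmbedding z) : Emb X := by
  let F : X → E × ℝ := fun x => ((1 + ‖z x‖ ^ 2)⁻¹ • z x, (1 + ‖z x‖ ^ 2)⁻¹)
  have hpos : ∀ x : X, 0 < 1 + ‖z x‖ ^ 2 := fun x => by positivity
  have hF : Continuous F := by
    have h1 : Continuous fun x : X => (1 + ‖z x‖ ^ 2)⁻¹ :=
      (continuous_const.add ((hz.continuous.norm).pow 2)).inv₀ fun x => (hpos x).ne'
    exact (h1.smul hz.continuous).prodMk h1
  have hlim : Tendsto F (cocompact X) (𝓝 0) := by
    have hn : Tendsto (fun x : X => ‖z x‖) (cocompact X) atTop :=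
      tendsto_norm_cocompact_atTop.comp hz.tendsto_cocompact
    have h2 : Tendsto (fun x : X => 1 + ‖z x‖ ^ 2) (cocompact X) atTop :=
      tendsto_atTop_add_const_left _ _ ((tendsto_pow_atTop two_ne_zero).comp hn)
    have h3 : Tendsto (fun x : X => (1 + ‖z x‖ ^ 2)⁻¹) (cocompact X) (𝓝 0) :=
      tendsto_inv_atTop_zero.comp h2
    have h4 : Tendsto (fun x : X => (1 + ‖z x‖ ^ 2)⁻¹ • z x) (cocompact X) (𝓝 0) := by
      rw [tendsto_zero_iff_norm_tendsto_zero]
      have h5 : Tendsto (fun x : X => ‖z x‖⁻¹) (cocompact X) (𝓝 0) :=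
        tendsto_inv_atTop_zero.comp hn
      refine squeeze_zero (fun x => norm_nonneg _) (fun x => ?_) h5
      rw [norm_smul, norm_inv, Real.norm_of_nonneg (hpos x).le]
      by_cases h0 : ‖z x‖ = 0
      · rw [h0]; simp
      · have h0' : 0 < ‖z x‖ := lt_of_le_of_ne (norm_nonneg _) (Ne.symm h0)
        rw [inv_mul_eq_div, inv_eq_one_div, div_le_div_iff₀ (hpos x) h0']
        nlinarith
    exact h4.prodMk_nhds h3
  let J : OnePoint X → E × ℝ := fun x => x.elim 0 F
  have hJ : Continuous J := by
    have h1 := (OnePoint.continuousMapMk (⟨F, hF⟩ : C(X, E × ℝ)) 0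
      (by rwa [coclosedCompact_eq_cocompact])).continuous
    convert h1 using 1
    ext x : 1
    induction x using OnePoint.rec with
    | infty => rfl
    | coe x => rfl
  refine of_injective J hJ ?_
  intro a b hab
  induction a using OnePoint.rec with
  | infty =>
    induction b using OnePoint.rec with
    | infty => rfl
    | coe b =>
      exact absurd (congrArg Prod.snd hab).symm (inv_ne_zero (hpos b).ne')
  | coe a =>
    induction b using OnePoint.rec with
    | infty =>
      exact absurd (congrArg Prod.snd hab) (inv_ne_zero (hpos a).ne')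
    | coe b =>
      have h1 : (1 + ‖z a‖ ^ 2)⁻¹ = (1 + ‖z b‖ ^ 2)⁻¹ := congrArg Prod.snd hab
      have h2 : (1 + ‖z a‖ ^ 2)⁻¹ • z a = (1 + ‖z b‖ ^ 2)⁻¹ • z b := congrArg Prod.fst hab
      rw [h1] at h2
      rw [hz.injective (smul_right_injective E (inv_ne_zero (hpos b).ne') h2)]

theorem sph (n : ℕ) : Emb (Sph n) :=
  of_closed_fd (X := Sph n) (E := Fin n → ℝ) id IsClosedEmbedding.id

theorem empty : Emb (LC.of Empty) :=
  ⟨0, fun _ => 0, continuous_const, fun a b _ => by rw [eq_infty_empty a, eq_infty_empty b]⟩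

/-- open subspaces -/
theorem of_open (u : X → Y) (hu : IsOpenEmbedding u) (h : Emb Y) : Emb X := by
  obtain ⟨N, j, hj, hi, h0⟩ := h.exists_zero
  let T : Set (Fin N → ℝ) := j '' (((fun x => (u x : OnePoint Y)) '' Set.univ)ᶜ)
  have hopen : IsOpen ((fun x => (u x : OnePoint Y)) '' Set.univ) :=
    (OnePoint.isOpenEmbedding_coe.comp hu).isOpenMap _ isOpen_univ
  have hT : IsClosed T := (hopen.isClosed_compl.isCompact.image hj).isClosed
  have hTn : T.Nonempty := ⟨j ∞, ∞, by rintro ⟨x, -, hx⟩; exact OnePoint.coe_ne_infty _ hx, rfl⟩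
  let d : OnePoint Y → ℝ := fun y => Metric.infDist (j y) T
  have hd : Continuous d := (Metric.continuous_infDist_pt T).comp hj
  have hd0 : ∀ y : OnePoint Y, d y = 0 ↔ y ∉ (fun x => (u x : OnePoint Y)) '' Set.univ := by
    intro y
    rw [← hT.mem_iff_infDist_zero hTn]
    constructor
    · rintro ⟨y', hy', hyy⟩
      rwa [← hi hyy]
    · intro hy
      exact ⟨y, hy, rfl⟩
  let J : OnePoint Y → (Fin N → ℝ) × ℝ := fun y => (d y • j y, d y)
  have hJ : Continuous J := (hd.smul hj).prodMk hd
  have hJq : ∀ y y' : OnePoint Y, app (ofOpen u hu) y = app (ofOpen u hu) y' → J y = J y' := by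
    intro y y' hyy
    by_cases h1 : y ∈ (fun x => (u x : OnePoint Y)) '' Set.univ
    · obtain ⟨x, -, rfl⟩ := h1
      by_cases h2 : y' ∈ (fun x => (u x : OnePoint Y)) '' Set.univ
      · obtain ⟨x', -, rfl⟩ := h2
        simp only [app_ofOpen_coe] at hyy
        rw [OnePoint.coe_injective hyy]
      · exfalso
        simp only [app_ofOpen_coe] at hyy
        have : app (ofOpen u hu) y' = ∞ := by
          induction y' using OnePoint.rec with
          | infty => exact app_infty _
          | coe y' =>
            apply app_ofOpen_of_notMem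
            rintro ⟨x', rfl⟩
            exact h2 ⟨x', trivial, rfl⟩
        rw [this] at hyy
        exact OnePoint.coe_ne_infty _ hyy
    · by_cases h2 : y' ∈ (fun x => (u x : OnePoint Y)) '' Set.univ
      · exfalso
        obtain ⟨x', -, rfl⟩ := h2
        simp only [app_ofOpen_coe] at hyy
        have : app (ofOpen u hu) y = ∞ := by
          induction y using OnePoint.rec with
          | infty => exact app_infty _
          | coe y =>
            apply app_ofOpen_of_notMem
            rintro ⟨x, rfl⟩
            exact h1 ⟨x, trivial, rfl⟩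
        rw [this] at hyy
        exact OnePoint.coe_ne_infty _ hyy.symm
      · have e1 := (hd0 y).mpr h1
        have e2 := (hd0 y').mpr h2
        simp only [J, e1, e2, zero_smul]
  have hq : IsQuotientMap (app (ofOpen u hu)) := by
    refine (continuous_app _).isClosedMap.isQuotientMap (continuous_app _) ?_
    intro x
    induction x using OnePoint.rec with
    | infty => exact ⟨∞, app_infty _⟩
    | coe x => exact ⟨u x, app_ofOpen_coe u hu x⟩
  let K : OnePoint X → (Fin N → ℝ) × ℝ := fun x => x.elim 0 (fun x => J (u x))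
  have hK : ∀ y, K (app (ofOpen u hu) y) = J y := by
    intro y
    by_cases h1 : y ∈ (fun x => (u x : OnePoint Y)) '' Set.univ
    · obtain ⟨x, -, rfl⟩ := h1
      simp only [app_ofOpen_coe]
      rfl
    · have e1 := (hd0 y).mpr h1
      have : app (ofOpen u hu) y = app (ofOpen u hu) ∞ := by
        rw [app_infty]
        induction y using OnePoint.rec with
        | infty => exact app_infty _
        | coe y =>
          apply app_ofOpen_of_notMem
          rintro ⟨x, rfl⟩
          exact h1 ⟨x, trivial, rfl⟩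
      rw [this, app_infty]
      simp only [J, e1, zero_smul]
      rfl
  have hKc : Continuous K := by
    rw [hq.continuous_iff]
    have : K ∘ app (ofOpen u hu) = J := funext hK
    rw [this]
    exact hJ
  refine of_injective K hKc ?_
  have hdne : ∀ x : X, d (u x) ≠ 0 := fun x hx => (hd0 _).mp hx ⟨x, trivial, rfl⟩
  intro a b hab
  induction a using OnePoint.rec with
  | infty =>
    induction b using OnePoint.rec with
    | infty => rfl
    | coe b => exact absurd (congrArg Prod.snd hab).symm (hdne b)
  | coe a =>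
    induction b using OnePoint.rec with
    | infty => exact absurd (congrArg Prod.snd hab) (hdne a)
    | coe b =>
      have h1 : d (u a) = d (u b) := congrArg Prod.snd hab
      have h2 : d (u a) • j (u a) = d (u b) • j (u b) := congrArg Prod.fst hab
      rw [h1] at h2
      have h3 := hi (smul_right_injective _ (hdne b) h2)
      rw [hu.injective (OnePoint.coe_injective h3)]

theorem cof (i : X ⟶ Y) (h : Emb Y) : Emb (LC.cof i) := of_open _ (isOpenEmbedding_cof i) h

/-- products -/
theorem tensor (hX : Emb X) (hY : Emb Y) : Emb (X ⊗ Y : LC) := by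
  obtain ⟨N, j, hj, hji, hj0⟩ := hX.exists_zero
  obtain ⟨M, e, he, hei, he0⟩ := hY.exists_zero
  let w : OnePoint X × OnePoint Y → ℝ := fun z => ‖j z.1‖ * ‖e z.2‖
  have hw : Continuous w :=
    ((hj.comp continuous_fst).norm).mul ((he.comp continuous_snd).norm)
  let F : OnePoint X × OnePoint Y → (Fin N → ℝ) × (Fin M → ℝ) × ℝ :=
    fun z => (w z • j z.1, w z • e z.2, w z)
  have hF : Continuous F :=
    (hw.smul (hj.comp continuous_fst)).prodMk ((hw.smul (he.comp continuous_snd)).prodMk hw)
  have h1 : ∀ b, F (∞, b) = 0 := by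
    intro b
    have : w (∞, b) = 0 := by simp [w, hj0]
    simp [F, this]
  have h2 : ∀ a, F (a, ∞) = 0 := by
    intro a
    have : w (a, ∞) = 0 := by simp [w, he0]
    simp [F, this]
  let G : X × Y → (Fin N → ℝ) × (Fin M → ℝ) × ℝ :=
    fun p => F ((p.1 : OnePoint X), (p.2 : OnePoint Y))
  have hG : Continuous G := hF.comp ((OnePoint.continuous_coe.comp continuous_fst).prodMk
      (OnePoint.continuous_coe.comp continuous_snd))
  have hlim : Tendsto G (cocompact (X × Y)) (𝓝 0) := tendsto_of_continuous_prod F hF 0 h1 h2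
  let J : OnePoint (X × Y) → (Fin N → ℝ) × (Fin M → ℝ) × ℝ := fun x => x.elim 0 G
  have hJ : Continuous J := by
    have h1 := (OnePoint.continuousMapMk (⟨G, hG⟩ : C(X × Y, _)) 0
      (by rwa [coclosedCompact_eq_cocompact])).continuous
    convert h1 using 1
    ext x : 1
    induction x using OnePoint.rec with
    | infty => rfl
    | coe x => rfl
  have hwne : ∀ p : X × Y, w ((p.1 : OnePoint X), (p.2 : OnePoint Y)) ≠ 0 := by
    intro p
    refine mul_ne_zero ?_ ?_
    · rw [norm_ne_zero_iff]
      intro h0
      exact OnePoint.coe_ne_infty _ (hji (h0.trans hj0.symm))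
    · rw [norm_ne_zero_iff]
      intro h0
      exact OnePoint.coe_ne_infty _ (hei (h0.trans he0.symm))
  refine of_injective (X := (X ⊗ Y : LC)) J hJ ?_
  intro a b hab
  induction a using OnePoint.rec with
  | infty =>
    induction b using OnePoint.rec with
    | infty => rfl
    | coe b => exact absurd (congrArg (fun z => z.2.2) hab).symm (hwne b)
  | coe a =>
    induction b using OnePoint.rec with
    | infty => exact absurd (congrArg (fun z => z.2.2) hab) (hwne a)
    | coe b =>
      have e1 : w ((a.1 : OnePoint X), (a.2 : OnePoint Y)) =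
        w ((b.1 : OnePoint X), (b.2 : OnePoint Y)) := congrArg (fun z => z.2.2) hab
      have e2 : w ((a.1 : OnePoint X), (a.2 : OnePoint Y)) • j a.1 =
        w ((b.1 : OnePoint X), (b.2 : OnePoint Y)) • j b.1 := congrArg (fun z => z.1) hab
      have e3 : w ((a.1 : OnePoint X), (a.2 : OnePoint Y)) • e a.2 =
        w ((b.1 : OnePoint X), (b.2 : OnePoint Y)) • e b.2 := congrArg (fun z => z.2.1) hab
      rw [e1] at e2 e3
      have e4 := OnePoint.coe_injective (hji (smul_right_injective _ (hwne b) e2))
      have e5 := OnePoint.coe_injective (hei (smul_right_injective _ (hwne b) e3))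
      rw [show a = b from Prod.ext e4 e5]

/-- pushouts along injective maps -/
theorem pushout {A B C D : LC} {i : A ⟶ B} {f : A ⟶ C} {g : B ⟶ D} {j : C ⟶ D}
    (hi : Function.Injective (app i)) (h : IsPushout i f g j) (hB : Emb B) (hC : Emb C) :
    Emb D := by
  obtain ⟨N, e, he, hei⟩ := hB
  obtain ⟨M, c, hc, hci⟩ := hC
  have hcl : IsClosedEmbedding (app i) := isClosedEmbedding_app i hi
  obtain ⟨F, hF⟩ := ContinuousMap.exists_extension hcl
    (⟨fun a => c (app f a), hc.comp (continuous_app f)⟩ : C(OnePoint A, Fin M → ℝ))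
  have hF' : ∀ a, F (app i a) = c (app f a) := fun a => congrArg (fun k => k a) hF
  let T : Set (Fin N → ℝ) := e '' Set.range (app i)
  have hT : IsClosed T := (hcl.isClosed_range.isCompact.image he).isClosed
  have hTn : T.Nonempty := ⟨e (app i ∞), app i ∞, ⟨∞, rfl⟩, rfl⟩
  let d : OnePoint B → ℝ := fun y => Metric.infDist (e y) T
  have hd : Continuous d := (Metric.continuous_infDist_pt T).comp he
  have hd0 : ∀ y : OnePoint B, d y = 0 ↔ y ∈ Set.range (app i) := by
    intro y
    rw [← hT.mem_iff_infDist_zero hTn]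
    constructor
    · rintro ⟨y', hy', hyy⟩
      rwa [← hei hyy]
    · intro hy
      exact ⟨y, hy, rfl⟩
  let Φ : OnePoint B → (Fin M → ℝ) × (Fin N → ℝ) × ℝ := fun y => (F y, d y • e y, d y)
  let Ψ : OnePoint C → (Fin M → ℝ) × (Fin N → ℝ) × ℝ := fun y => (c y, 0, 0)
  have hΦ : Continuous Φ := F.continuous.prodMk ((hd.smul he).prodMk hd)
  have hΨ : Continuous Ψ := hc.prodMk continuous_const
  have hq : IsQuotientMap (Sum.elim (app g) (app j)) :=
    isQuotientMap_sum (surj_of_isPushout hi h)
  obtain ⟨hj, hb⟩ := bij_of_isPushout hi h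
  have hnf : ∀ s : OnePoint B ⊕ OnePoint C,
      (∃ y, Sum.elim (app g) (app j) s = app j y ∧ Sum.elim Φ Ψ s = Ψ y) ∨
      ∃ b, b ∉ Set.range (app i) ∧ s = Sum.inl b := by
    rintro (b | y)
    · by_cases hb' : b ∈ Set.range (app i)
      · left
        obtain ⟨a, rfl⟩ := hb'
        refine ⟨app f a, ?_, ?_⟩
        · rw [Sum.elim_inl, ← app_comp, h.w, app_comp]
        · have h0 : d (app i a) = 0 := (hd0 _).mpr ⟨a, rfl⟩
          simp only [Sum.elim_inl, Φ, Ψ, hF', h0, zero_smul]
      · exact Or.inr ⟨b, hb', rfl⟩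
    · exact Or.inl ⟨y, rfl, rfl⟩
  have key : ∀ s s' : OnePoint B ⊕ OnePoint C, Sum.elim (app g) (app j) s =
      Sum.elim (app g) (app j) s' ↔ Sum.elim Φ Ψ s = Sum.elim Φ Ψ s' := by
    intro s s'
    rcases hnf s with ⟨y, h1, h2⟩ | ⟨b, h1, rfl⟩
    · rcases hnf s' with ⟨y', h1', h2'⟩ | ⟨b', h1', rfl⟩
      · rw [h1, h2, h1', h2']
        constructor
        · intro hy
          rw [hj hy]
        · intro hy
          rw [hci (congrArg Prod.fst hy)]
      · rw [h1, h2]
        simp only [Sum.elim_inl]
        constructor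
        · intro hy
          exact absurd ⟨y, hy⟩ (hb.mapsTo h1')
        · intro hy
          exact absurd ((hd0 b').mp (congrArg (fun z => z.2.2) hy).symm) h1'
    · rcases hnf s' with ⟨y', h1', h2'⟩ | ⟨b', h1', rfl⟩
      · rw [h1', h2']
        simp only [Sum.elim_inl]
        constructor
        · intro hy
          exact absurd ⟨y', hy.symm⟩ (hb.mapsTo h1)
        · intro hy
          exact absurd ((hd0 b).mp (congrArg (fun z => z.2.2) hy)) h1
      · simp only [Sum.elim_inl]
        constructor
        · intro hy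
          rw [hb.injOn h1 h1' hy]
        · intro hy
          have e1 : d b = d b' := congrArg (fun z => z.2.2) hy
          have e2 : d b • e b = d b' • e b' := congrArg (fun z => z.2.1) hy
          have e3 : d b' ≠ 0 := fun h0 => h1' ((hd0 b').mp h0)
          rw [e1] at e2
          rw [hei (smul_right_injective _ e3 e2)]
  let P : C(OnePoint B ⊕ OnePoint C, OnePoint D) :=
    ⟨Sum.elim (app g) (app j), (continuous_app g).sumElim (continuous_app j)⟩
  have hP : IsQuotientMap P := hq
  have hfac : Function.FactorsThrough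
      (⟨Sum.elim Φ Ψ, hΦ.sumElim hΨ⟩ : C(OnePoint B ⊕ OnePoint C, _)) P :=
    fun s s' hs => (key s s').mp hs
  let J : C(OnePoint D, (Fin M → ℝ) × (Fin N → ℝ) × ℝ) := hP.lift _ hfac
  have hJ : ∀ s, J (Sum.elim (app g) (app j) s) = Sum.elim Φ Ψ s := fun s =>
    DFunLike.congr_fun (hP.lift_comp _ hfac) s
  refine of_injective J J.continuous ?_
  intro x y hxy
  obtain ⟨s, rfl⟩ := hq.surjective x
  obtain ⟨s', rfl⟩ := hq.surjective y
  rw [hJ, hJ] at hxy
  exact (key s s').mpr hxy

theorem line : Emb RR := of_closed_fd (X := RR) (E := ℝ) id IsClosedEmbedding.id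

theorem halfLine : Emb HH :=
  of_closed_fd (X := HH) (E := ℝ) (fun x : NNReal => (x : ℝ))
    (NNReal.isClosedEmbedding_coe)

theorem susp (h : Emb X) : Emb (X ⊗ RR : LC) := h.tensor line

/-- mapping cones -/
theorem cone (hX : Emb X) (hY : Emb Y) (f : X ⟶ Y) : Emb (LC.cone f) :=
  pushout (injective_coneBase X) (isPushout_cone f) (hX.tensor halfLine) hY

/-- disjoint unions -/
theorem sum (hX : Emb X) (hY : Emb Y) : Emb (LC.sum X Y) :=
  pushout (i := (0 : LC.of Empty ⟶ X)) (f := (0 : LC.of Empty ⟶ Y))
    (fun a b _ => by rw [eq_infty_empty a, eq_infty_empty b])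
    (isPushout_sum X Y isZero_empty _ _) hX hY

theorem unit : Emb (𝟙_ LC) := by
  refine (sph 0).of_homeo (Y := LC.of Unit) ?_
  exact
    { toFun := fun _ => ()
      invFun := fun _ => default
      left_inv := fun _ => Subsingleton.elim _ _
      right_inv := fun _ => rfl
      continuous_toFun := continuous_const
      continuous_invFun := continuous_const }

end Emb

end Vale.Agent.P093.N2
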