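import Vale.Agent.P093.N2.Emb
import Mathlib.Combinatorics.Nullstellensatz

/-!
# P093, part N2: the class `Emb` is closed under quotients by finite groups
-/

open CategoryTheory MonoidalCategory Filter Topology OnePoint Limits

namespace Vale.Agent.P093.N2

open Vale.Agent.P251.G Vale.Agent.P251.G.LC

namespace Emb

variable {X Y Z : LC}

/-- a quotient of `Y⁺` on which the points are separated by finitely many functions of `Y⁺` -/
theorem of_quot {E : Type*} [NormedAddCommGroup E] [NormedSpace ℝ E] [FiniteDimensional ℝ E]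
    (q : Y ⟶ Z) (hq : Function.Surjective (app q)) (φ : OnePoint Y → E) (hφ : Continuous φ)
    (h : ∀ a b, app q a = app q b ↔ φ a = φ b) : Emb Z := by
  let P : C(OnePoint Y, OnePoint Z) := ⟨app q, continuous_app q⟩
  have hP : IsQuotientMap P :=
    (continuous_app q).isClosedMap.isQuotientMap (continuous_app q) hq
  have hfac : Function.FactorsThrough (⟨φ, hφ⟩ : C(OnePoint Y, E)) P :=
    fun a b hab => (h a b).mp hab
  let J : C(OnePoint Z, E) := hP.lift _ hfac
  have hJ : ∀ a, J (app q a) = φ a := fun a => DFunLike.congr_fun (hP.lift_comp _ hfac) a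
  refine of_injective J J.continuous ?_
  intro x y hxy
  obtain ⟨a, rfl⟩ := hq x
  obtain ⟨b, rfl⟩ := hq y
  rw [hJ, hJ] at hxy
  exact (h a b).mpr hxy

section poly

open MvPolynomial

/-- the polynomial `∏ᵢ |w - vᵢ|²` in `w` -/
noncomputable def distPoly {N : ℕ} {G : Type*} [Fintype G] (v : G → Fin N → ℝ) :
    MvPolynomial (Fin N) ℝ :=
  ∏ g : G, ∑ k : Fin N, (MvPolynomial.X k - C (v g k)) ^ 2

theorem eval_distPoly {N : ℕ} {G : Type*} [Fintype G] (v : G → Fin N → ℝ) (w : Fin N → ℝ) :
    eval w (distPoly v) = ∏ g : G, ∑ k : Fin N, (w k - v g k) ^ 2 := by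
  simp [distPoly, map_prod, map_sum]

theorem degreeOf_distPoly_le {N : ℕ} {G : Type*} [Fintype G] (v : G → Fin N → ℝ) (i : Fin N) :
    degreeOf i (distPoly v) ≤ 2 * Fintype.card G := by
  unfold distPoly
  refine (degreeOf_prod_le i _ _).trans ?_
  have : ∀ g ∈ Finset.univ (α := G),
      degreeOf i (∑ k : Fin N, (MvPolynomial.X k - C (v g k)) ^ 2 : MvPolynomial (Fin N) ℝ) ≤ 2 := by
    intro g _
    refine (degreeOf_sum_le i _ _).trans ?_
    refine Finset.sup_le fun k _ => ?_
    refine (degreeOf_pow_le i _ 2).trans ?_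
    have h1 : degreeOf i (MvPolynomial.X k - C (v g k) : MvPolynomial (Fin N) ℝ) ≤ 1 := by
      refine (degreeOf_sub_le i _ _).trans ?_
      rw [degreeOf_C, max_eq_left (Nat.zero_le _), degreeOf_X]
      split_ifs <;> omega
    omega
  refine (Finset.sum_le_sum this).trans ?_
  rw [Finset.sum_const, smul_eq_mul, Finset.card_univ, mul_comm]

/-- the values of `distPoly v` on the grid `{0, .., 2|G|}^N` determine the set of the `vᵢ` -/
theorem exists_eq_of_grid {N : ℕ} {G : Type*} [Fintype G] [Nonempty G] (v v' : G → Fin N → ℝ)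
    (h : ∀ m : Fin N → Fin (2 * Fintype.card G + 1),
      ∏ g : G, ∑ k : Fin N, (((m k : ℕ) : ℝ) - v g k) ^ 2 =
      ∏ g : G, ∑ k : Fin N, (((m k : ℕ) : ℝ) - v' g k) ^ 2) (g : G) :
    ∃ g', v g = v' g' := by
  have key : distPoly v - distPoly v' = 0 := by
    refine eq_zero_of_eval_zero_at_prod_finset _
      (fun _ => (Finset.range (2 * Fintype.card G + 1)).image (fun n : ℕ => (n : ℝ))) ?_ ?_
    · intro i
      rw [Finset.card_image_of_injective _ Nat.cast_injective, Finset.card_range]
      refine Nat.lt_succ_of_le ?_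
      refine (degreeOf_sub_le i _ _).trans ?_
      exact max_le (degreeOf_distPoly_le v i) (degreeOf_distPoly_le v' i)
    · intro x hx
      have hx' : ∀ i, ∃ m : Fin (2 * Fintype.card G + 1), ((m : ℕ) : ℝ) = x i := by
        intro i
        obtain ⟨m, hm, hmx⟩ := Finset.mem_image.mp (hx i)
        exact ⟨⟨m, Finset.mem_range.mp hm⟩, hmx⟩
      choose m hm using hx'
      rw [map_sub, eval_distPoly, eval_distPoly, sub_eq_zero]
      have := h m
      simp only [hm] at this
      exact this
  have h1 : eval (v g) (distPoly v) = eval (v g) (distPoly v') := by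
    rw [sub_eq_zero.mp key]
  rw [eval_distPoly, eval_distPoly] at h1
  have h2 : ∏ g' : G, ∑ k : Fin N, (v g k - v g' k) ^ 2 = 0 :=
    Finset.prod_eq_zero (Finset.mem_univ g) (by simp)
  rw [h2] at h1
  obtain ⟨g', -, hg'⟩ := Finset.prod_eq_zero_iff.mp h1.symm
  refine ⟨g', funext fun k => ?_⟩
  have h3 := (Finset.sum_eq_zero_iff_of_nonneg (fun k _ => sq_nonneg _)).mp hg' k
    (Finset.mem_univ k)
  exact sub_eq_zero.mp (pow_eq_zero_iff two_ne_zero |>.mp h3)

end poly

/-- Quotients by finite groups: `G` acts on `Y⁺` (by `ρ`), and `q : Y⁺ → Z⁺` is the quotient. -/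
theorem of_finite_quotient {G : Type*} [Group G] [Finite G] (q : Y ⟶ Z)
    (hq : Function.Surjective (app q)) (ρ : G → OnePoint Y → OnePoint Y)
    (hρc : ∀ g, Continuous (ρ g)) (hρ1 : ∀ a, ρ 1 a = a)
    (hρm : ∀ g h a, ρ (g * h) a = ρ g (ρ h a))
    (h : ∀ a b, app q a = app q b ↔ ∃ g, ρ g a = b) (hY : Emb Y) : Emb Z := by
  classical
  have := Fintype.ofFinite G
  obtain ⟨N, j, hj, hi⟩ := hY
  let φ : OnePoint Y → (Fin N → Fin (2 * Fintype.card G + 1)) → ℝ := fun a m =>
    ∏ g : G, ∑ k : Fin N, (((m k : ℕ) : ℝ) - j (ρ g a) k) ^ 2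
  have hφ : Continuous φ := by
    refine continuous_pi fun m => ?_
    refine continuous_finsetProd _ fun g _ => continuous_finsetSum _ fun k _ => ?_
    exact (continuous_const.sub ((continuous_apply k).comp (hj.comp (hρc g)))).pow 2
  refine of_quot q hq φ hφ ?_
  intro a b
  rw [h]
  constructor
  · rintro ⟨x, rfl⟩
    funext m
    simp only [φ, ← hρm]
    exact (Fintype.prod_equiv (Equiv.mulRight x)
      (fun g => ∑ k : Fin N, (((m k : ℕ) : ℝ) - j (ρ (g * x) a) k) ^ 2)
      (fun g => ∑ k : Fin N, (((m k : ℕ) : ℝ) - j (ρ g a) k) ^ 2) (fun g => rfl)).symm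
  · intro hab
    obtain ⟨g', hg'⟩ := exists_eq_of_grid (fun g => j (ρ g a)) (fun g => j (ρ g b))
      (fun m => congrFun hab m) 1
    have h1 : ρ 1 a = ρ g' b := hi hg'
    rw [hρ1] at h1
    exact ⟨g'⁻¹, by rw [h1, ← hρm, inv_mul_cancel, hρ1]⟩

/-- Quotients by continuous actions of finite groups. -/
theorem of_finite_action {G : Type*} [Group G] [Finite G] [MulAction G Y]
    [ContinuousConstSMul G Y] (q : Y → Z) (hq : Continuous q)
    (hqp : Tendsto q (cocompact Y) (cocompact Z)) (hs : Function.Surjective q)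
    (h : ∀ a b : Y, q a = q b ↔ ∃ g : G, g • a = b) (hY : Emb Y) : Emb Z := by
  refine of_finite_quotient (G := G) (ofProper q hq hqp) ?_
    (fun g => OnePoint.map (fun y : Y => g • y)) ?_ ?_ ?_ ?_ hY
  · intro z
    induction z using OnePoint.rec with
    | infty => exact ⟨∞, app_infty _⟩
    | coe z =>
      obtain ⟨y, rfl⟩ := hs z
      exact ⟨y, app_ofProper_coe q hq hqp y⟩
  · intro g
    exact continuous_app (ofHomeo (X := Y) (Y := Y) (Homeomorph.smul g)).hom
  · intro a
    induction a using OnePoint.rec with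
    | infty => rfl
    | coe a => simp
  · intro g k a
    induction a using OnePoint.rec with
    | infty => rfl
    | coe a => simp [mul_smul]
  · intro a b
    induction a using OnePoint.rec with
    | infty =>
      induction b using OnePoint.rec with
      | infty => exact ⟨fun _ => ⟨1, rfl⟩, fun _ => rfl⟩
      | coe b =>
        constructor
        · intro hb
          exact absurd hb.symm (OnePoint.coe_ne_infty _)
        · rintro ⟨g, hg⟩
          exact absurd hg.symm (OnePoint.coe_ne_infty _)
    | coe a =>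
      induction b using OnePoint.rec with
      | infty =>
        constructor
        · intro hb
          exact absurd hb (OnePoint.coe_ne_infty _)
        · rintro ⟨g, hg⟩
          exact absurd hg (OnePoint.coe_ne_infty _)
      | coe b =>
        simp only [app_ofProper_coe, OnePoint.map_some, OnePoint.coe_eq_coe]
        exact h a b

end Emb

end Vale.Agent.P093.N2
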