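import Vale.Agent.P093.N2.StrataS

/-!
# P093, part N2: the first and the last stratum of the filtration of `RZ G X Z`

* `RT.inc f`: the inclusion `RT G X' Z → RT G X Z` given by an embedding `f : X' → X`;
* `homeoBot`: `RZ G S Z ≃ₜ FD S {∅}`;
* `homeoTop`: `RZ G Sᶜ Z ≃ₜ (FD S D)ᶜ` for the family `D` of all proper subsets.
-/

open CategoryTheory MonoidalCategory Filter Topology OnePoint

set_option linter.unusedSectionVars false

namespace Vale.Agent.P093.N2

open Vale.Agent.P251.G Vale.Agent.P251.G.LC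

section inc

variable {G : Type} [Group G] [Finite G] {X X' : LC} {Z : Type}
  [TopologicalSpace Z] [T2Space Z] [LocallyCompactSpace Z] [MulAction G Z]
  [ContinuousConstSMul G Z]

/-- the map of `UT` given by a map of spaces -/
def UT.inc {G X X' : Type} (f : X' → X) (w : UT G X') : UT G X :=
  UT.mk (fun g => f (w.x g)) w.s (w.cond.imp_right fun h g k => congrArg f (h g k))

@[simp] theorem UT.x_inc {G X X' : Type} (f : X' → X) (w : UT G X') (g : G) :
    (UT.inc f w).x g = f (w.x g) := rfl

@[simp] theorem UT.s_inc {G X X' : Type} (f : X' → X) (w : UT G X') :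
    (UT.inc f w).s = w.s := rfl

theorem UT.inc_smul {X X' : Type} (f : X' → X) (g : G) (w : UT G X') :
    UT.inc f (g • w) = g • UT.inc f w := rfl

theorem UT.isEmbedding_inc {f : X' → X} (hf : IsEmbedding f) :
    IsEmbedding (UT.inc (G := G) f) := by
  have h1 : IsEmbedding (Prod.map (Pi.map fun _ : G => f) (id : NNReal → NNReal)) :=
    (IsEmbedding.piMap fun _ => hf).prodMap IsEmbedding.id
  have h2 : IsEmbedding (fun z : UT G X' => (z.x, z.s)) := UT.isClosedEmbedding_val.isEmbedding
  have hc : Continuous (UT.inc (G := G) f) :=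
    UT.continuous_mk (continuous_pi fun g =>
      hf.continuous.comp ((continuous_apply g).comp UT.continuous_x)) UT.continuous_s _
  exact IsEmbedding.of_comp hc (g := fun z : UT G X => (z.x, z.s))
    (UT.continuous_x.prodMk UT.continuous_s) (h1.comp h2)

/-- the map of orbit spaces given by a map of spaces -/
def RT.inc (f : X' → X) : RT G X' Z → RT G X Z :=
  Quotient.map (fun p : UT G X' × Z => ((UT.inc f p.1, p.2) : UT G X × Z)) (by
    rintro _ b ⟨g, rfl⟩
    exact ⟨g, rfl⟩)

@[simp] theorem RT.inc_orb (f : X' → X) (p : UT G X' × Z) :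
    RT.inc f (orb p : RT G X' Z) = orb (UT.inc f p.1, p.2) := rfl

theorem RT.isEmbedding_inc {f : X' → X} (hf : IsEmbedding f) :
    IsEmbedding (RT.inc (G := G) (Z := Z) f) := by
  refine isEmbedding_of_saturated (π := (orb : UT G X × Z → RT G X Z))
    (π' := (orb : UT G X' × Z → RT G X' Z))
    (ι := fun p : UT G X' × Z => ((UT.inc f p.1, p.2) : UT G X × Z))
    isOpenQuotientMap_orb.isOpenMap continuous_orb isOpenQuotientMap_orb.isQuotientMap
    ((UT.isEmbedding_inc hf).prodMap IsEmbedding.id) (RT.inc_orb f) ?_ ?_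
  · intro a b hab
    obtain ⟨p, rfl⟩ := orb_surjective a
    obtain ⟨q, rfl⟩ := orb_surjective b
    rw [RT.inc_orb, RT.inc_orb] at hab
    obtain ⟨g, hg⟩ := orb_eq_iff.mp hab
    refine orb_eq_iff.mpr ⟨g, ?_⟩
    have hinj : Function.Injective
        (fun p : UT G X' × Z => ((UT.inc f p.1, p.2) : UT G X × Z)) :=
      ((UT.isEmbedding_inc hf).prodMap IsEmbedding.id).injective
    exact hinj hg
  · intro p p' h
    obtain ⟨g, hg⟩ := orb_eq_iff.mp h
    refine ⟨g⁻¹ • p', ?_⟩
    have h1 : p = g⁻¹ • ((UT.inc f p'.1, p'.2) : UT G X × Z) := by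
      rw [← hg, inv_smul_smul]
    rw [h1]
    rfl

theorem RT.mem_range_inc (f : X' → X) (p : UT G X × Z) :
    (orb p : RT G X Z) ∈ Set.range (RT.inc (G := G) (Z := Z) f) ↔
      ∀ g, p.1.x g ∈ Set.range f := by
  constructor
  · rintro ⟨y, hy⟩ g
    obtain ⟨q, rfl⟩ := orb_surjective y
    rw [RT.inc_orb] at hy
    obtain ⟨k, rfl⟩ := orb_eq_iff.mp hy
    exact ⟨q.1.x (g * k), rfl⟩
  · intro h
    have hc : ∀ g k, (p.1.x g = p.1.x k) → (h g).choose = (h k).choose := by
      intro g k hgk
      congr 1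
      funext y
      rw [hgk]
    refine ⟨orb (UT.mk (fun g => (h g).choose) p.1.s
      (p.1.cond.imp_right fun h1 g k => hc g k (h1 g k)), p.2), ?_⟩
    rw [RT.inc_orb]
    congr 1
    exact Prod.ext (UT.ext (funext fun g => (h g).choose_spec) rfl) rfl

end inc

section ends

variable {G : Type} [Group G] [Fintype G] [DecidableEq G] {X : LC} {S : Set X} {Z : Type}
  [TopologicalSpace Z] [T2Space Z] [LocallyCompactSpace Z] [MulAction G Z]
  [ContinuousConstSMul G Z]

theorem fam_bot : SFam ({∅} : Finset (Finset G)) where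
  down := by
    intro V W hW hV
    rw [Finset.mem_singleton] at hW ⊢
    subst hW
    exact Finset.subset_empty.mp hV
  trs := by
    intro W g hW
    rw [Finset.mem_singleton] at hW ⊢
    subst hW
    ext h
    simp

theorem fam_top : SFam ((Finset.univ : Finset (Finset G)).erase Finset.univ) where
  down := by
    intro V W hW hV
    simp only [Finset.mem_erase, Finset.mem_univ, and_true, ne_eq] at hW ⊢
    rintro rfl
    exact hW (Finset.univ_subset_iff.mp hV)
  trs := by
    intro W g hW
    simp only [Finset.mem_erase, Finset.mem_univ, and_true, ne_eq] at hW ⊢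
    intro h
    apply hW
    ext k
    have h1 : k * g⁻¹ ∈ trs g W := h ▸ Finset.mem_univ _
    rw [mem_tr, inv_mul_cancel_right] at h1
    exact ⟨fun _ => Finset.mem_univ _, fun _ => h1⟩

theorem range_inc_bot (hS : IsClosed S) :
    Set.range (RT.inc (G := G) (Z := Z) (X' := sub hS) (fun u => (u.1 : X))) =
      FD G Z S {∅} := by
  ext y
  obtain ⟨p, rfl⟩ := orb_surjective y
  rw [RT.mem_range_inc, orb_mem_FD fam_bot, Finset.mem_singleton]
  constructor
  · intro h
    ext g
    obtain ⟨u, hu⟩ := h g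
    simp only [mem_nonS, Finset.notMem_empty, iff_false, not_not]
    rw [← hu]
    exact u.2
  · intro h g
    have h1 : g ∉ nonS S p.1.x := by
      rw [h]
      exact Finset.notMem_empty g
    rw [mem_nonS, not_not] at h1
    exact ⟨⟨p.1.x g, h1⟩, rfl⟩

theorem range_inc_top (hS : IsClosed S) :
    Set.range (RT.inc (G := G) (Z := Z) (X' := opn hS.isOpen_compl) (fun u => (u.1 : X))) =
      (FD G Z S ((Finset.univ : Finset (Finset G)).erase Finset.univ))ᶜ := by
  ext y
  obtain ⟨p, rfl⟩ := orb_surjective y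
  rw [RT.mem_range_inc, Set.mem_compl_iff, orb_mem_FD fam_top]
  simp only [Finset.mem_erase, Finset.mem_univ, and_true, ne_eq, not_not]
  constructor
  · intro h
    ext g
    obtain ⟨u, hu⟩ := h g
    simp only [mem_nonS, Finset.mem_univ, iff_true]
    rw [← hu]
    exact u.2
  · intro h g
    have h1 : g ∈ nonS S p.1.x := by
      rw [h]
      exact Finset.mem_univ g
    rw [mem_nonS] at h1
    exact ⟨⟨p.1.x g, h1⟩, rfl⟩

/-- the first stratum -/
noncomputable def homeoBot (G Z : Type) [Group G] [Fintype G] [DecidableEq G]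
    [TopologicalSpace Z] [T2Space Z] [LocallyCompactSpace Z] [MulAction G Z]
    [ContinuousConstSMul G Z] (hS : IsClosed S) :
    RZ G (sub hS) Z ≃ₜ FD G Z S {∅} :=
  ((RT.isEmbedding_inc (G := G) (Z := Z) (X' := sub hS)
    (isClosedEmbedding_subι hS).isEmbedding).toHomeomorph).trans
    (Homeomorph.setCongr (range_inc_bot hS))

/-- the last stratum -/
noncomputable def homeoTop (G Z : Type) [Group G] [Fintype G] [DecidableEq G]
    [TopologicalSpace Z] [T2Space Z] [LocallyCompactSpace Z] [MulAction G Z]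
    [ContinuousConstSMul G Z] (hS : IsClosed S) :
    RZ G (opn hS.isOpen_compl) Z ≃ₜ
      ((FD G Z S ((Finset.univ : Finset (Finset G)).erase Finset.univ))ᶜ : Set (RT G X Z)) :=
  ((RT.isEmbedding_inc (G := G) (Z := Z) (X' := opn hS.isOpen_compl)
    hS.isOpen_compl.isOpenEmbedding_subtypeVal.isEmbedding).toHomeomorph).trans
    (Homeomorph.setCongr (range_inc_top hS))

end ends

end Vale.Agent.P093.N2
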