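import Vale.Agent.P093.N2.OrbitTr
import Vale.Agent.P093.N2.StrataE

/-!
# P093, part N2: the induction principle of `Orbit.lean` for `FamStep`
-/

set_option linter.unusedSectionVars false

open Vale.Agent.P251.G Vale.Agent.P251.G.LC

namespace Vale.Agent.P093.N2

variable {G : Type} [Group G] [Fintype G] [DecidableEq G]

/-- **Induction principle.** The family of all proper subsets of a group of prime order is obtained
from `{∅}` by adding free orbits. -/
theorem famStep_induction (hp : (Fintype.card G).Prime) {P : Finset (Finset G) → ℤ → Prop}
    {r a c k : ℤ} (h0 : P {∅} r)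
    (hstep : ∀ (D D' : Finset (Finset G)) (W : Finset G) (s : ℤ), FamStep D D' W → P D s →
      P D' (s + k * (a ^ (Fintype.card G - W.card) * c ^ W.card))) :
    P ((Finset.univ : Finset (Finset G)).erase Finset.univ)
      (r + k * (qchi (Fintype.card G) (a + c) - qchi (Fintype.card G) a -
        qchi (Fintype.card G) c)) := by
  refine Fam.induction hp h0 ?_
  intro D W s hD hD' hW h1 h2 _ h3 hP
  refine hstep D (D ∪ orbS W) W s ?_ hP
  exact
    { fam := hD.toSFam
      fam' := hD'.toSFam
      notMem := hW
      mem := Finset.mem_union_right _ (mem_orbS.mpr ⟨1, tr_one' W⟩)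
      sub := Finset.subset_union_left
      cases := fun V hV => by
        rcases Finset.mem_union.mp hV with h4 | h4
        · exact Or.inl h4
        · obtain ⟨g, hg⟩ := mem_orbS.mp h4
          exact Or.inr ⟨g, hg.symm⟩
      ne_empty := h1
      ne_univ := h2
      free := h3 }

end Vale.Agent.P093.N2
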