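import Vale.Agent.P093.N.VL
import Vale.Agent.P093.N4.Dim
import Vale.Agent.P093.N2.Asm

/-!
# P093, part N2: vanishing lines, `p`-locally, from a complex of nonzero Euler characteristic

* `cl_VL` : `Z ↦ U.VL D b (Z ⊗ L)` is a thick class;
* `VL.of_faithful` : if `K ◁ g = 0` implies `m • g = 0` for all `g`, `m` is invertible on `L` and
  `K ⊗ L` has a vanishing line, then so has `L`;
* `dimLE_obj` : `S X` is a finite complex.
-/

open CategoryTheory MonoidalCategory Limits Pretriangulated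

set_option linter.unusedSectionVars false

universe v u

namespace Vale.Agent.P093.N2

open Vale.Agent.P251.T Vale.Agent.P251.S Vale.Agent.P251.G Vale.Agent.P251.G.LC
  Vale.Agent.P251.I Vale.Agent.P251.M Vale.Agent.P093.N.TT Vale.Agent.P093.N.TT.UTri
  Vale.Agent.P093.N.LR

variable {T : Type u} [Category.{v} T] [Preadditive T] [HasZeroObject T]
    [HasShift T ℤ] [∀ n : ℤ, (shiftFunctor T n).Additive] [Pretriangulated T]
    [MonoidalCategory T] [SymmetricCategory T] [TensorTriangulated T]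

section

variable {P : T → Prop} (hP : Cl P)

include hP in
/-- `Z ↦ P (L ⊗ Z)` is a thick class -/
theorem Cl.left (L : T) : Cl (fun Z => P (L ⊗ Z)) where
  zero h := hP.tensor_zero L h
  shift {X} h := hP.of_iso (tsh L X) (hP.shift h)
  of_shift {X} h := hP.of_shift (hP.of_iso (tsh L X).symm h)
  ext hΔ hX hZ := hP.ext (TensorTriangulated.distinguished L _ hΔ) hX hZ
  retract i p hip h := hP.retract (L ◁ i) (L ◁ p) (by
    rw [← whiskerLeft_comp, hip, whiskerLeft_id]) h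

include hP in
theorem Cl.congr {P' : T → Prop} (h : ∀ Z, P Z ↔ P' Z) : Cl P' := by
  have : P = P' := funext fun Z => propext (h Z)
  rw [← this]
  exact hP

include hP in
/-- `Z ↦ P (Z ⊗ L)` is a thick class -/
theorem Cl.right (L : T) : Cl (fun Z => P (Z ⊗ L)) :=
  (hP.left L).congr fun Z => hP.iso_iff (β_ L Z)

end

variable (U : UTri T) {D : ℤ → T → Prop} {b : ℤ}

/-- the vanishing line classes are thick -/
theorem cl_VL (hb : 0 ≤ b) (hD : ∀ n W, D n W → D (n + 1) (W⟦(1 : ℤ)⟧))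
    (hD' : ∀ n W, D n W → D (n - 1) (W⟦(-1 : ℤ)⟧)) : Cl (U.VL D b) where
  zero h := VL.zero h
  shift h := h.shift hD'
  of_shift h := h.of_shift hD
  ext hΔ hX hZ := VL.ext hb hX hZ hΔ
  retract i p hip h := h.retract i p hip

/-- `Q s (K ⊗ X) ≅ K ⊗ Q s X` -/
def QK (K : T) : ∀ (s : ℕ) (X : T), K ⊗ U.Q s X ≅ U.Q s (K ⊗ X)
  | 0, _ => Iso.refl _
  | s + 1, X => (α_ K U.I (U.Q s X)).symm ≪≫ whiskerRightIso (β_ K U.I) (U.Q s X) ≪≫
      α_ U.I K (U.Q s X) ≪≫ whiskerLeftIso U.I (QK K s X)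

variable {U}

lemma Qm_zsmul (s : ℕ) {X Y : T} (m : ℤ) (f : X ⟶ Y) : U.Qm s (m • f) = m • U.Qm s f := by
  induction s with
  | zero => rfl
  | succ s ih =>
    change U.I ◁ U.Qm s (m • f) = m • (U.I ◁ U.Qm s f)
    rw [ih]
    exact (tensorLeft U.I).map_zsmul

lemma Qm_isIso (s : ℕ) {X Y : T} (f : X ⟶ Y) [IsIso f] : IsIso (U.Qm s f) :=
  ⟨U.Qm s (inv f), by rw [← Qm_comp, IsIso.hom_inv_id, Qm_id],
    by rw [← Qm_comp, IsIso.inv_hom_id, Qm_id]⟩

/-- vanishing lines descend along a faithful finite complex -/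
theorem VL.of_faithful {K L : T} (hDK : ∃ d : ℤ, ∀ n W, D n W → D (n + d) (K ⊗ W)) (m : ℤ)
    (hK : ∀ {W Z : T} (g : W ⟶ Z), K ◁ g = 0 → m • g = 0) (hm : IsIso (m • 𝟙 L))
    (h : U.VL D b (K ⊗ L)) : U.VL D b L := by
  obtain ⟨r, c, h⟩ := h
  obtain ⟨d, hd⟩ := hDK
  refine ⟨r, c + d, fun s n W hW hn g hg => ?_⟩
  have h1 : K ◁ g ≫ (QK U K s L).hom = 0 :=
    h s (n + d) (K ⊗ W) (hd n W hW) (by linarith) _ ((hg.whiskerLeft K).comp_right _)
  have h2 : K ◁ g = 0 := by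
    rw [← cancel_mono (QK U K s L).hom, h1, zero_comp]
  have h3 : m • g = 0 := hK g h2
  have h4 : g ≫ U.Qm s (m • 𝟙 L) = 0 := by
    rw [Qm_zsmul, Qm_id, Preadditive.comp_zsmul, Category.comp_id, h3]
  have := Qm_isIso (U := U) s (m • 𝟙 L)
  rw [← cancel_mono (U.Qm s (m • 𝟙 L)), h4, zero_comp]

section spaces

variable (F : SpaceFunctor T)

/-- the suspension spectrum of a finite cell space is a finite complex -/
theorem dimLE_obj (X : FCat) : ∃ n : ℤ, DimLE n (F.S.obj X) := by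
  obtain ⟨X, hX⟩ := X
  have key : ∀ (X : LC) (_ : FC X), ∃ n : ℤ, ∀ h : FC X, DimLE n (F.S.obj ⟨X, h⟩) := by
    intro X hX
    induction hX with
    | empty => exact ⟨0, fun h => DimLE.zero (F.isZero (inferInstanceAs (IsEmpty Empty)))⟩
    | sph n => exact ⟨n, fun h => (DimLE.sphere (n : ℤ) le_rfl).of_iso (sphIso F n).symm⟩
    | @hequiv X Y hX e ih =>
      obtain ⟨n, hn⟩ := ih
      refine ⟨n, fun h => ?_⟩
      obtain ⟨f, g, h1, h2⟩ := e
      have := F.isIso_map (FCat.hom f : (⟨X, hX⟩ : FCat) ⟶ ⟨Y, h⟩) ⟨g, h1, h2⟩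
      exact (hn hX).of_iso (asIso (F.S.map (FCat.hom f : (⟨X, hX⟩ : FCat) ⟶ ⟨Y, h⟩)))
    | @ext A B i hi hA hC ihA ihC =>
      obtain ⟨n, hn⟩ := ihA
      obtain ⟨k, hk⟩ := ihC
      refine ⟨max n k, fun h => ?_⟩
      exact DimLE.ext _ (F.cof_distinguished (FCat.hom i : (⟨A, hA⟩ : FCat) ⟶ ⟨B, h⟩) hi)
        ((hn hA).mono (le_max_left _ _)) ((hk _).mono (le_max_right _ _))
  obtain ⟨n, hn⟩ := key X hX
  exact ⟨n, hn hX⟩

/-- **Step 2, final form.**  `hEuler` is the theorem on the trace (block 2E): tensoring with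
`S Y` is faithful up to `χ(Y)`.  `hstep` is the theorem on the quadratic construction. -/
theorem VL.of_chi {p : ℕ} (hb : 0 ≤ b) {L : T}
    (hL : ∀ m : ℤ, ¬ (p : ℤ) ∣ m → IsIso (m • 𝟙 L))
    (hEuler : ∀ (Y : FCat) (m : ℤ), HasChi Y.obj m → ∀ {W Z : T} (g : W ⟶ Z),
      F.S.obj Y ◁ g = 0 → m • g = 0)
    (hstep : ∀ (P : T → Prop), Cl P → ∀ (X : FCat) (m : ℤ), HasChi X.obj m → m ≠ 0 →
      P (F.S.obj X) → ∃ (Y : FCat) (n : ℤ), HasChi Y.obj n ∧ P (F.S.obj Y) ∧ ¬ (p : ℤ) ∣ n)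
    (X : FCat) (m : ℤ) (hX : HasChi X.obj m) (hm : m ≠ 0)
    (h : U.VL DimLE b (F.S.obj X ⊗ L)) : U.VL DimLE b L := by
  have hcl : Cl (U.VL (DimLE (T := T)) b) := cl_VL U hb (fun n W h => h.shift 1)
    (fun n W h => by simpa [sub_eq_add_neg] using h.shift (-1))
  obtain ⟨Y, n, hY, hPY, hn⟩ := hstep (fun Z => U.VL DimLE b (Z ⊗ L)) (hcl.right L) X m hX hm h
  obtain ⟨d, hd⟩ := dimLE_obj F Y
  exact VL.of_faithful ⟨d, fun k W hW => hd.tensor hW _ (add_comm _ _)⟩ n (hEuler Y n hY)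
    (hL n hn) hPY

end spaces

end Vale.Agent.P093.N2
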