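import Vale.Agent.P251.G.PowLC
import Vale.Agent.P251.G.CofibEx
import Vale.Agent.P251.G.FC
import Mathlib.Topology.Algebra.ConstMulAction
import Mathlib.Topology.Maps.OpenQuotient

/-!
# P093, part N2: definitions

* `NDR X S`: neighbourhood deformation retract data (relaxed: `u` is continuous on `X` only);
* `opn hU`: an open subspace as an object of `LC`;
* `HC a b X m`: `X` is built from cells `ℝⁿ`, `a ≤ n ≤ b`, and has Euler characteristic `m`;
* `Orb G W`: the orbit space of a finite group action;
* `UT G X`: the mapping cone of the diagonal `X → X^G`, as a closed subset of `X^G × [0, ∞)`;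
* `RZ G X Z = (UT G X × Z) / G`.
-/

open CategoryTheory MonoidalCategory Filter Topology OnePoint
open Vale.Agent.P251.G Vale.Agent.P251.G.LC

namespace Vale.Agent.P093.N2

/-! ### Neighbourhood deformation retracts -/

/-- Neighbourhood deformation retract data for the subset `S` of `X`: `u` is continuous on `X` (no
condition at infinity), the deformation `h` is a pointed map and may reach infinity. -/
structure NDR (X : LC) (S : Set X) where
  /-- the distance to `S` -/
  u : X → unitInterval
  u_cont : Continuous u
  /-- the deformation -/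
  h : X ⊗ II ⟶ X
  u_eq_zero : ∀ x : X, u x = 0 ↔ x ∈ S
  h_zero : ∀ x : X,
    app h (smash (x : OnePoint X) ((0 : unitInterval) : OnePoint unitInterval)) = x
  h_mem : ∀ x ∈ S, ∀ t : unitInterval,
    app h (smash (x : OnePoint X) (t : OnePoint unitInterval)) = x
  h_lt : ∀ (x : X) (t : unitInterval), u x < t →
    app h (smash (x : OnePoint X) (t : OnePoint unitInterval)) ∈ ptd S

theorem NDR.isClosed {X : LC} {S : Set X} (N : NDR X S) : IsClosed S := by
  have h1 : S = N.u ⁻¹' {0} := by
    ext x
    exact (N.u_eq_zero x).symm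
  rw [h1]
  exact isClosed_singleton.preimage N.u_cont

/-- an open subspace as an object of `LC` -/
def opn {X : LC} {U : Set X} (hU : IsOpen U) : LC :=
  haveI : LocallyCompactSpace U := hU.locallyCompactSpace
  LC.of U

/-- `X` is built from cells `ℝⁿ`, `a ≤ n ≤ b`, by extensions along neighbourhood deformation
retracts and pointed homotopy equivalences, with Euler characteristic `m`. -/
inductive HC (a b : ℕ) : LC → ℤ → Prop
  | empty : HC a b (LC.of Empty) 0
  | sph (n : ℕ) (ha : a ≤ n) (hb : n ≤ b) : HC a b (Sph n) ((-1) ^ n)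
  | hequiv {X Y : LC} {m : ℤ} : HC a b X m → HEquiv X Y → HC a b Y m
  | ext {X : LC} {S : Set X} {m n : ℤ} (N : NDR X S) : HC a b (sub N.isClosed) m →
      HC a b (opn N.isClosed.isOpen_compl) n → HC a b X (m + n)

/-! ### Orbit spaces -/

section orb

variable (G : Type) [Group G] (W : Type) [TopologicalSpace W] [MulAction G W]

/-- the orbit space -/
abbrev Orb : Type := MulAction.orbitRel.Quotient G W

variable {G W}

/-- the projection to the orbit space -/
def orb (w : W) : Orb G W := Quotient.mk (MulAction.orbitRel G W) w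

omit [TopologicalSpace W] in
theorem orb_eq_iff {a b : W} : (orb a : Orb G W) = orb b ↔ ∃ g : G, g • a = b := by
  have h0 : (orb a : Orb G W) = orb b ↔ a ∈ MulAction.orbit G b := Quotient.eq
  rw [h0]
  constructor
  · rintro ⟨g, hg⟩
    refine ⟨g⁻¹, ?_⟩
    rw [← hg]
    exact inv_smul_smul g b
  · rintro ⟨g, hg⟩
    refine ⟨g⁻¹, ?_⟩
    rw [← hg]
    exact inv_smul_smul g a

omit [TopologicalSpace W] in
@[simp] theorem orb_smul (g : G) (a : W) : (orb (g • a) : Orb G W) = orb a :=
  orb_eq_iff.mpr ⟨g⁻¹, inv_smul_smul g a⟩

omit [TopologicalSpace W] in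
theorem orb_surjective : Function.Surjective (orb : W → Orb G W) := Quotient.mk_surjective

omit [TopologicalSpace W] in
@[elab_as_elim]
theorem Orb.ind {P : Orb G W → Prop} (h : ∀ w, P (orb w)) (x : Orb G W) : P x := by
  obtain ⟨w, rfl⟩ := orb_surjective x
  exact h w

variable [ContinuousConstSMul G W]

theorem isOpenQuotientMap_orb : IsOpenQuotientMap (orb : W → Orb G W) :=
  MulAction.isOpenQuotientMap_quotientMk

@[continuity, fun_prop]
theorem continuous_orb : Continuous (orb : W → Orb G W) := isOpenQuotientMap_orb.continuous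

variable [Finite G] [T2Space W] [LocallyCompactSpace W]

instance : LocallyCompactSpace (Orb G W) :=
  (isOpenQuotientMap_orb (G := G) (W := W)).locallyCompactSpace

omit [T2Space W] [LocallyCompactSpace W] in
theorem isProperMap_orb [T1Space W] : IsProperMap (orb : W → Orb G W) := by
  have hpre : ∀ C : Set W, (orb : W → Orb G W) ⁻¹' (orb '' C) = ⋃ g : G, (g • ·) '' C := by
    intro C
    ext w
    simp only [Set.mem_preimage, Set.mem_image, Set.mem_iUnion]
    constructor
    · rintro ⟨c, hc, h⟩
      obtain ⟨g, hg⟩ := orb_eq_iff.mp h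
      exact ⟨g, c, hc, hg⟩
    · rintro ⟨g, c, hc, rfl⟩
      exact ⟨c, hc, (orb_smul g c).symm⟩
  rw [isProperMap_iff_isClosedMap_and_compact_fibers]
  refine ⟨continuous_orb, ?_, ?_⟩
  · intro C hC
    rw [← isOpenQuotientMap_orb.isQuotientMap.isClosed_preimage, hpre]
    exact isClosed_iUnion_of_finite fun g => isClosedMap_smul g C hC
  · intro y
    obtain ⟨w, rfl⟩ := orb_surjective y
    have h1 : (orb : W → Orb G W) ⁻¹' {orb w} = Set.range fun g : G => g • w := by
      ext v
      simp only [Set.mem_preimage, Set.mem_singleton_iff, Set.mem_range]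
      constructor
      · intro h
        obtain ⟨g, hg⟩ := orb_eq_iff.mp h.symm
        exact ⟨g, hg⟩
      · rintro ⟨g, rfl⟩
        exact orb_smul g w
    rw [h1]
    exact (Set.finite_range _).isCompact

end orb

/-! ### The mapping cone of the diagonal -/

/-- the mapping cone of the diagonal `X → X^G`, as a closed subset of `X^G × [0, ∞)` -/
def UT (G X : Type) : Type := {z : (G → X) × NNReal // z.2 = 0 ∨ ∀ g h, z.1 g = z.1 h}

namespace UT

variable {G X : Type}

/-- the tuple -/
def x (z : UT G X) : G → X := z.1.1

/-- the height -/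
def s (z : UT G X) : NNReal := z.1.2

theorem cond (z : UT G X) : z.s = 0 ∨ ∀ g h, z.x g = z.x h := z.2

/-- constructor -/
def mk (x : G → X) (s : NNReal) (h : s = 0 ∨ ∀ g h, x g = x h) : UT G X := ⟨(x, s), h⟩

@[simp] theorem x_mk (x : G → X) (s : NNReal) (h) : (mk x s h).x = x := rfl
@[simp] theorem s_mk (x : G → X) (s : NNReal) (h) : (mk x s h).s = s := rfl

@[ext (iff := false)]
theorem ext {z w : UT G X} (h1 : z.x = w.x) (h2 : z.s = w.s) : z = w :=
  Subtype.ext (Prod.ext h1 h2)

instance [Group G] : MulAction G (UT G X) where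
  smul g z := mk (fun h => z.x (h * g)) z.s (z.cond.imp_right fun h _ _ => h _ _)
  one_smul z := ext (funext fun h => congrArg z.x (mul_one h)) rfl
  mul_smul g k z := ext (funext fun h => congrArg z.x (mul_assoc h g k).symm) rfl

@[simp] theorem x_smul [Group G] (g : G) (z : UT G X) (h : G) : (g • z).x h = z.x (h * g) := rfl
@[simp] theorem s_smul [Group G] (g : G) (z : UT G X) : (g • z).s = z.s := rfl

section topology

variable [TopologicalSpace X]

instance : TopologicalSpace (UT G X) := instTopologicalSpaceSubtype

@[continuity, fun_prop]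
theorem continuous_x : Continuous (x : UT G X → G → X) :=
  continuous_fst.comp continuous_subtype_val

@[continuity, fun_prop]
theorem continuous_s : Continuous (s : UT G X → NNReal) :=
  continuous_snd.comp continuous_subtype_val

theorem continuous_mk {Z : Type*} [TopologicalSpace Z] {f : Z → G → X} {t : Z → NNReal}
    (hf : Continuous f) (ht : Continuous t) (h : ∀ z, t z = 0 ∨ ∀ g h, f z g = f z h) :
    Continuous fun z => mk (f z) (t z) (h z) :=
  Continuous.subtype_mk (hf.prodMk ht) _

instance [T2Space X] : T2Space (UT G X) := inferInstanceAs (T2Space (Subtype _))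

theorem isClosed_cond [T2Space X] :
    IsClosed {z : (G → X) × NNReal | z.2 = 0 ∨ ∀ g h, z.1 g = z.1 h} := by
  refine (isClosed_eq continuous_snd continuous_const).union ?_
  have h1 : {z : (G → X) × NNReal | ∀ g h, z.1 g = z.1 h} =
      ⋂ g, ⋂ h, {z : (G → X) × NNReal | z.1 g = z.1 h} := by
    ext z
    simp only [Set.mem_iInter]
    rfl
  change IsClosed {z : (G → X) × NNReal | ∀ g h, z.1 g = z.1 h}
  rw [h1]
  refine isClosed_iInter fun g => isClosed_iInter fun h => ?_
  exact isClosed_eq ((continuous_apply g).comp continuous_fst)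
    ((continuous_apply h).comp continuous_fst)

theorem isClosedEmbedding_val [T2Space X] :
    IsClosedEmbedding (fun z : UT G X => (z.x, z.s)) :=
  isClosed_cond.isClosedEmbedding_subtypeVal

instance [Finite G] [T2Space X] [LocallyCompactSpace X] : LocallyCompactSpace (UT G X) :=
  isClosedEmbedding_val.locallyCompactSpace

instance [Group G] : ContinuousConstSMul G (UT G X) where
  continuous_const_smul g := continuous_mk
    (continuous_pi fun h => (continuous_apply (h * g)).comp continuous_x) continuous_s _

end topology

end UT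

/-- `(UT G X × Z) / G` -/
abbrev RT (G X Z : Type) [Group G] [MulAction G Z] [TopologicalSpace X] [TopologicalSpace Z] :
    Type := Orb G (UT G X × Z)

/-- `(UT G X × Z) / G` as an object of `LC` -/
abbrev RZ (G : Type) [Group G] [Finite G] (X : LC) (Z : Type) [TopologicalSpace Z] [T2Space Z]
    [LocallyCompactSpace Z] [MulAction G Z] [ContinuousConstSMul G Z] : LC :=
  LC.of (RT G X Z)

end Vale.Agent.P093.N2
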