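import Vale.Agent.P251.G.NDR
import Vale.Agent.P093.N2.QuotDefs

/-!
# P093, part N2: neighbourhood deformation retracts, reparametrisation

* `NDR.cofib_of_range`, `NDR.cofib`: a neighbourhood deformation retract gives a cofibration;
* `reparam`: reparametrisation of a homotopy;
* `NDR.ofHtpy`: a homotopy `K` of `Y` starting at the identity and a function `v` with
  `K (y, t) ∈ {v = 0}` for `v y < t` give a neighbourhood deformation retract `{v = 0} ⊆ T`, for
  every closed `T ⊆ Y` preserved by `K`.
-/

open CategoryTheory MonoidalCategory Filter Topology OnePoint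

namespace Vale.Agent.P093.N2

open Vale.Agent.P251.G Vale.Agent.P251.G.LC

variable {A C D X Y Z : LC}

/-! ### NDR pairs are cofibrations -/

theorem NDR.cofib_of_range {S : Set X} (N : NDR X S) {i : A ⟶ X}
    (hi : Function.Injective (app i)) (hr : Set.range (app i) = ptd S) : Cofib i := by
  refine cofib_of_ndr hi (fun x => (N.u x : ℝ)) (continuous_subtype_val.comp N.u_cont)
    (fun x => (N.u x).2.1) ?_ N.h ?_ ?_ ?_
  · intro x
    rw [hr, coe_mem_ptd, ← N.u_eq_zero x]
    exact ⟨fun h => Subtype.ext h, fun h => congrArg Subtype.val h⟩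
  · apply hom_ext
    intro x
    rw [app_comp, app_incl, N.h_zero]
    rfl
  · intro x t hx
    exact N.h_mem x ((N.u_eq_zero x).mp (Subtype.ext hx)) t
  · intro x hx
    rw [hr]
    exact N.h_lt x 1 hx

theorem NDR.cofib {S : Set X} (N : NDR X S) : Cofib (subι N.isClosed) :=
  N.cofib_of_range (injective_subι _) (range_subι _)

theorem NDR.cofib_ofClosed {S : Set X} (N : NDR X S) (z : A → X) (hz : IsClosedEmbedding z)
    (hr : Set.range z = S) : Cofib (ofClosed z hz) :=
  N.cofib_of_range (injective_ofClosed z hz) (by rw [range_ofClosed, hr])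

/-! ### Reparametrisation -/

section reparam

theorem tendsto_reparam (v : X × unitInterval → unitInterval) :
    Tendsto (fun p : X × unitInterval => (p.1, v p)) (cocompact (X × unitInterval))
      (cocompact (X × unitInterval)) := by
  apply tendsto_cocompact_of_preimage
  intro K hK
  refine ⟨(Prod.fst '' K) ×ˢ Set.univ, (hK.image continuous_fst).prod isCompact_univ, ?_⟩
  intro p hp
  exact ⟨⟨_, hp, rfl⟩, Set.mem_univ _⟩

/-- reparametrisation of the time coordinate -/
def reparam (v : X × unitInterval → unitInterval) (hv : Continuous v) : X ⊗ II ⟶ X ⊗ II :=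
  ofProper (X := LC.of (X × unitInterval)) (Y := LC.of (X × unitInterval))
    (fun p => (p.1, v p)) (continuous_fst.prodMk hv) (tendsto_reparam v)

@[simp] theorem app_reparam (v : X × unitInterval → unitInterval) (hv : Continuous v) (x : X)
    (t : unitInterval) :
    app (reparam v hv) (smash (x : OnePoint X) (t : OnePoint unitInterval)) =
      smash (x : OnePoint X) ((v (x, t) : unitInterval) : OnePoint unitInterval) := rfl

end reparam

section dbl

/-- `min 1 (2 t)` -/
noncomputable def dbl (t : unitInterval) : unitInterval :=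
  ⟨min 1 (2 * t.1), le_min zero_le_one (by linarith [t.2.1]), min_le_left _ _⟩

theorem continuous_dbl : Continuous dbl :=
  Continuous.subtype_mk (continuous_const.min (continuous_const.mul continuous_subtype_val)) _

@[simp] theorem dbl_zero : dbl 0 = 0 := by
  apply Subtype.ext
  change min 1 (2 * (0 : ℝ)) = 0
  rw [mul_zero, min_eq_right zero_le_one]

theorem zero_inf_unit (a : unitInterval) : (0 : unitInterval) ⊓ a = 0 :=
  inf_eq_left.mpr (show (0 : ℝ) ≤ a.1 from a.2.1)

theorem inf_zero_unit (a : unitInterval) : a ⊓ (0 : unitInterval) = 0 :=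
  inf_eq_right.mpr (show (0 : ℝ) ≤ a.1 from a.2.1)

theorem lt_inf_dbl {v t : unitInterval} (h : v < t) (h0 : v ≠ 0) : v < t ⊓ dbl v := by
  refine lt_inf_iff.mpr ⟨h, ?_⟩
  change v.1 < min 1 (2 * v.1)
  have h1 : v.1 < t.1 := h
  have h2 : 0 < v.1 := lt_of_le_of_ne v.2.1 (fun h => h0 (Subtype.ext h.symm))
  exact lt_min (lt_of_lt_of_le h1 t.2.2) (by linarith)

end dbl

/-- A homotopy `K` starting at the identity, preserving the closed set `T`, and a function `v` such
that `K` moves `y` into `{v = 0}` after the time `v y`: then `{v = 0}` is a neighbourhood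
deformation retract in `T`. -/
noncomputable def NDR.ofHtpy {T : Set Y} (hT : IsClosed T) (K : Y ⊗ II ⟶ Y)
    (v : Y → unitInterval) (hv : Continuous v)
    (h0 : ∀ y : Y, app K (smash (y : OnePoint Y) ((0 : unitInterval) : OnePoint unitInterval)) = y)
    (hKT : ∀ y ∈ T, ∀ t : unitInterval,
      app K (smash (y : OnePoint Y) (t : OnePoint unitInterval)) ∈ ptd T)
    (hKv : ∀ y ∈ T, ∀ t : unitInterval, v y < t →
      app K (smash (y : OnePoint Y) (t : OnePoint unitInterval)) ∈ ptd {y | v y = 0}) :
    NDR (sub hT) {y | v y.1 = 0} := by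
  have hv' : Continuous (fun p : Y × unitInterval => p.2 ⊓ dbl (v p.1)) :=
    continuous_snd.inf (continuous_dbl.comp (hv.comp continuous_fst))
  have hK : ∀ (y : sub hT) (t : unitInterval),
      app ((subι hT ▷ II) ≫ reparam _ hv' ≫ K)
        (smash (y : OnePoint (sub hT)) (t : OnePoint unitInterval)) =
      app K (smash ((y.1 : Y) : OnePoint Y)
        ((t ⊓ dbl (v y.1) : unitInterval) : OnePoint unitInterval)) := fun y t => rfl
  have hr : ∀ p, app ((subι hT ▷ II) ≫ reparam _ hv' ≫ K) p ∈ Set.range (app (subι hT)) := by
    intro p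
    obtain ⟨y, t, rfl⟩ := smash_coe_surjective (X := sub hT) (Y := unitInterval) p
    induction y using OnePoint.rec with
    | infty =>
      rw [smash_infty_left, app_infty]
      exact infty_mem_range_app _
    | coe y =>
      rw [hK, range_subι]
      exact hKT _ y.2 _
  have hh : ∀ (y : sub hT) (t : unitInterval),
      app (subι hT) (app (factor (subι hT) (injective_subι hT) _ hr)
        (smash (y : OnePoint (sub hT)) (t : OnePoint unitInterval))) =
      app K (smash ((y.1 : Y) : OnePoint Y)
        ((t ⊓ dbl (v y.1) : unitInterval) : OnePoint unitInterval)) := by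
    intro y t
    rw [app_factor, hK]
  exact
    { u := fun y => v y.1
      u_cont := hv.comp continuous_subtype_val
      h := factor (subι hT) (injective_subι hT) _ hr
      u_eq_zero := fun y => Iff.rfl
      h_zero := by
        intro y
        apply injective_subι hT
        rw [hh, zero_inf_unit]
        exact h0 _
      h_mem := by
        intro y hy t
        apply injective_subι hT
        have hy' : v y.1 = 0 := hy
        rw [hh, hy', dbl_zero, inf_zero_unit]
        exact h0 _
      h_lt := by
        intro y t ht
        have h1 : app K (smash ((y.1 : Y) : OnePoint Y)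
            ((t ⊓ dbl (v y.1) : unitInterval) : OnePoint unitInterval)) ∈ ptd {y | v y = 0} := by
          by_cases hy : v y.1 = 0
          · rw [hy, dbl_zero, inf_zero_unit, h0]
            exact coe_mem_ptd.mpr hy
          · exact hKv _ y.2 _ (lt_inf_dbl ht hy)
        intro d hd
        rw [← hh, hd] at h1
        exact h1 d.1 rfl }

/-- The same on the whole space. -/
noncomputable def NDR.ofHtpy' (K : Y ⊗ II ⟶ Y) (v : Y → unitInterval) (hv : Continuous v)
    (h0 : ∀ y : Y, app K (smash (y : OnePoint Y) ((0 : unitInterval) : OnePoint unitInterval)) = y)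
    (hKv : ∀ (y : Y) (t : unitInterval), v y < t →
      app K (smash (y : OnePoint Y) (t : OnePoint unitInterval)) ∈ ptd {y | v y = 0}) :
    NDR Y {y | v y = 0} := by
  have hv' : Continuous (fun p : Y × unitInterval => p.2 ⊓ dbl (v p.1)) :=
    continuous_snd.inf (continuous_dbl.comp (hv.comp continuous_fst))
  have hh : ∀ (y : Y) (t : unitInterval),
      app (reparam _ hv' ≫ K) (smash (y : OnePoint Y) (t : OnePoint unitInterval)) =
      app K (smash (y : OnePoint Y)
        ((t ⊓ dbl (v y) : unitInterval) : OnePoint unitInterval)) := fun y t => rfl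
  exact
    { u := v
      u_cont := hv
      h := reparam _ hv' ≫ K
      u_eq_zero := fun y => Iff.rfl
      h_zero := by
        intro y
        rw [hh, zero_inf_unit]
        exact h0 _
      h_mem := by
        intro y hy t
        have hy' : v y = 0 := hy
        rw [hh, hy', dbl_zero, inf_zero_unit]
        exact h0 _
      h_lt := by
        intro y t ht
        rw [hh]
        by_cases hy : v y = 0
        · rw [hy, dbl_zero, inf_zero_unit, h0]
          exact coe_mem_ptd.mpr hy
        · exact hKv _ _ (lt_inf_dbl ht hy) }

end Vale.Agent.P093.N2
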