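import Vale.Agent.P093.N2.HasChi
import Vale.Agent.P093.N2.Strata0
import Vale.Agent.P251.G.NDR
import Vale.Agent.P251.G.PowLC

/-!
# P093, part N2: calculus of `NDR` and of `HC`

`HC a b X m` (see `QuotDefs`): `X` is built from the spaces `ℝⁿ`, `a ≤ n ≤ b`, and its (reduced, or
compactly supported) Euler characteristic is `m`.
-/

open CategoryTheory MonoidalCategory Limits Vale.Agent.P251.G Vale.Agent.P251.G.LC Topology
  OnePoint

namespace Vale.Agent.P093.N2

/-! ### Closed subspaces and their open complements -/

section sub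

variable {X Y : LC} {S : Set X}

/-- homeomorphic closed subspaces -/
def isoSub (hS : IsClosed S) {Z : LC} (e : Z ≃ₜ S) : Z ≅ sub hS :=
  ofHomeo (X := Z) (Y := sub hS) e

/-- homeomorphic open subspaces -/
def isoOpn {U : Set X} (hU : IsOpen U) {Z : LC} (e : Z ≃ₜ U) : Z ≅ opn hU :=
  ofHomeo (X := Z) (Y := opn hU) e

theorem isOpenEmbedding_opn {U : Set X} (hU : IsOpen U) :
    IsOpenEmbedding (fun u : opn hU => (u.1 : X)) := hU.isOpenEmbedding_subtypeVal

/-- The strict cofibre of a closed subspace is the open complement. -/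
noncomputable def cofSub (hS : IsClosed S) : cof (subι hS) ≅ opn hS.isOpen_compl :=
  cofClosedOpen (Z := sub hS) (U := opn hS.isOpen_compl) (fun u : sub hS => (u.1 : X))
    (isClosedEmbedding_subι hS) (fun u : opn hS.isOpen_compl => (u.1 : X))
    (isOpenEmbedding_opn hS.isOpen_compl) (by
      have h1 : Set.range (fun u : sub hS => (u.1 : X)) = S := Subtype.range_val
      have h2 : Set.range (fun u : opn hS.isOpen_compl => (u.1 : X)) = Sᶜ := Subtype.range_val
      rw [h1, h2]
      exact isCompl_compl)

end sub

/-- the part of a product over a subset of the first factor -/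
def homeoRight {X : Type} [TopologicalSpace X] (S : Set X) (Y : Type) [TopologicalSpace Y] :
    S × Y ≃ₜ {p : X × Y | p.1 ∈ S} where
  toFun p := ⟨(p.1.1, p.2), p.1.2⟩
  invFun q := (⟨q.1.1, q.2⟩, q.1.2)
  left_inv _ := rfl
  right_inv _ := rfl
  continuous_toFun := ((continuous_subtype_val.comp continuous_fst).prodMk
    continuous_snd).subtype_mk _
  continuous_invFun := ((continuous_fst.comp continuous_subtype_val).subtype_mk _).prodMk
    (continuous_snd.comp continuous_subtype_val)

/-- the tuples with a given pattern: `x j ∈ S` exactly for `j ∉ W` -/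
noncomputable def homeoPat {J X : Type} [TopologicalSpace X] (S : Set X) (W : Set J) :
    ({j // j ∉ W} → S) × ({j // j ∈ W} → (Sᶜ : Set X)) ≃ₜ {x : J → X | ∀ j, x j ∈ S ↔ j ∉ W} := by
  classical
  exact
  { toFun := fun p => ⟨fun j => if h : j ∈ W then (p.2 ⟨j, h⟩).1 else (p.1 ⟨j, h⟩).1, fun j => by
      by_cases h : j ∈ W
      · simp only [h, dif_pos, not_true_eq_false, iff_false]
        exact (p.2 ⟨j, h⟩).2
      · simp only [h, not_false_eq_true, iff_true, dif_neg]
        exact (p.1 ⟨j, h⟩).2⟩
    invFun := fun x => (fun j => ⟨x.1 j.1, (x.2 j.1).mpr j.2⟩,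
      fun j => ⟨x.1 j.1, fun h => (x.2 j.1).mp h j.2⟩)
    left_inv := fun p => by
      refine Prod.ext (funext fun j => Subtype.ext ?_) (funext fun j => Subtype.ext ?_)
      · exact dif_neg j.2
      · exact dif_pos j.2
    right_inv := fun x => by
      refine Subtype.ext (funext fun j => ?_)
      by_cases h : j ∈ W
      · exact dif_pos h
      · exact dif_neg h
    continuous_toFun := by
      refine Continuous.subtype_mk (continuous_pi fun j => ?_) _
      by_cases h : j ∈ W
      · simp only [h, dif_pos]
        exact continuous_subtype_val.comp ((continuous_apply _).comp continuous_snd)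
      · simp only [h, not_false_eq_true, dif_neg]
        exact continuous_subtype_val.comp ((continuous_apply _).comp continuous_fst)
    continuous_invFun := by
      refine Continuous.prodMk (continuous_pi fun j => ?_) (continuous_pi fun j => ?_)
      · exact ((continuous_apply j.1).comp continuous_subtype_val).subtype_mk _
      · exact ((continuous_apply j.1).comp continuous_subtype_val).subtype_mk _ }

/-! ### Neighbourhood deformation retracts -/

namespace NDR

variable {X Y Z : LC} {S S' : Set X}

/-- equal subsets -/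
def congr (N : NDR X S) (h : S = S') : NDR X S' := h ▸ N

theorem h_zero' (N : NDR X S) (x : OnePoint X) :
    app N.h (smash x ((0 : unitInterval) : OnePoint unitInterval)) = x := by
  induction x using OnePoint.rec with
  | infty => exact app_infty _
  | coe x => exact N.h_zero x

theorem h_mem' (N : NDR X S) {x : OnePoint X} (hx : x ∈ ptd S) (t : unitInterval) :
    app N.h (smash x (t : OnePoint unitInterval)) = x := by
  induction x using OnePoint.rec with
  | infty => exact app_infty _
  | coe x => exact N.h_mem x (coe_mem_ptd.mp hx) t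

theorem incl_h (N : NDR X S) : incl 0 X ≫ N.h = 𝟙 X := by
  apply hom_ext
  intro x
  rw [app_comp, app_incl]
  exact N.h_zero x

/-- neighbourhood deformation retract data of part G -/
def ofData (N : NDRData X S) : NDR X S where
  u x := N.u (x : OnePoint X)
  u_cont := N.u.continuous.comp OnePoint.continuous_coe
  h := N.h
  u_eq_zero := N.u_eq_zero
  h_zero := N.h_zero
  h_mem := N.h_mem
  h_lt := N.h_lt

/-- transport along a homeomorphism -/
noncomputable def ofHomeo (N : NDR X S) (e : Y ≃ₜ X) : NDR Y (e ⁻¹' S) where
  u y := N.u (e y)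
  u_cont := N.u_cont.comp e.continuous
  h := (LC.ofHomeo e).hom ▷ II ≫ N.h ≫ (LC.ofHomeo e).inv
  u_eq_zero y := N.u_eq_zero (e y)
  h_zero y := by
    rw [app_comp, app_comp, app_whiskerRight_smash, app_ofHomeo_hom_coe, N.h_zero,
      app_ofHomeo_inv_coe, e.symm_apply_apply]
  h_mem y hy t := by
    rw [app_comp, app_comp, app_whiskerRight_smash, app_ofHomeo_hom_coe, N.h_mem _ hy,
      app_ofHomeo_inv_coe, e.symm_apply_apply]
  h_lt y t h := by
    rw [app_comp, app_comp, app_whiskerRight_smash, app_ofHomeo_hom_coe]
    intro z hz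
    have h1 := N.h_lt (e y) t h
    generalize app N.h (smash (e y : OnePoint X) (t : OnePoint unitInterval)) = w at h1 hz
    induction w using OnePoint.rec with
    | infty => exact absurd ((app_infty _).symm.trans hz) (infty_ne_coe _)
    | coe w =>
      rw [app_ofHomeo_inv_coe] at hz
      have h2 : e.symm w = z := OnePoint.coe_injective hz
      rw [← h2, Set.mem_preimage, e.apply_symm_apply]
      exact coe_mem_ptd.mp h1

/-- the deformation of a product -/
noncomputable def hRight (h : X ⊗ II ⟶ X) (Y : LC) : (X ⊗ Y) ⊗ II ⟶ X ⊗ Y :=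
  (α_ X Y II).hom ≫ X ◁ (β_ Y II).hom ≫ (α_ X II Y).inv ≫ h ▷ Y

theorem app_hRight (h : X ⊗ II ⟶ X) (Y : LC) (x : OnePoint X) (y : OnePoint Y)
    (t : unitInterval) : app (hRight h Y) (smash (smash x y) (t : OnePoint unitInterval)) =
      smash (app h (smash x (t : OnePoint unitInterval))) y := by
  rw [hRight, app_comp, app_comp, app_comp]
  refine (congrArg _ (congrArg _ (congrArg _ (app_associator_smash X Y II x y _)))).trans ?_
  refine (congrArg _ (congrArg _ (app_whiskerLeft_smash X (β_ Y II).hom x _))).trans ?_
  refine (congrArg _ (congrArg _ (congrArg _ (app_braiding_smash Y II y _)))).trans ?_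
  refine (congrArg _ (app_associator_inv_smash X II Y x _ y)).trans ?_
  exact app_whiskerRight_smash h Y _ y

theorem app_hRight_coe (h : X ⊗ II ⟶ X) (Y : LC) (p : (X ⊗ Y : LC)) (t : unitInterval) :
    app (hRight h Y) (smash (p : OnePoint (X ⊗ Y : LC)) (t : OnePoint unitInterval)) =
      smash (app h (smash (p.1 : OnePoint X) (t : OnePoint unitInterval))) (p.2 : OnePoint Y) :=
  app_hRight h Y (p.1 : OnePoint X) (p.2 : OnePoint Y) t

/-- the product with a space on the right -/
noncomputable def tensorRight (N : NDR X S) (Y : LC) :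
    NDR (X ⊗ Y) {p : X × Y | p.1 ∈ S} where
  u p := N.u p.1
  u_cont := N.u_cont.comp continuous_fst
  h := hRight N.h Y
  u_eq_zero p := N.u_eq_zero p.1
  h_zero p := by
    rw [app_hRight_coe, N.h_zero]
    rfl
  h_mem p hp t := by
    rw [app_hRight_coe, N.h_mem _ hp]
    rfl
  h_lt p t h := by
    rw [app_hRight_coe]
    have h1 := N.h_lt p.1 t h
    generalize app N.h (smash (p.1 : OnePoint X) (t : OnePoint unitInterval)) = w at h1
    intro z hz
    induction w using OnePoint.rec with
    | infty => exact absurd hz (infty_ne_coe _)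
    | coe w =>
      have h2 : (w, p.2) = z := OnePoint.coe_injective hz
      rw [← h2]
      exact (coe_mem_ptd (D := X)).mp h1

/-- the product with a space on the left -/
noncomputable def tensorLeft (N : NDR X S) (Y : LC) :
    NDR (Y ⊗ X) {p : Y × X | p.2 ∈ S} :=
  (N.tensorRight Y).ofHomeo (Y := Y ⊗ X) (Homeomorph.prodComm Y X)

/-- clopen subsets -/
noncomputable def ofClopen (X : LC) {S : Set X} (hS : IsClopen S) : NDR X S :=
  haveI := Classical.decPred (· ∈ S)
  { u := fun x => if x ∈ S then 0 else 1
    u_cont := by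
      refine continuous_if (fun a ha => ?_) continuousOn_const continuousOn_const
      have h1 : frontier {x | x ∈ S} = ∅ := hS.frontier_eq
      rw [h1] at ha
      exact ha.elim
    h := constH X
    u_eq_zero := fun x => by
      by_cases hx : x ∈ S
      · simp [hx]
      · simp [hx]
    h_zero := fun x => app_constH X x 0
    h_mem := fun x _ t => app_constH X x t
    h_lt := fun x t h => by
      rw [app_constH, coe_mem_ptd]
      by_contra hx
      rw [if_neg hx] at h
      exact absurd t.2.2 (not_le.mpr h) }

/-- the empty subset -/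
noncomputable def ofEmpty (X : LC) : NDR X ∅ := ofClopen X isClopen_empty

/-- the whole space -/
noncomputable def ofUniv (X : LC) : NDR X Set.univ := ofClopen X isClopen_univ

end NDR

/-! ### The calculus of `HC` -/

namespace HC

variable {X Y A B U Z : LC} {S : Set X} {m n : ℤ} {a b c d : ℕ}

theorem hasChi (h : HC a b X m) : HasChi X m := by
  induction h with
  | empty => exact HasChi.empty
  | sph n => exact HasChi.sph n
  | hequiv _ h ih => exact ih.hequiv h
  | ext N _ _ ihA ihC => exact HasChi.of_ext N.cofib ihA (cofSub N.isClosed) ihC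

theorem fc (h : HC a b X m) : FC X := h.hasChi.fc

theorem mono (h : HC a b X m) (h1 : c ≤ a) (h2 : b ≤ d) : HC c d X m := by
  induction h with
  | empty => exact HC.empty
  | sph n ha hb => exact HC.sph n (h1.trans ha) (hb.trans h2)
  | hequiv _ h ih => exact ih.hequiv h
  | ext N _ _ ihA ihC => exact HC.ext N ihA ihC

theorem cast (h : HC a b X m) (e : m = n) : HC a b X n := e ▸ h

theorem of_iso (h : HC a b X m) (e : X ≅ Y) : HC a b Y m := h.hequiv (HEquiv.of_iso e)

theorem of_homeo (h : HC a b X m) (e : X ≃ₜ Y) : HC a b Y m := h.of_iso (ofHomeo e)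

theorem of_contr (h : Contr X) : HC a b X 0 := HC.empty.hequiv h.hequiv.symm

theorem of_isEmpty (X : LC) [IsEmpty X] : HC a b X 0 := of_contr (contr_of_isEmpty X)

/-- a one point space -/
theorem of_unique (X : LC) [Unique X] : HC 0 b X 1 := by
  refine ((HC.sph (a := 0) (b := b) 0 le_rfl (Nat.zero_le _)).cast
    (n := 1) (by norm_num)).of_homeo ?_
  exact
    { toFun := fun _ => default
      invFun := fun _ => default
      left_inv := fun _ => Subsingleton.elim _ _
      right_inv := fun _ => Subsingleton.elim _ _
      continuous_toFun := continuous_const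
      continuous_invFun := continuous_const }

theorem unit : HC 0 b (𝟙_ LC) 1 :=
  haveI : Unique (𝟙_ LC : LC) := inferInstanceAs (Unique Unit)
  of_unique _

/-- a space from a neighbourhood deformation retract and its complement -/
theorem of_pieces (N : NDR X S) (eA : A ≃ₜ S) (eU : U ≃ₜ (Sᶜ : Set X)) (hA : HC a b A m)
    (hU : HC a b U n) : HC a b X (m + n) :=
  HC.ext N (hA.of_iso (isoSub N.isClosed eA)) (hU.of_iso (isoOpn N.isClosed.isOpen_compl eU))

/-- closed-open decompositions -/
theorem of_closed_open {Z Y U : LC} (z : Z → Y) (hz : IsClosedEmbedding z) (u : U → Y)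
    (hu : IsOpenEmbedding u) (h : IsCompl (Set.range z) (Set.range u)) (N : NDR Y (Set.range z))
    (hZ : HC a b Z m) (hU : HC a b U n) : HC a b Y (m + n) := by
  refine of_pieces N hz.isEmbedding.toHomeomorph ?_ hZ hU
  exact hu.isEmbedding.toHomeomorph.trans (Homeomorph.setCongr h.compl_eq.symm)

/-- clopen decompositions -/
theorem of_clopen {Z Y U : LC} (z : Z → Y) (hz : IsClosedEmbedding z) (ho : IsOpen (Set.range z))
    (u : U → Y) (hu : IsOpenEmbedding u) (h : IsCompl (Set.range z) (Set.range u))
    (hZ : HC a b Z m) (hU : HC a b U n) : HC a b Y (m + n) :=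
  of_closed_open z hz u hu h (NDR.ofClopen Y ⟨hz.isClosed_range, ho⟩) hZ hU

theorem tensor_sph (h : HC a b Y n) (k : ℕ) : HC (a + k) (b + k) (Y ⊗ Sph k) (n * (-1) ^ k) := by
  induction h with
  | empty =>
    have : IsEmpty (LC.of Empty ⊗ Sph k : LC) := inferInstanceAs (IsEmpty (Empty × (Fin k → ℝ)))
    exact (of_isEmpty _).cast (by ring)
  | sph n ha hb =>
    exact ((HC.sph (n + k) (by omega) (by omega)).of_iso (sphTensor n k).symm).cast (by ring)
  | hequiv _ h ih => exact ih.hequiv (h.tensor (HEquiv.refl (Sph k)))
  | @ext X S m n N hA hC ihA ihC =>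
    exact (of_pieces (N.tensorRight (Sph k)) (A := sub N.isClosed ⊗ Sph k)
      (U := opn N.isClosed.isOpen_compl ⊗ Sph k) (homeoRight S (Fin k → ℝ))
      (homeoRight Sᶜ (Fin k → ℝ)) ihA ihC).cast (by ring)

/-- the product -/
theorem tensor (hX : HC a b X m) (hY : HC c d Y n) : HC (a + c) (b + d) (X ⊗ Y) (m * n) := by
  induction hX with
  | empty =>
    have : IsEmpty (LC.of Empty ⊗ Y : LC) := inferInstanceAs (IsEmpty (Empty × Y))
    exact (of_isEmpty _).cast (by ring)
  | sph k ha hb =>
    exact (((hY.tensor_sph k).mono (by omega) (by omega)).of_iso (β_ Y (Sph k))).cast (by ring)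
  | hequiv _ h ih => exact ih.hequiv (h.tensor (HEquiv.refl Y))
  | @ext X S m n N hA hC ihA ihC =>
    exact (of_pieces (N.tensorRight Y) (A := sub N.isClosed ⊗ Y)
      (U := opn N.isClosed.isOpen_compl ⊗ Y) (homeoRight S Y)
      (homeoRight Sᶜ Y) ihA ihC).cast (by ring)

theorem line : HC 1 1 RR (-1) := by
  refine ((HC.sph (a := 1) (b := 1) 1 le_rfl le_rfl).cast (by norm_num)).of_homeo
    (Y := LC.of ℝ) ?_
  exact Homeomorph.funUnique (Fin 1) ℝ

theorem halfLine : HC a b HH 0 := of_contr contr_HH

theorem susp (h : HC a b X m) : HC (a + 1) (b + 1) (X ⊗ RR) (-m) := (h.tensor line).cast (by ring)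

/-- the strict cofibre of a cofibration to a contractible space is the suspension -/
theorem _root_.Vale.Agent.P093.N2.hequiv_cof_of_contr {i : A ⟶ B} (hi : Cofib i)
    (hB : Contr B) : HEquiv (cof i) (A ⊗ RR) :=
  ((isHEquiv_coneToCof hi).hequiv.symm.trans (isHEquiv_cofMap (cofib_coneInr i) hB).hequiv).trans
    (HEquiv.of_iso (cofConeInr i))

/-- the complement of a neighbourhood deformation retract of a contractible space -/
theorem open_of_contr (N : NDR X S) (hX : Contr X) (hA : HC a b (sub N.isClosed) m) :
    HC (a + 1) (b + 1) (opn N.isClosed.isOpen_compl) (-m) :=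
  hA.susp.hequiv ((hequiv_cof_of_contr N.cofib hX).symm.trans (HEquiv.of_iso (cofSub N.isClosed)))

/-- the disjoint union -/
theorem sum (hX : HC a b X m) (hY : HC a b Y n) : HC a b (LC.sum X Y) (m + n) :=
  of_clopen (Y := LC.sum X Y) Sum.inl IsClosedEmbedding.inl IsOpenEmbedding.inl.isOpen_range
    Sum.inr IsOpenEmbedding.inr Set.isCompl_range_inl_range_inr hX hY

/-- finitely many copies of `X` -/
theorem finProd (hX : HC a b X m) : ∀ k : ℕ, HC a b (finProd X k) (k * m)
  | 0 => by
    have : IsEmpty (LC.finProd X 0 : LC) := inferInstanceAs (IsEmpty (Fin 0 × X))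
    exact (of_isEmpty _).cast (by simp)
  | k + 1 =>
    (of_clopen (Z := LC.finProd X k) (Y := LC.finProd X (k + 1)) (castFun X k)
      (isClosedEmbedding_castFun X k) (isOpenEmbedding_castFun X k).isOpen_range
      (fun x : X => (Fin.last k, x)) (isOpenEmbedding_finMk X (Fin.last k)) (isCompl_castFun X k)
      (finProd hX k) hX).cast (by push_cast; ring)

/-- finite powers -/
theorem pow (hX : HC a b X m) (J : Type) [hJ : Finite J] :
    HC (Nat.card J * a) (Nat.card J * b) (powObj J X) (m ^ Nat.card J) := by
  suffices H : ∀ h : Finite J, HC (Nat.card J * a) (Nat.card J * b) (@powObj J h X)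
    (m ^ Nat.card J) from H hJ
  induction J using Finite.induction_empty_option with
  | @of_equiv J J' e ih =>
    intro h
    have hJ' : Finite J := Finite.of_equiv J' e.symm
    have := (ih hJ').of_homeo (Y := powObj J' X)
      (Homeomorph.piCongrLeft (Y := fun _ => X) e)
    rwa [Nat.card_congr e] at this
  | h_empty =>
    intro h
    have : Unique (powObj PEmpty X : LC) := inferInstanceAs (Unique (PEmpty → X))
    exact ((of_unique (b := 0) (powObj PEmpty X)).mono (by simp) (by simp)).cast (by simp)
  | @h_option J _ ih =>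
    intro h
    let e : (X ⊗ powObj J X : LC) ≃ₜ (powObj (Option J) X : LC) :=
      { toFun := fun x j => j.elim x.1 x.2
        invFun := fun y => (y none, fun j => y (Option.some j))
        left_inv := fun x => rfl
        right_inv := fun y => by
          funext j
          cases j <;> rfl
        continuous_toFun := by
          refine continuous_pi fun j => ?_
          cases j with
          | none => exact continuous_fst
          | some j => exact (continuous_apply j).comp continuous_snd
        continuous_invFun := (continuous_apply none).prodMk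
          (continuous_pi fun j => continuous_apply (Option.some j)) }
    refine (((hX.tensor (ih inferInstance)).of_homeo e).mono ?_ ?_).cast ?_
    · rw [Finite.card_option]; ring_nf; exact le_rfl
    · rw [Finite.card_option]; ring_nf; exact le_rfl
    · rw [Finite.card_option]; ring

/-- the tuples with a given pattern, times a further factor -/
theorem pat (hS : IsClosed S) (hA : HC a b (sub hS) m) (hU : HC a b (opn hS.isOpen_compl) n)
    {J : Type} [Fintype J] [DecidableEq J] (W : Finset J) {k : ℤ} (hZ : HC c d Z k) {Q : LC}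
    (e : Q ≃ₜ {x : J → X | ∀ j, x j ∈ S ↔ j ∉ W} × Z) :
    HC (Fintype.card J * a + c) (Fintype.card J * b + d) Q
      (m ^ (Fintype.card J - W.card) * n ^ W.card * k) := by
  have h1 : Nat.card {j // j ∉ W} = Fintype.card J - W.card := by
    rw [Nat.card_eq_fintype_card, Fintype.card_subtype_compl, Fintype.card_coe]
  have h2 : Nat.card {j // j ∈ W} = W.card := by
    rw [Nat.card_eq_fintype_card, Fintype.card_coe]
  have h3 : (Fintype.card J - W.card) + W.card = Fintype.card J :=
    Nat.sub_add_cancel (Finset.card_le_univ W)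
  have hA' := hA.pow {j // j ∉ W}
  have hU' := hU.pow {j // j ∈ W}
  rw [h1] at hA'
  rw [h2] at hU'
  have h4 := (hA'.tensor hU').tensor hZ
  have e1 : ((powObj {j // j ∉ W} (sub hS) ⊗ powObj {j // j ∈ W} (opn hS.isOpen_compl)) ⊗ Z : LC)
      ≃ₜ {x : J → X | ∀ j, x j ∈ S ↔ j ∉ W} × Z :=
    (homeoPat S (W : Set J)).prodCongr (Homeomorph.refl Z)
  refine (h4.of_homeo (e1.trans e.symm)).mono (le_of_eq ?_) (le_of_eq ?_)
  · rw [← add_mul, h3]
  · rw [← add_mul, h3]

end HC

end Vale.Agent.P093.N2
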