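import Vale.Agent.P093.N2.QuotDefs
import Vale.Agent.P093.N2.Desc
import Vale.Agent.P251.G.Gauge

/-!
# P093, part N2: functoriality of `RZ G X Z` in `X`

* `utHtpy h : (UT G X × Z) ⊗ P ⟶ UT G Y × Z` for `h : X ⊗ P ⟶ Y`;
* `RZ.htpy h : RZ G X Z ⊗ P ⟶ RZ G Y Z`; `RZ.map f`; homotopy invariance.
-/

open CategoryTheory MonoidalCategory Filter Topology OnePoint
open Vale.Agent.P251.G Vale.Agent.P251.G.LC

set_option linter.unusedSectionVars false

namespace Vale.Agent.P093.N2

variable {G : Type} [Group G] [Finite G] {Z : Type} [TopologicalSpace Z] [T2Space Z]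
  [LocallyCompactSpace Z]

section ut

variable {X Y P : LC}

/-- `(w, z, t) ↦ ((g ↦ (x_g, t)), (s, z))` -/
def utSpread (a : (UT G X × Z) × P) : (G → X × P) × (NNReal × Z) :=
  (fun g => (a.1.1.x g, a.2), (a.1.1.s, a.1.2))

theorem isClosedEmbedding_utSpread :
    IsClosedEmbedding (utSpread : (UT G X × Z) × P → (G → X × P) × (NNReal × Z)) := by
  have h1 : IsClosedEmbedding (fun a : (UT G X × Z) × P => (((a.1.1.x, a.1.1.s), a.1.2), a.2)) :=
    (UT.isClosedEmbedding_val.prodMap IsClosedEmbedding.id).prodMap IsClosedEmbedding.id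
  let r : (((G → X) × NNReal) × Z) × P → (G → X × P) × (NNReal × Z) :=
    fun b => (fun g => (b.1.1.1 g, b.2), (b.1.1.2, b.1.2))
  let l : (G → X × P) × (NNReal × Z) → (((G → X) × NNReal) × Z) × P :=
    fun b => (((fun g => (b.1 g).1, b.2.1), b.2.2), (b.1 1).2)
  have hr : Continuous r := by
    refine Continuous.prodMk (continuous_pi fun g => ?_) ?_
    · exact ((continuous_apply g).comp (continuous_fst.comp
        (continuous_fst.comp continuous_fst))).prodMk continuous_snd
    · exact (continuous_snd.comp (continuous_fst.comp continuous_fst)).prodMk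
        (continuous_snd.comp continuous_fst)
  have hl : Continuous l := by
    refine Continuous.prodMk (Continuous.prodMk (Continuous.prodMk ?_ ?_) ?_) ?_
    · exact continuous_pi fun g => continuous_fst.comp ((continuous_apply g).comp continuous_fst)
    · exact continuous_fst.comp continuous_snd
    · exact continuous_snd.comp continuous_snd
    · exact continuous_snd.comp ((continuous_apply 1).comp continuous_fst)
  have hlr : Function.LeftInverse l r := fun b => rfl
  exact (hlr.isClosedEmbedding hl hr).comp h1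

/-- `(w, z) ↦ (x, (s, z))` -/
def utFlat (a : UT G Y × Z) : (G → Y) × (NNReal × Z) := (a.1.x, (a.1.s, a.2))

theorem isClosedEmbedding_utFlat :
    IsClosedEmbedding (utFlat : UT G Y × Z → (G → Y) × (NNReal × Z)) := by
  have h1 : IsClosedEmbedding (fun a : UT G Y × Z => ((a.1.x, a.1.s), a.2)) :=
    UT.isClosedEmbedding_val.prodMap IsClosedEmbedding.id
  exact (Homeomorph.prodAssoc (G → Y) NNReal Z).isClosedEmbedding.comp h1

/-- the spread map as a morphism -/
noncomputable def utSpreadHom (G : Type) [Group G] [Finite G] (Z : Type) [TopologicalSpace Z]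
    [T2Space Z] [LocallyCompactSpace Z] (X P : LC) :
    LC.of (UT G X × Z) ⊗ P ⟶ powObj G (X ⊗ P) ⊗ LC.of (NNReal × Z) :=
  ofClosed (X := LC.of ((UT G X × Z) × P)) (Y := LC.of ((G → X × P) × (NNReal × Z)))
    utSpread isClosedEmbedding_utSpread

/-- the flat map as a morphism -/
noncomputable def utFlatHom (G : Type) [Group G] [Finite G] (Z : Type) [TopologicalSpace Z]
    [T2Space Z] [LocallyCompactSpace Z] (Y : LC) :
    LC.of (UT G Y × Z) ⟶ powObj G Y ⊗ LC.of (NNReal × Z) :=
  ofClosed (X := LC.of (UT G Y × Z)) (Y := LC.of ((G → Y) × (NNReal × Z)))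
    utFlat isClosedEmbedding_utFlat

theorem injective_utFlatHom : Function.Injective (app (utFlatHom G Z Y)) :=
  injective_ofClosed _ _

theorem app_utFlatHom_coe (w : UT G Y) (z : Z) :
    app (utFlatHom G Z Y) (((w, z) : UT G Y × Z) : OnePoint (UT G Y × Z)) =
      smash (w.x : OnePoint (G → Y)) (((w.s, z) : NNReal × Z) : OnePoint (NNReal × Z)) := rfl

theorem app_utSpreadHom (w : UT G X) (z : Z) (t : P) :
    app (utSpreadHom G Z X P) (smash (((w, z) : UT G X × Z) : OnePoint (UT G X × Z))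
      (t : OnePoint P)) =
      smash ((fun g => (w.x g, t) : G → X × P) : OnePoint (G → X × P))
        (((w.s, z) : NNReal × Z) : OnePoint (NNReal × Z)) := rfl

theorem app_utSpreadHom_powHom (h : X ⊗ P ⟶ Y) (w : UT G X) (z : Z) (t : P) :
    app (utSpreadHom G Z X P ≫ powHom G h ▷ LC.of (NNReal × Z))
      (smash (((w, z) : UT G X × Z) : OnePoint (UT G X × Z)) (t : OnePoint P)) =
      smash (OP.smash fun g => app h (smash (w.x g : OnePoint X) (t : OnePoint P)))
        (((w.s, z) : NNReal × Z) : OnePoint (NNReal × Z)) := by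
  rw [app_comp, app_utSpreadHom, app_whiskerRight_smash, app_powHom_coe]
  rfl

theorem ut_mem_range (h : X ⊗ P ⟶ Y) (a : OnePoint ((UT G X × Z) × P)) :
    app (utSpreadHom G Z X P ≫ powHom G h ▷ LC.of (NNReal × Z)) a ∈
      Set.range (app (utFlatHom G Z Y)) := by
  induction a using OnePoint.rec with
  | infty => exact ⟨∞, by rw [app_infty]; exact (app_infty _).symm⟩
  | coe a =>
    obtain ⟨⟨w, z⟩, t⟩ := a
    have h1 := app_utSpreadHom_powHom h w z t
    rw [smash_coe_coe] at h1
    rw [h1]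
    by_cases hy : ∃ y : G → Y, ∀ g, app h (smash (w.x g : OnePoint X) (t : OnePoint P)) = y g
    · obtain ⟨y, hy⟩ := hy
      have hc : w.s = 0 ∨ ∀ g k, y g = y k := by
        refine w.cond.imp_right fun hx g k => ?_
        have h2 : (y g : OnePoint Y) = y k := by rw [← hy g, ← hy k, hx g k]
        exact OnePoint.coe_injective h2
      refine ⟨((UT.mk y w.s hc, z) : UT G Y × Z), ?_⟩
      rw [app_utFlatHom_coe]
      simp only [hy, OP.smash_coe]
      rfl
    · have h2 : OP.smash (fun g => app h (smash (w.x g : OnePoint X) (t : OnePoint P))) = ∞ := by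
        by_contra hne
        obtain ⟨y, hy'⟩ := OnePoint.ne_infty_iff_exists.mp hne
        exact hy ⟨y, OP.smash_eq_coe hy'.symm⟩
      rw [h2]
      exact ⟨∞, app_infty _⟩

/-- The morphism `(UT G X × Z) ⊗ P ⟶ UT G Y × Z` induced by `h : X ⊗ P ⟶ Y`. -/
noncomputable def utHtpy (G : Type) [Group G] [Finite G] (Z : Type) [TopologicalSpace Z]
    [T2Space Z] [LocallyCompactSpace Z] {X Y P : LC} (h : X ⊗ P ⟶ Y) :
    LC.of (UT G X × Z) ⊗ P ⟶ LC.of (UT G Y × Z) :=
  factor (utFlatHom G Z Y) injective_utFlatHom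
    (utSpreadHom G Z X P ≫ powHom G h ▷ LC.of (NNReal × Z)) (ut_mem_range h)

theorem app_utHtpy_coe (h : X ⊗ P ⟶ Y) (w : UT G X) (z : Z) (t : P) (y : G → Y)
    (hy : ∀ g, app h (smash (w.x g : OnePoint X) (t : OnePoint P)) = y g)
    (hc : w.s = 0 ∨ ∀ g k, y g = y k) :
    app (utHtpy G Z h) (smash (((w, z) : UT G X × Z) : OnePoint (UT G X × Z)) (t : OnePoint P)) =
      (((UT.mk y w.s hc, z) : UT G Y × Z) : OnePoint (UT G Y × Z)) := by
  apply injective_utFlatHom
  unfold utHtpy
  rw [app_factor, app_utSpreadHom_powHom, app_utFlatHom_coe]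
  simp only [hy, OP.smash_coe]
  rfl

theorem app_utHtpy_infty (h : X ⊗ P ⟶ Y) (w : UT G X) (z : Z) (t : P) (g : G)
    (hg : app h (smash (w.x g : OnePoint X) (t : OnePoint P)) = ∞) :
    app (utHtpy G Z h) (smash (((w, z) : UT G X × Z) : OnePoint (UT G X × Z)) (t : OnePoint P)) =
      ∞ := by
  apply injective_utFlatHom
  unfold utHtpy
  rw [app_factor, app_utSpreadHom_powHom, OP.smash_infty
    (fun g => app h (smash (w.x g : OnePoint X) (t : OnePoint P))) hg]
  exact (app_infty (utFlatHom G Z Y)).symm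

/-- case distinction for the values of `utHtpy` -/
theorem htpy_cases (h : X ⊗ P ⟶ Y) (w : UT G X) (t : P) :
    (∃ g, app h (smash (w.x g : OnePoint X) (t : OnePoint P)) = ∞) ∨
      ∃ y : G → Y, (∀ g, app h (smash (w.x g : OnePoint X) (t : OnePoint P)) = y g) ∧
        (w.s = 0 ∨ ∀ g k, y g = y k) := by
  by_cases hy : ∃ y : G → Y, ∀ g, app h (smash (w.x g : OnePoint X) (t : OnePoint P)) = y g
  · obtain ⟨y, hy⟩ := hy
    refine Or.inr ⟨y, hy, w.cond.imp_right fun hx g k => ?_⟩
    have h2 : (y g : OnePoint Y) = y k := by rw [← hy g, ← hy k, hx g k]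
    exact OnePoint.coe_injective h2
  · left
    by_contra hne
    push Not at hne
    have h1 : ∀ g, ∃ y : Y, (y : OnePoint Y) = app h (smash (w.x g : OnePoint X)
        (t : OnePoint P)) := fun g => OnePoint.ne_infty_iff_exists.mp (hne g)
    choose y hy' using h1
    exact hy ⟨y, fun g => (hy' g).symm⟩

end ut

/-! ### The orbit spaces -/

variable [MulAction G Z] [ContinuousConstSMul G Z]

section rz

variable {X Y P : LC}

/-- the projection `UT G X × Z → RZ G X Z` -/
noncomputable def rzMk (G : Type) [Group G] [Finite G] (X : LC) (Z : Type) [TopologicalSpace Z]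
    [T2Space Z] [LocallyCompactSpace Z] [MulAction G Z] [ContinuousConstSMul G Z] :
    LC.of (UT G X × Z) ⟶ RZ G X Z :=
  ofIsProper (X := LC.of (UT G X × Z)) (Y := RZ G X Z) orb isProperMap_orb

@[simp] theorem app_rzMk_coe (a : UT G X × Z) :
    app (rzMk G X Z) (a : OnePoint (UT G X × Z)) =
      ((orb a : RT G X Z) : OnePoint (RT G X Z)) := rfl

theorem surjective_rzMk : Function.Surjective (app (rzMk G X Z)) :=
  surjective_ofIsProper (P := LC.of (UT G X × Z)) (Y := RZ G X Z) isProperMap_orb orb_surjective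

theorem surjective_rzMk_whisker :
    Function.Surjective (app (rzMk G X Z ▷ P)) := by
  intro a
  obtain ⟨b, t, rfl⟩ := smash_surjective (X := RT G X Z) (Y := P) a
  obtain ⟨c, rfl⟩ := surjective_rzMk (G := G) (X := X) (Z := Z) b
  exact ⟨smash c t, app_whiskerRight_smash _ _ _ _⟩

theorem UT.smul_mk (g : G) (y : G → Y) (s : NNReal) (h : s = 0 ∨ ∀ g k, y g = y k)
    (h' : s = 0 ∨ ∀ k l, y (k * g) = y (l * g)) :
    g • UT.mk y s h = UT.mk (fun k => y (k * g)) s h' := rfl

theorem ut_compat (h : X ⊗ P ⟶ Y) (a b : OnePoint ((UT G X × Z) × P))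
    (hab : app (rzMk G X Z ▷ P) a = app (rzMk G X Z ▷ P) b) :
    app (utHtpy G Z h ≫ rzMk G Y Z) a = app (utHtpy G Z h ≫ rzMk G Y Z) b := by
  obtain ⟨a, t, rfl⟩ := smash_surjective (X := UT G X × Z) (Y := P) a
  obtain ⟨b, s, rfl⟩ := smash_surjective (X := UT G X × Z) (Y := P) b
  rw [app_whiskerRight_smash, app_whiskerRight_smash] at hab
  have hinf : app (utHtpy G Z h ≫ rzMk G Y Z) ∞ = ∞ := app_infty _
  induction a using OnePoint.rec with
  | infty =>
    rw [app_infty, smash_infty_left] at hab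
    rcases smash_eq_infty.mp hab.symm with h1 | rfl
    · induction b using OnePoint.rec with
      | infty => rfl
      | coe b => exact absurd h1 (OnePoint.coe_ne_infty _)
    · rw [smash_infty_left, smash_infty_right]
  | coe a =>
    induction b using OnePoint.rec with
    | infty =>
      rw [app_infty (rzMk G X Z), smash_infty_left] at hab
      rcases smash_eq_infty.mp hab with h1 | rfl
      · exact absurd h1 (OnePoint.coe_ne_infty _)
      · rw [smash_infty_left, smash_infty_right]
    | coe b =>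
      induction t using OnePoint.rec with
      | infty =>
        rw [smash_infty_right] at hab
        rcases smash_eq_infty.mp hab.symm with h1 | rfl
        · exact absurd h1 (OnePoint.coe_ne_infty _)
        · rw [smash_infty_right, smash_infty_right]
      | coe t =>
        induction s using OnePoint.rec with
        | infty =>
          rw [smash_infty_right] at hab
          rcases smash_eq_infty.mp hab with h1 | h1
          · exact absurd h1 (OnePoint.coe_ne_infty _)
          · exact absurd h1 (OnePoint.coe_ne_infty _)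
        | coe s =>
          rw [app_rzMk_coe, app_rzMk_coe, smash_coe_coe, smash_coe_coe, OnePoint.coe_eq_coe,
            Prod.mk.injEq] at hab
          obtain ⟨hab, rfl⟩ := hab
          obtain ⟨g, rfl⟩ := orb_eq_iff.mp hab
          obtain ⟨w, z⟩ := a
          rcases htpy_cases h w t with ⟨k, hk⟩ | ⟨y, hy, hc⟩
          · rw [app_comp, app_comp, app_utHtpy_infty h w z t k hk, Prod.smul_mk,
              app_utHtpy_infty h (g • w) (g • z) t (k * g⁻¹) (by
                rw [UT.x_smul, inv_mul_cancel_right]; exact hk)]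
          · rw [app_comp, app_comp, app_utHtpy_coe h w z t y hy hc, Prod.smul_mk,
              app_utHtpy_coe h (g • w) (g • z) t (fun k => y (k * g)) (fun k => by
                rw [UT.x_smul]; exact hy _) (hc.imp_right fun hx k l => hx _ _)]
            rw [app_rzMk_coe, app_rzMk_coe, ← orb_smul g]
            rfl

/-- The morphism `RZ G X Z ⊗ P ⟶ RZ G Y Z` induced by `h : X ⊗ P ⟶ Y`:
`([x, s, z], t) ↦ [(h (x_g, t))_g, s, z]`. -/
noncomputable def RZ.htpy (G : Type) [Group G] [Finite G] (Z : Type) [TopologicalSpace Z]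
    [T2Space Z] [LocallyCompactSpace Z] [MulAction G Z] [ContinuousConstSMul G Z]
    {X Y P : LC} (h : X ⊗ P ⟶ Y) : RZ G X Z ⊗ P ⟶ RZ G Y Z :=
  descHom (rzMk G X Z ▷ P) surjective_rzMk_whisker (utHtpy G Z h ≫ rzMk G Y Z) (ut_compat h)

theorem app_RZ_htpy (h : X ⊗ P ⟶ Y) (a : OnePoint (UT G X × Z)) (t : OnePoint P) :
    app (RZ.htpy G Z h) (smash (app (rzMk G X Z) a) t) =
      app (rzMk G Y Z) (app (utHtpy G Z h) (smash a t)) := by
  unfold RZ.htpy
  rw [← app_whiskerRight_smash, app_descHom, app_comp]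

theorem RZ.app_htpy_coe (h : X ⊗ P ⟶ Y) (w : UT G X) (z : Z) (t : P) (y : G → Y)
    (hy : ∀ g, app h (smash (w.x g : OnePoint X) (t : OnePoint P)) = y g)
    (hc : w.s = 0 ∨ ∀ g k, y g = y k) :
    app (RZ.htpy G Z h) (smash ((orb ((w, z) : UT G X × Z) : RT G X Z) : OnePoint (RT G X Z))
      (t : OnePoint P)) =
      ((orb ((UT.mk y w.s hc, z) : UT G Y × Z) : RT G Y Z) : OnePoint (RT G Y Z)) := by
  rw [← app_rzMk_coe, app_RZ_htpy, app_utHtpy_coe h w z t y hy hc, app_rzMk_coe]

theorem RZ.app_htpy_infty (h : X ⊗ P ⟶ Y) (w : UT G X) (z : Z) (t : P) (g : G)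
    (hg : app h (smash (w.x g : OnePoint X) (t : OnePoint P)) = ∞) :
    app (RZ.htpy G Z h) (smash ((orb ((w, z) : UT G X × Z) : RT G X Z) : OnePoint (RT G X Z))
      (t : OnePoint P)) = ∞ := by
  rw [← app_rzMk_coe, app_RZ_htpy, app_utHtpy_infty h w z t g hg]
  exact app_infty _

end rz

/-! ### Functoriality and homotopy invariance -/

section map

variable {X Y V : LC}

theorem app_rightUnitor_inv (X : LC) (x : OnePoint X) :
    app (ρ_ X).inv x = smash x ((() : Unit) : OnePoint Unit) := by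
  induction x using OnePoint.rec with
  | infty => exact app_infty (ρ_ X).inv
  | coe x => rfl

/-- `[x, s, z] ↦ [(f (x_g))_g, s, z]` -/
noncomputable def RZ.map (G : Type) [Group G] [Finite G] (Z : Type) [TopologicalSpace Z]
    [T2Space Z] [LocallyCompactSpace Z] [MulAction G Z] [ContinuousConstSMul G Z]
    {X Y : LC} (f : X ⟶ Y) : RZ G X Z ⟶ RZ G Y Z :=
  (ρ_ (RZ G X Z)).inv ≫ RZ.htpy G Z (P := 𝟙_ LC) ((ρ_ X).hom ≫ f)

theorem RZ.app_map_coe (f : X ⟶ Y) (w : UT G X) (z : Z) (y : G → Y)
    (hy : ∀ g, app f (w.x g : OnePoint X) = y g) (hc : w.s = 0 ∨ ∀ g k, y g = y k) :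
    app (RZ.map G Z f) ((orb ((w, z) : UT G X × Z) : RT G X Z) : OnePoint (RT G X Z)) =
      ((orb ((UT.mk y w.s hc, z) : UT G Y × Z) : RT G Y Z) : OnePoint (RT G Y Z)) := by
  unfold RZ.map
  rw [app_comp, app_rightUnitor_inv]
  exact RZ.app_htpy_coe (P := 𝟙_ LC) _ w z () y (fun g => by
    rw [app_comp]
    exact (congrArg (app f) (app_rightUnitor_smash X _)).trans (hy g)) hc

theorem RZ.app_map_infty (f : X ⟶ Y) (w : UT G X) (z : Z) (g : G)
    (hg : app f (w.x g : OnePoint X) = ∞) :
    app (RZ.map G Z f) ((orb ((w, z) : UT G X × Z) : RT G X Z) : OnePoint (RT G X Z)) = ∞ := by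
  unfold RZ.map
  rw [app_comp, app_rightUnitor_inv]
  exact RZ.app_htpy_infty (P := 𝟙_ LC) _ w z () g (by
    rw [app_comp]
    exact (congrArg (app f) (app_rightUnitor_smash X _)).trans hg)

/-- case distinction for the values of `RZ.map` -/
theorem map_cases (f : X ⟶ Y) (w : UT G X) :
    (∃ g, app f (w.x g : OnePoint X) = ∞) ∨
      ∃ y : G → Y, (∀ g, app f (w.x g : OnePoint X) = y g) ∧ (w.s = 0 ∨ ∀ g k, y g = y k) := by
  by_cases hy : ∃ y : G → Y, ∀ g, app f (w.x g : OnePoint X) = y g
  · obtain ⟨y, hy⟩ := hy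
    refine Or.inr ⟨y, hy, w.cond.imp_right fun hx g k => ?_⟩
    have h2 : (y g : OnePoint Y) = y k := by rw [← hy g, ← hy k, hx g k]
    exact OnePoint.coe_injective h2
  · left
    by_contra hne
    push Not at hne
    have h1 : ∀ g, ∃ y : Y, (y : OnePoint Y) = app f (w.x g : OnePoint X) :=
      fun g => OnePoint.ne_infty_iff_exists.mp (hne g)
    choose y hy' using h1
    exact hy ⟨y, fun g => (hy' g).symm⟩

/-- extensionality for morphisms out of `RZ G X Z` -/
theorem RZ.hom_ext {f g : RZ G X Z ⟶ V} (h : ∀ (w : UT G X) (z : Z),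
    app f ((orb ((w, z) : UT G X × Z) : RT G X Z) : OnePoint (RT G X Z)) =
      app g ((orb ((w, z) : UT G X × Z) : RT G X Z) : OnePoint (RT G X Z))) : f = g := by
  apply LC.hom_ext
  intro a
  induction a using Orb.ind with
  | h a =>
    obtain ⟨w, z⟩ := a
    exact h w z

@[simp] theorem RZ.map_id (X : LC) : RZ.map G Z (𝟙 X) = 𝟙 (RZ G X Z) := by
  apply RZ.hom_ext
  intro w z
  rw [RZ.app_map_coe (𝟙 X) w z w.x (fun g => rfl) w.cond, app_id]
  rfl

@[reassoc, simp] theorem RZ.map_comp (f : X ⟶ Y) (k : Y ⟶ V) :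
    RZ.map G Z (f ≫ k) = RZ.map G Z f ≫ RZ.map G Z k := by
  apply RZ.hom_ext
  intro w z
  rw [app_comp]
  rcases map_cases f w with ⟨g, hg⟩ | ⟨y, hy, hc⟩
  · rw [RZ.app_map_infty f w z g hg, RZ.app_map_infty (f ≫ k) w z g (by
      rw [app_comp, hg, app_infty])]
    exact (app_infty _).symm
  · rw [RZ.app_map_coe f w z y hy hc]
    rcases map_cases k (UT.mk y w.s hc) with ⟨g, hg⟩ | ⟨v, hv, hc'⟩
    · rw [RZ.app_map_infty k _ z g hg, RZ.app_map_infty (f ≫ k) w z g (by
        rw [app_comp, hy g]; exact hg)]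
    · rw [RZ.app_map_coe k _ z v hv hc', RZ.app_map_coe (f ≫ k) w z v (fun g => by
        rw [app_comp, hy g]; exact hv g) hc']
      rfl

@[simp] theorem RZ.map_zero (X Y : LC) : RZ.map G Z (0 : X ⟶ Y) = 0 := by
  apply RZ.hom_ext
  intro w z
  rw [RZ.app_map_infty (0 : X ⟶ Y) w z 1 rfl]
  rfl

theorem RZ.incl_htpy (H : X ⊗ II ⟶ Y) (t : unitInterval) :
    incl t (RZ G X Z) ≫ RZ.htpy G Z H = RZ.map G Z (incl t X ≫ H) := by
  apply RZ.hom_ext
  intro w z
  rw [app_comp, app_incl]
  rcases htpy_cases H w t with ⟨g, hg⟩ | ⟨y, hy, hc⟩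
  · rw [RZ.app_htpy_infty H w z t g hg, RZ.app_map_infty (incl t X ≫ H) w z g (by
      rw [app_comp, app_incl]; exact hg)]
  · rw [RZ.app_htpy_coe H w z t y hy hc, RZ.app_map_coe (incl t X ≫ H) w z y (fun g => by
      rw [app_comp, app_incl]; exact hy g) hc]

theorem RZ.homotopic {f k : X ⟶ Y} (h : Homotopic f k) :
    Homotopic (RZ.map G Z f) (RZ.map G Z k) := by
  obtain ⟨H, h0, h1⟩ := h
  exact ⟨RZ.htpy G Z H, by rw [RZ.incl_htpy, h0], by rw [RZ.incl_htpy, h1]⟩

theorem RZ.hequiv (h : HEquiv X Y) : HEquiv (RZ G X Z) (RZ G Y Z) := by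
  obtain ⟨f, k, h1, h2⟩ := h
  refine ⟨RZ.map G Z f, RZ.map G Z k, ?_, ?_⟩
  · rw [← RZ.map_comp, ← RZ.map_id]
    exact RZ.homotopic h1
  · rw [← RZ.map_comp, ← RZ.map_id]
    exact RZ.homotopic h2

theorem RZ.contr (h : Contr X) : Contr (RZ G X Z) := by
  have h1 := RZ.homotopic (G := G) (Z := Z) h
  rw [RZ.map_id, RZ.map_zero] at h1
  exact h1

end map

/-! ### The empty space and the point -/

section special

variable {X Y : LC}

theorem RT.isEmpty [IsEmpty X] : IsEmpty (RT G X Z) := by
  constructor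
  intro a
  obtain ⟨⟨w, z⟩, rfl⟩ := orb_surjective a
  exact IsEmpty.false (w.x 1)

/-- `(Y × Z) / G ≅ Y × (Z / G)` if `G` acts trivially on `Y`. -/
noncomputable def orbTriv (G Y Z : Type) [Group G] [TopologicalSpace Y] [TopologicalSpace Z]
    [MulAction G Y] [MulAction G Z] [ContinuousConstSMul G Y] [ContinuousConstSMul G Z]
    (h : ∀ (g : G) (y : Y), g • y = y) : Orb G (Y × Z) ≃ₜ Y × Orb G Z :=
  have hw : ∀ a b : Y × Z, (orb a : Orb G (Y × Z)) = orb b →
      ((a.1, orb a.2) : Y × Orb G Z) = (b.1, orb b.2) := by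
    intro a b hab
    obtain ⟨g, rfl⟩ := orb_eq_iff.mp hab
    rw [Prod.smul_fst, Prod.smul_snd, h, orb_smul]
  have hq : IsOpenQuotientMap (Prod.map id orb : Y × Z → Y × Orb G Z) :=
    IsOpenQuotientMap.id.prodMap isOpenQuotientMap_orb
  Homeomorph.mk
    { toFun := Quotient.lift (s := MulAction.orbitRel G (Y × Z))
        (fun a : Y × Z => ((a.1, orb a.2) : Y × Orb G Z))
        (fun a b hab => hw a b (Quotient.sound hab))
      invFun := fun b => Quotient.lift (s := MulAction.orbitRel G Z)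
        (fun z : Z => (orb (b.1, z) : Orb G (Y × Z))) (fun z z' hz => by
          obtain ⟨g, rfl⟩ := (orb_eq_iff (G := G)).mp (Quotient.sound hz)
          refine orb_eq_iff.mpr ⟨g, ?_⟩
          rw [Prod.smul_mk, h]) b.2
      left_inv := by
        intro a
        induction a using Orb.ind with
        | h a => rfl
      right_inv := by
        rintro ⟨y, c⟩
        induction c using Orb.ind with
        | h z => rfl }
    (by
      refine isOpenQuotientMap_orb.isQuotientMap.continuous_iff.mpr ?_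
      exact continuous_fst.prodMk (continuous_orb.comp continuous_snd))
    (by
      refine hq.isQuotientMap.continuous_iff.mpr ?_
      exact continuous_orb)

/-- the mapping cone of the diagonal of a point -/
noncomputable def utPoint (G X : Type) [Group G] [TopologicalSpace X] [Unique X] :
    UT G X ≃ₜ NNReal where
  toFun := UT.s
  invFun s := UT.mk (fun _ => default) s (Or.inr fun _ _ => rfl)
  left_inv _ := UT.ext (funext fun _ => Subsingleton.elim _ _) rfl
  right_inv _ := rfl
  continuous_toFun := UT.continuous_s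
  continuous_invFun := UT.continuous_mk continuous_const continuous_id _

theorem RZ.contr_of_unique (X : LC) [Unique X] : Contr (RZ G X Z) := by
  have h1 : ∀ (g : G) (y : UT G X), g • y = y := fun g y =>
    UT.ext (funext fun _ => Subsingleton.elim _ _) rfl
  let e : (RZ G X Z : LC) ≃ₜ (HH ⊗ LC.of (Orb G Z) : LC) :=
    (orbTriv G (UT G X) Z h1).trans ((utPoint G X).prodCongr (Homeomorph.refl (Orb G Z)))
  exact (contr_HH.tensor (LC.of (Orb G Z))).of_hequiv (HEquiv.of_iso (ofHomeo e)).symm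

end special

end Vale.Agent.P093.N2
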