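import Vale.Agent.P093.N2.HC
import Vale.Agent.P093.N2.Orbit
import Vale.Agent.P093.N2.QuotMap
import Vale.Agent.P251.I.Spaces

/-!
# P093, part N2: the half space and the inductions of Theorem A

If `G` is a finite group of prime order `p`, `HC a b X m` and `HC c d Z z` for a `G`-space `Z`, then
`HC c (p * b + 1 + d) (RZ G X Z) (z * qchi p m)`.
-/

open CategoryTheory MonoidalCategory Limits Vale.Agent.P251.G Vale.Agent.P251.G.LC Topology
  OnePoint

namespace Vale.Agent.P093.N2

/-! ### The half space -/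

/-- the half space is contractible -/
theorem contr_half (n : ℕ) : Contr (HH ⊗ Sph n) := contr_HH.tensor (Sph n)

/-- the boundary of the half space is a neighbourhood deformation retract -/
noncomputable def halfNDR (n : ℕ) :
    NDR (HH ⊗ Sph n) {p : NNReal × (Fin n → ℝ) | p.1 ∈ ({(0 : NNReal)} : Set NNReal)} :=
  (NDR.ofData pndr_zero_HH.some).tensorRight (Sph n)

/-- the boundary of the half space -/
noncomputable def halfSub (n : ℕ) : Sph n ≅ sub (halfNDR n).isClosed :=
  isoSub (halfNDR n).isClosed (Z := Sph n)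
    { toFun := fun x => ⟨((0 : NNReal), x), rfl⟩
      invFun := fun p => p.1.2
      left_inv := fun _ => rfl
      right_inv := fun p => Subtype.ext (Prod.ext (Eq.symm p.2) rfl)
      continuous_toFun := (continuous_const.prodMk continuous_id).subtype_mk _
      continuous_invFun := continuous_snd.comp continuous_subtype_val }

theorem range_expH : Set.range expH = {x : NNReal | x ∉ ({(0 : NNReal)} : Set NNReal)} := by
  ext x
  constructor
  · rintro ⟨t, rfl⟩ h
    have h1 : expH t = 0 := h
    have h2 := congrArg NNReal.toReal h1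
    exact absurd h2 (ne_of_gt (Real.exp_pos t))
  · intro hx
    have hx0 : 0 < (x : ℝ) := lt_of_le_of_ne x.2 fun h => hx (NNReal.eq h.symm)
    exact ⟨Real.log x, NNReal.eq (Real.exp_log hx0)⟩

/-- the interior of the half space -/
noncomputable def halfOpn (n : ℕ) : Sph (n + 1) ≅ opn (halfNDR n).isClosed.isOpen_compl :=
  ((sphTensor n 1).symm ≪≫ whiskerLeftIso (Sph n) (ofHomeo (X := Sph 1) (Y := RR)
    (Homeomorph.funUnique (Fin 1) ℝ)) ≪≫ β_ (Sph n) RR) ≪≫
    isoOpn (halfNDR n).isClosed.isOpen_compl (Z := RR ⊗ Sph n)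
      (((isOpenEmbedding_expH.isEmbedding.toHomeomorph.trans
        (Homeomorph.setCongr range_expH)).prodCongr (Homeomorph.refl (Fin n → ℝ))).trans
        (homeoRight {x : NNReal | x ∉ ({(0 : NNReal)} : Set NNReal)} (Fin n → ℝ)))

/-! ### Theorem A -/

section thmA

variable (G : Type) [Group G] [Fintype G] (Z : Type) [TopologicalSpace Z] [T2Space Z]
  [LocallyCompactSpace Z] [MulAction G Z] [ContinuousConstSMul G Z]

/-- the output of the stratification of `RZ G X Z` -/
def StrataStmt : Prop :=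
  ∀ (X : LC) (S : Set X) (N : NDR X S) (a b c d e : ℕ) (m n z r : ℤ),
    HC a b (sub N.isClosed) m → HC a b (opn N.isClosed.isOpen_compl) n → HC c d (LC.of Z) z →
    Fintype.card G * b + d ≤ e → HC c e (RZ G (sub N.isClosed) Z) r →
    ∃ (F : Set (RZ G X Z)) (NF : NDR (RZ G X Z) F),
      HC c e (sub NF.isClosed)
        (r + z * (qchi (Fintype.card G) (m + n) - qchi (Fintype.card G) m -
          qchi (Fintype.card G) n)) ∧
      HEquiv (RZ G (opn N.isClosed.isOpen_compl) Z) (opn NF.isClosed.isOpen_compl)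

variable {G Z}

theorem hc_RZ_sph (hp : (Fintype.card G).Prime) (hS : StrataStmt G Z) {c d : ℕ} {z : ℤ}
    (hZ : HC c d (LC.of Z) z) (n : ℕ) :
    HC c (Fintype.card G * n + 1 + d) (RZ G (Sph n) Z)
      (z * qchi (Fintype.card G) ((-1) ^ n)) := by
  have hp1 : 1 ≤ Fintype.card G := hp.one_le
  induction n with
  | zero =>
    have : Unique (Sph 0 : LC) := inferInstanceAs (Unique (Fin 0 → ℝ))
    exact (HC.of_contr (RZ.contr_of_unique (G := G) (Z := Z) (Sph 0))).cast
      (by rw [pow_zero, qchi_one hp, mul_zero])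
  | succ n ih =>
    have h0 : HC c (Fintype.card G * (n + 1) + d) (RZ G (sub (halfNDR n).isClosed) Z)
        (z * qchi (Fintype.card G) ((-1) ^ n)) :=
      (ih.mono le_rfl (by rw [mul_add]; omega)).hequiv (RZ.hequiv (HEquiv.of_iso (halfSub n)))
    have hA : HC 0 (n + 1) (sub (halfNDR n).isClosed) ((-1) ^ n) :=
      (HC.sph n (Nat.zero_le _) (Nat.le_succ n)).of_iso (halfSub n)
    have hU : HC 0 (n + 1) (opn (halfNDR n).isClosed.isOpen_compl) ((-1) ^ (n + 1)) :=
      (HC.sph (n + 1) (Nat.zero_le _) le_rfl).of_iso (halfOpn n)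
    obtain ⟨F, NF, h1, h2⟩ := hS _ _ (halfNDR n) 0 (n + 1) c d (Fintype.card G * (n + 1) + d)
      _ _ z _ hA hU hZ le_rfl h0
    have h3 := HC.open_of_contr NF (RZ.contr (contr_half n)) h1
    have h4 := (h3.hequiv h2.symm).hequiv (RZ.hequiv (HEquiv.of_iso (halfOpn n)).symm)
    refine (h4.mono (Nat.le_succ c) (by omega)).cast ?_
    have h5 : (-1 : ℤ) ^ n + (-1) ^ (n + 1) = 0 := by ring
    rw [h5, qchi_zero hp]
    ring

/-- **Theorem A.** -/
theorem hc_RZ (hp : (Fintype.card G).Prime) (hS : StrataStmt G Z) {a b c d : ℕ} {X : LC}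
    {m z : ℤ} (hX : HC a b X m) (hZ : HC c d (LC.of Z) z) :
    HC c (Fintype.card G * b + 1 + d) (RZ G X Z) (z * qchi (Fintype.card G) m) := by
  induction hX with
  | empty =>
    exact (HC.of_contr (RZ.contr (G := G) (Z := Z) (contr_of_isEmpty (LC.of Empty)))).cast
      (by rw [qchi_zero hp, mul_zero])
  | sph n ha hb =>
    refine (hc_RZ_sph hp hS hZ n).mono le_rfl ?_
    have := Nat.mul_le_mul_left (Fintype.card G) hb
    omega
  | hequiv _ h ih => exact ih.hequiv (RZ.hequiv h)
  | @ext X S m n N hA hU ihA ihU =>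
    obtain ⟨F, NF, h1, h2⟩ := hS X S N a b c d (Fintype.card G * b + 1 + d) m n z _ hA hU hZ
      (by omega) ihA
    exact (HC.ext NF h1 (ihU.hequiv h2)).cast (by ring)

end thmA

end Vale.Agent.P093.N2
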