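import Vale.Agent.P093.N2.Orbit
import Vale.Agent.P093.N2.HC

/-!
# P093, part N2: the induction principle of `Orbit.lean` in terms of preimages, and `HC.pi`
-/

set_option linter.unusedSectionVars false

open Vale.Agent.P251.G Vale.Agent.P251.G.LC

namespace Vale.Agent.P093.N2

section fam

variable {G : Type} [Group G] [Fintype G] [DecidableEq G]

/-- translate of a subset: the non-`S` pattern of `g • x` is `trs g` of the pattern of `x` -/
def trs (g : G) (W : Finset G) : Finset G := Finset.univ.filter fun h => h * g ∈ W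

@[simp] theorem mem_tr {g : G} {W : Finset G} {h : G} : h ∈ trs g W ↔ h * g ∈ W := by
  simp [trs]

theorem tr_eq_image (g : G) (W : Finset G) : trs g W = W.image (· * g⁻¹) := by
  ext h
  rw [mem_tr, Finset.mem_image]
  constructor
  · intro h1
    exact ⟨h * g, h1, mul_inv_cancel_right h g⟩
  · rintro ⟨k, hk, rfl⟩
    rwa [inv_mul_cancel_right]

theorem image_eq_tr (g : G) (W : Finset G) : W.image (· * g) = trs g⁻¹ W := by
  rw [tr_eq_image, inv_inv]

theorem tr_mul (g k : G) (W : Finset G) : trs (g * k) W = trs g (trs k W) := by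
  ext h
  simp only [mem_tr, mul_assoc]

@[simp] theorem tr_one' (W : Finset G) : trs 1 W = W := by
  ext h
  simp only [mem_tr, mul_one]

theorem card_tr' (g : G) (W : Finset G) : (trs g W).card = W.card := by
  rw [tr_eq_image]
  exact card_trI W g⁻¹

/-- a family of proper subsets, stable under subsets and translations -/
structure Fam (D : Finset (Finset G)) : Prop where
  empty : ∅ ∈ D
  univ : Finset.univ ∉ D
  down : ∀ W ∈ D, ∀ V ⊆ W, V ∈ D
  trs : ∀ W ∈ D, ∀ g : G, trs g W ∈ D

theorem IsFam.toFam {D : Finset (Finset G)} (h : IsFam D) : Fam D where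
  empty := h.empty_mem
  univ := h.univ_notMem
  down := h.down
  trs W hW g := by
    rw [tr_eq_image]
    exact h.stable W hW g⁻¹

/-- the orbit of a subset -/
def orbS (W : Finset G) : Finset (Finset G) := Finset.univ.image fun g : G => trs g W

theorem mem_orbS {W V : Finset G} : V ∈ orbS W ↔ ∃ g : G, trs g W = V := by
  simp [orbS]

theorem orbF_eq_orbS (W : Finset G) : orbF W = orbS W := by
  ext V
  rw [mem_orbF, mem_orbS]
  constructor
  · rintro ⟨g, rfl⟩
    exact ⟨g⁻¹, (image_eq_tr g W).symm⟩
  · rintro ⟨g, rfl⟩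
    exact ⟨g⁻¹, (tr_eq_image g W).symm⟩

/-- **Induction principle.** The family of all proper subsets of a group of prime order is obtained
from `{∅}` by adding free orbits. -/
theorem Fam.induction (hp : (Fintype.card G).Prime) {P : Finset (Finset G) → ℤ → Prop}
    {r a c k : ℤ} (h0 : P {∅} r)
    (hstep : ∀ (D : Finset (Finset G)) (W : Finset G) (s : ℤ), Fam D → Fam (D ∪ orbS W) →
      W ∉ D → W ≠ ∅ → W ≠ Finset.univ → (∀ V, V ⊂ W → V ∈ D) →
      (∀ g : G, N2.trs g W = W → g = 1) → P D s →
      P (D ∪ orbS W) (s + k * (a ^ (Fintype.card G - W.card) * c ^ W.card))) :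
    P ((Finset.univ : Finset (Finset G)).erase Finset.univ)
      (r + k * (qchi (Fintype.card G) (a + c) - qchi (Fintype.card G) a -
        qchi (Fintype.card G) c)) := by
  refine fam_induction hp h0 ?_
  intro D W s hD hD' hW h1 h2 h3 hP
  rw [orbF_eq_orbS] at hD' ⊢
  refine hstep D W s hD.toFam hD'.toFam hW h1 h2 ?_ ?_ hP
  · intro V hV
    have h4 : V ∈ D ∪ orbS W :=
      hD'.down W (Finset.mem_union_right _ (mem_orbS.mpr ⟨1, tr_one' W⟩)) V hV.1
    rcases Finset.mem_union.mp h4 with h5 | h5
    · exact h5
    · exfalso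
      obtain ⟨g, hg⟩ := mem_orbS.mp h5
      have h6 := Finset.card_lt_card hV
      rw [← hg, card_tr'] at h6
      exact lt_irrefl _ h6
  · intro g hg
    rw [tr_eq_image] at hg
    exact inv_eq_one.mp (h3 g⁻¹ hg)

end fam

/-- splitting off a factor of a product over `Option J` -/
def homeoOption {J : Type} (X : Option J → Type) [∀ j, TopologicalSpace (X j)] :
    X none × (∀ j, X (some j)) ≃ₜ ∀ j, X j where
  toFun x := fun j => match j with
    | none => x.1
    | some j => x.2 j
  invFun y := (y none, fun j => y (some j))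
  left_inv _ := rfl
  right_inv y := by
    funext j
    cases j <;> rfl
  continuous_toFun := by
    refine continuous_pi fun j => ?_
    cases j with
    | none => exact continuous_fst
    | some j => exact (continuous_apply j).comp continuous_snd
  continuous_invFun := (continuous_apply none).prodMk
    (continuous_pi fun j => continuous_apply (some j))

/-- finite products of finite cell spaces -/
theorem HC.pi {J : Type} [hJ : Fintype J] {a b : ℕ} (X : J → LC) (m : J → ℤ)
    (h : ∀ j, HC a b (X j) (m j)) :
    HC (Fintype.card J * a) (Fintype.card J * b) (LC.of (∀ j, X j)) (∏ j, m j) := by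
  revert X m h
  refine Fintype.induction_empty_option (P := fun J _ => ∀ (X : J → LC) (m : J → ℤ),
    (∀ j, HC a b (X j) (m j)) →
    HC (Fintype.card J * a) (Fintype.card J * b) (LC.of (∀ j, X j)) (∏ j, m j)) ?_ ?_ ?_ J
  · intro J J' _ e ih X m h
    have h1 := @ih (fun j => X (e j)) (fun j => m (e j)) (fun j => h (e j))
    have h2 := h1.of_homeo (Y := LC.of (∀ j, X j))
      (Homeomorph.piCongrLeft (Y := fun j => (X j : Type)) e)
    rw [@Fintype.card_congr J J' (Fintype.ofEquiv J' e.symm) _ e,
      @Fintype.prod_equiv J J' ℤ (Fintype.ofEquiv J' e.symm) _ _ e (fun j => m (e j)) m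
        (fun _ => rfl)] at h2
    exact h2
  · intro X m h
    have : Unique (LC.of (∀ j, X j) : LC) := inferInstanceAs (Unique (∀ j : PEmpty, X j))
    exact ((HC.of_unique (b := 0) (LC.of (∀ j, X j))).mono (by simp) (by simp)).cast (by simp)
  · intro J _ ih X m h
    have h1 := (h none).tensor (ih (fun j => X (some j)) (fun j => m (some j))
      (fun j => h (some j)))
    have h2 := h1.of_homeo (Y := LC.of (∀ j, X j)) (homeoOption fun j => (X j : Type))
    refine (h2.mono ?_ ?_).cast ?_
    · rw [Fintype.card_option]; ring_nf; exact le_rfl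
    · rw [Fintype.card_option]; ring_nf; exact le_rfl
    · rw [Fintype.prod_option]

end Vale.Agent.P093.N2
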