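import Vale.Agent.P251.G.PowLC
import Vale.Agent.P251.G.CofibNDR
import Vale.Agent.P251.G.Retract
import Vale.Agent.P093.N2.QuotDefs

/-!
# P093, part N2: nice pairs and the retraction on powers

* `NicePair B S`: `S` is a neighbourhood deformation retract in `B`; the distance function `u` is
  continuous on `B` (nothing is required at infinity), the deformation is pointed.
* For a finite type `J` and an up-closed family `F` of subsets of `J`,
  `powSet S F = {b : J → B | {j | b j ∈ S} ∈ F}`; the retraction `powRetr N F` of
  `powObj J B ⊗ II` onto the cylinder of `powSet S F`: all coordinates are moved for the *same* time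
  `min t (2 u_F b)`, so it is equivariant and preserves all diagonals and all `powSet S F'`.
-/

open CategoryTheory MonoidalCategory Filter Topology OnePoint Vale.Agent.P251.G
  Vale.Agent.P251.G.LC

set_option linter.unusedSectionVars false

namespace Vale.Agent.P093.N2

/-- `S` is a neighbourhood deformation retract in `B`. The function `u` need not be continuous at
infinity. -/
structure NicePair (B : LC) (S : Set B) where
  /-- the distance to `S` -/
  u : B → unitInterval
  cont : Continuous u
  /-- the deformation -/
  h : B ⊗ II ⟶ B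
  u_eq_zero : ∀ b : B, u b = 0 ↔ b ∈ S
  h_zero : ∀ b : B,
    app h (smash (b : OnePoint B) ((0 : unitInterval) : OnePoint unitInterval)) = b
  h_mem : ∀ b ∈ S, ∀ t : unitInterval,
    app h (smash (b : OnePoint B) (t : OnePoint unitInterval)) = b
  h_lt : ∀ (b : B) (t : unitInterval), u b < t →
    app h (smash (b : OnePoint B) (t : OnePoint unitInterval)) ∈ ptd S

/-- neighbourhood deformation retracts are nice pairs -/
def NDR.nice {B : LC} {S : Set B} (N : NDR B S) : NicePair B S where
  u := N.u
  cont := N.u_cont
  h := N.h
  u_eq_zero := N.u_eq_zero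
  h_zero := N.h_zero
  h_mem := N.h_mem
  h_lt := N.h_lt

/-! ### Powers -/

section pow

variable {J : Type} [Fintype J] {B : LC} {S : Set B}

/-- the tuples `b` for which the set of the `j` with `b j ∈ S` belongs to `F` -/
def powSet (S : Set B) (F : Finset (Finset J)) : Set (J → B) :=
  {b | ∃ T ∈ F, ∀ j, j ∈ T → b j ∈ S}

/-- `min (2 x) 1` -/
noncomputable def pdbl (x : unitInterval) : unitInterval :=
  Set.projIcc (0 : ℝ) 1 zero_le_one (2 * (x : ℝ))

theorem continuous_pdbl : Continuous pdbl :=
  continuous_projIcc.comp (continuous_const.mul continuous_subtype_val)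

@[simp] theorem pdbl_zero : pdbl 0 = 0 := by
  unfold pdbl
  apply Set.projIcc_of_le_left
  simp

theorem lt_pdbl {x : unitInterval} (h0 : 0 < x) (h1 : x < 1) : x < pdbl x := by
  have h0' : (0 : ℝ) < x := h0
  have h1' : (x : ℝ) < 1 := h1
  rw [← Subtype.coe_lt_coe]
  unfold pdbl
  rcases le_total (2 * (x : ℝ)) 1 with h | h
  · rw [Set.projIcc_of_mem zero_le_one ⟨by linarith, h⟩]
    change (x : ℝ) < 2 * x
    linarith
  · rw [Set.projIcc_of_right_le zero_le_one h]
    exact h1'

/-- the distance to `powSet S F` -/
def NicePair.powU (N : NicePair B S) (F : Finset (Finset J)) (b : J → B) : unitInterval :=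
  F.inf fun T => T.sup fun j => N.u (b j)

variable (N : NicePair B S) (F : Finset (Finset J))

theorem NicePair.continuous_powU : Continuous (N.powU F) := by
  unfold NicePair.powU
  refine Continuous.finset_inf_apply fun T _ => ?_
  exact Continuous.finset_sup_apply fun j _ => N.cont.comp (continuous_apply j)

theorem NicePair.powU_eq_zero {b : J → B} : N.powU F b = 0 ↔ b ∈ powSet S F := by
  constructor
  · intro h
    rcases F.eq_empty_or_nonempty with rfl | hne
    · exfalso
      have h1 : N.powU (∅ : Finset (Finset J)) b = 1 := rfl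
      rw [h1] at h
      exact one_ne_zero h
    · obtain ⟨T, hT, h2⟩ := Finset.exists_mem_eq_inf F hne
        (fun T => T.sup fun j => N.u (b j))
      refine ⟨T, hT, fun j hj => ?_⟩
      rw [← N.u_eq_zero]
      have h3 : N.u (b j) ≤ T.sup fun j => N.u (b j) :=
        Finset.le_sup (f := fun j => N.u (b j)) hj
      have h4 : T.sup (fun j => N.u (b j)) = 0 := h2.symm.trans h
      rw [h4] at h3
      exact le_antisymm h3 unitInterval.nonneg'
  · rintro ⟨T, hT, h⟩
    have h1 : N.powU F b ≤ T.sup fun j => N.u (b j) :=
      Finset.inf_le (f := fun T => T.sup fun j => N.u (b j)) hT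
    have h2 : (T.sup fun j => N.u (b j)) ≤ 0 := by
      refine Finset.sup_le fun j hj => ?_
      rw [(N.u_eq_zero (b j)).2 (h j hj)]
    exact le_antisymm (h1.trans h2) unitInterval.nonneg'

theorem NicePair.powU_lt {b : J → B} {t : unitInterval} (h : N.powU F b < t) :
    ∃ T ∈ F, ∀ j ∈ T, N.u (b j) < t := by
  obtain ⟨T, hT, h1⟩ := Finset.inf_lt_iff.1 h
  refine ⟨T, hT, fun j hj => lt_of_le_of_lt ?_ h1⟩
  exact Finset.le_sup (f := fun j => N.u (b j)) hj

/-- the time -/
noncomputable def NicePair.powTime (b : J → B) (t : unitInterval) : unitInterval :=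
  min t (pdbl (N.powU F b))

/-- the auxiliary map `(b, t) ↦ ((b j, powTime b t)_j, t - powU b)` -/
noncomputable def NicePair.powAux (p : (J → B) × unitInterval) :
    (J → B × unitInterval) × unitInterval :=
  (fun j => (p.1 j, N.powTime F p.1 p.2), tsub p.2 (N.powU F p.1))

theorem NicePair.continuous_powTime :
    Continuous fun p : (J → B) × unitInterval => N.powTime F p.1 p.2 := by
  unfold NicePair.powTime
  exact continuous_snd.min (continuous_pdbl.comp ((N.continuous_powU F).comp continuous_fst))

theorem NicePair.continuous_powAux : Continuous (N.powAux F) := by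
  refine Continuous.prodMk (continuous_pi fun j => ?_) ?_
  · exact ((continuous_apply j).comp continuous_fst).prodMk (N.continuous_powTime F)
  · exact continuous_tsub continuous_snd ((N.continuous_powU F).comp continuous_fst)

theorem NicePair.isProperMap_powAux : IsProperMap (N.powAux F) := by
  let g : (J → B × unitInterval) × unitInterval → (J → B) := fun q j => (q.1 j).1
  have hg : Continuous g := continuous_pi fun j =>
    continuous_fst.comp ((continuous_apply j).comp continuous_fst)
  have h : IsProperMap (g ∘ N.powAux F) := by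
    have h1 : g ∘ N.powAux F = Prod.fst := rfl
    rw [h1]
    exact isProperMap_fst_of_compactSpace
  exact isProperMap_of_comp_of_t2 (N.continuous_powAux F) hg h

/-- The retraction of `powObj J B ⊗ II` onto the cylinder of `powSet S F`. -/
noncomputable def NicePair.powRetr : powObj J B ⊗ II ⟶ powObj J B ⊗ II :=
  ofIsProper (X := LC.of ((J → B) × unitInterval))
    (Y := LC.of ((J → B × unitInterval) × unitInterval)) (N.powAux F) (N.isProperMap_powAux F) ≫
    (LC.powHom J N.h ▷ II)

/-- the tuple moved by the deformation for the time `τ` -/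
noncomputable def NicePair.move (b : J → B) (τ : unitInterval) : OnePoint (J → B) :=
  OP.smash fun j => app N.h (smash (b j : OnePoint B) (τ : OnePoint unitInterval))

theorem NicePair.app_powRetr (b : J → B) (t : unitInterval) :
    app (N.powRetr F) (smash (b : OnePoint (J → B)) (t : OnePoint unitInterval)) =
      smash (N.move b (N.powTime F b t))
        ((tsub t (N.powU F b) : unitInterval) : OnePoint unitInterval) := by
  unfold NicePair.powRetr
  rw [app_comp]
  change app (LC.powHom J N.h ▷ II) (smash
    ((fun j => (b j, N.powTime F b t) : J → B × unitInterval) :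
      OnePoint (J → B × unitInterval))
    ((tsub t (N.powU F b) : unitInterval) : OnePoint unitInterval)) = _
  rw [app_whiskerRight_smash]
  rfl

/-! ### Properties of the moved tuple -/

variable {F}

theorem NicePair.h_zero' (b : OnePoint B) :
    app N.h (smash b ((0 : unitInterval) : OnePoint unitInterval)) = b := by
  induction b using OnePoint.rec with
  | infty => exact app_infty _
  | coe b => exact N.h_zero b

@[simp] theorem NicePair.move_zero (b : J → B) : N.move b 0 = b := by
  unfold NicePair.move
  rw [OP.smash_eq_coe_iff]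
  intro j
  exact N.h_zero (b j)

theorem NicePair.move_coe {b b' : J → B} {τ : unitInterval} (h : N.move b τ = b') (j : J) :
    app N.h (smash (b j : OnePoint B) (τ : OnePoint unitInterval)) = (b' j : OnePoint B) :=
  OP.smash_eq_coe h j

/-- points in `S` do not move -/
theorem NicePair.move_mem {b b' : J → B} {τ : unitInterval} (h : N.move b τ = b') {j : J}
    (hj : b j ∈ S) : b' j = b j := by
  have h1 := N.move_coe h j
  rw [N.h_mem _ hj] at h1
  exact (OnePoint.coe_injective h1).symm

/-- equal coordinates stay equal -/
theorem NicePair.move_eq {b b' : J → B} {τ : unitInterval} (h : N.move b τ = b') {i j : J}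
    (hij : b i = b j) : b' i = b' j := by
  have h1 := N.move_coe h i
  have h2 := N.move_coe h j
  rw [hij] at h1
  exact OnePoint.coe_injective (h1.symm.trans h2)

/-- coordinates with `u < τ` arrive in `S` -/
theorem NicePair.move_lt {b b' : J → B} {τ : unitInterval} (h : N.move b τ = b') {j : J}
    (hj : N.u (b j) < τ) : b' j ∈ S := by
  have h1 := N.move_coe h j
  have h2 := N.h_lt _ _ hj
  rw [h1] at h2
  exact coe_mem_ptd.1 h2

/-- equivariance (also for reindexings which are not bijective) -/
theorem NicePair.move_comp {J' : Type} [Fintype J'] (g : J' → J) (b b' : J → B) (τ : unitInterval)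
    (h : N.move b τ = b') : N.move (b ∘ g) τ = ((b' ∘ g : J' → B) : OnePoint (J' → B)) := by
  unfold NicePair.move
  rw [OP.smash_eq_coe_iff]
  intro j
  exact N.move_coe h (g j)

theorem NicePair.move_comp_equiv {J' : Type} [Fintype J'] (g : J' ≃ J) (b : J → B)
    (τ : unitInterval) :
    N.move (b ∘ g) τ = OnePoint.map (fun b : J → B => (b ∘ g : J' → B)) (N.move b τ) := by
  cases h : N.move b τ using OnePoint.rec with
  | coe b' => exact N.move_comp g b b' τ h
  | infty =>
    rw [OnePoint.map_infty]
    by_contra hne
    obtain ⟨b', hb'⟩ := OnePoint.ne_infty_iff_exists.1 hne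
    have h1 := N.move_comp g.symm (b ∘ g) b' τ hb'.symm
    have h2 : (b ∘ g) ∘ g.symm = b := by
      funext j
      simp
    rw [h2, h] at h1
    exact OnePoint.infty_ne_coe _ h1

theorem NicePair.move_powSet {b : J → B} {F' : Finset (Finset J)} (hb : b ∈ powSet S F')
    (τ : unitInterval) : N.move b τ ∈ ptd (D := powObj J B) (powSet S F') := by
  intro b' h
  obtain ⟨T, hT, hbT⟩ := hb
  refine ⟨T, hT, fun j hj => ?_⟩
  rw [N.move_mem h (hbT j hj)]
  exact hbT j hj

theorem NicePair.powTime_of_mem {b : J → B} (hb : b ∈ powSet S F) (t : unitInterval) :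
    N.powTime F b t = 0 := by
  unfold NicePair.powTime
  rw [(N.powU_eq_zero F).2 hb, pdbl_zero]
  exact min_eq_right unitInterval.nonneg'

theorem NicePair.powTime_zero (b : J → B) : N.powTime F b 0 = 0 :=
  min_eq_left unitInterval.nonneg'

theorem NicePair.move_powTime_lt {b : J → B} {t : unitInterval} (h : N.powU F b < t) :
    N.move b (N.powTime F b t) ∈ ptd (D := powObj J B) (powSet S F) := by
  by_cases h0 : N.powU F b = 0
  · have hb := (N.powU_eq_zero F).1 h0
    rw [N.powTime_of_mem hb, N.move_zero]
    exact coe_mem_ptd.2 hb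
  · have hpos : 0 < N.powU F b := lt_of_le_of_ne unitInterval.nonneg' (Ne.symm h0)
    have hlt : N.powU F b < N.powTime F b t :=
      lt_min h (lt_pdbl hpos (lt_of_lt_of_le h unitInterval.le_one'))
    intro b' hb'
    obtain ⟨T, hT, hbT⟩ := N.powU_lt F hlt
    exact ⟨T, hT, fun j hj => N.move_lt hb' (hbT j hj)⟩

/-- the value of the retraction in terms of `move` -/
theorem NicePair.powRetr_cases (F : Finset (Finset J)) (b : J → B) (t : unitInterval) :
    (N.move b (N.powTime F b t) = ∞ ∧
      app (N.powRetr F) (smash (b : OnePoint (J → B)) (t : OnePoint unitInterval)) = ∞) ∨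
    ∃ b' : J → B, N.move b (N.powTime F b t) = b' ∧
      app (N.powRetr F) (smash (b : OnePoint (J → B)) (t : OnePoint unitInterval)) =
        smash (b' : OnePoint (J → B))
          ((tsub t (N.powU F b) : unitInterval) : OnePoint unitInterval) := by
  rw [N.app_powRetr]
  cases h : N.move b (N.powTime F b t) using OnePoint.rec with
  | infty => exact Or.inl ⟨rfl, rfl⟩
  | coe b' => exact Or.inr ⟨b', rfl, rfl⟩

/-- **The retraction on powers.** -/
theorem NicePair.isRetr_powRetr (F : Finset (Finset J)) :
    IsRetr (ptd (D := powObj J B) (powSet S F)) (N.powRetr F) where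
  zero b := by
    induction b using OnePoint.rec with
    | infty =>
      rw [smash_infty_left]
      exact app_infty _
    | coe b => rw [N.app_powRetr, N.powTime_zero, N.move_zero, zero_tsub]
  mem b hb t := by
    induction b using OnePoint.rec with
    | infty =>
      rw [smash_infty_left]
      exact app_infty _
    | coe b =>
      have hb' := coe_mem_ptd.1 hb
      rw [N.app_powRetr, N.powTime_of_mem hb', N.move_zero, (N.powU_eq_zero F).2 hb', tsub_zero]
  range p := by
    obtain ⟨b, t, rfl⟩ := smash_coe_surjective (X := J → B) (Y := unitInterval) p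
    induction b using OnePoint.rec with
    | infty =>
      refine ⟨∞, 0, ?_, Or.inl rfl⟩
      rw [smash_infty_left, smash_infty_left]
      exact app_infty _
    | coe b =>
      rw [N.app_powRetr]
      refine ⟨_, _, rfl, ?_⟩
      rcases le_or_gt t (N.powU F b) with h | h
      · exact Or.inl (tsub_of_le h)
      · exact Or.inr (N.move_powTime_lt h)

/-! ### Equivariance -/

/-- reindexing of the tuples -/
def reindex (g : J ≃ J) : powObj J B ≅ powObj J B :=
  ofHomeo (X := powObj J B) (Y := powObj J B)
    { toFun := fun b => b ∘ g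
      invFun := fun b => b ∘ g.symm
      left_inv := fun b => by funext j; simp
      right_inv := fun b => by funext j; simp
      continuous_toFun := continuous_pi fun j => continuous_apply (g j)
      continuous_invFun := continuous_pi fun j => continuous_apply (g.symm j) }

@[simp] theorem app_reindex_coe (g : J ≃ J) (b : J → B) :
    app (reindex (B := B) g).hom (b : OnePoint (J → B)) = ((b ∘ g : J → B) : OnePoint (J → B)) :=
  rfl

theorem NicePair.powU_comp (g : J ≃ J) (hF : ∀ T, T.map g.toEmbedding ∈ F ↔ T ∈ F)
    (b : J → B) : N.powU F (b ∘ g) = N.powU F b := by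
  unfold NicePair.powU
  apply le_antisymm
  · refine Finset.le_inf fun T hT => ?_
    have h1 : T.map g.symm.toEmbedding ∈ F := by
      rw [← hF, Finset.map_map]
      convert hT
      ext x
      simp
    refine (Finset.inf_le h1).trans ?_
    rw [Finset.sup_map]
    refine Finset.sup_mono_fun fun j _ => ?_
    simp
  · refine Finset.le_inf fun T hT => ?_
    refine (Finset.inf_le ((hF T).2 hT)).trans ?_
    rw [Finset.sup_map]
    rfl

theorem NicePair.powTime_comp (g : J ≃ J) (hF : ∀ T, T.map g.toEmbedding ∈ F ↔ T ∈ F)
    (b : J → B) (t : unitInterval) : N.powTime F (b ∘ g) t = N.powTime F b t := by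
  unfold NicePair.powTime
  rw [N.powU_comp g hF]

/-- the retraction is equivariant -/
theorem NicePair.powRetr_comp (g : J ≃ J) (hF : ∀ T, T.map g.toEmbedding ∈ F ↔ T ∈ F) :
    ((reindex g).hom ▷ II) ≫ N.powRetr F = N.powRetr F ≫ ((reindex g).hom ▷ II) := by
  apply tensor_ext
  intro b t
  change app (N.powRetr F) (app ((reindex g).hom ▷ II) (smash (b : OnePoint (J → B))
    (t : OnePoint unitInterval))) = app ((reindex g).hom ▷ II) (app (N.powRetr F)
      (smash (b : OnePoint (J → B)) (t : OnePoint unitInterval)))
  rw [app_whiskerRight_smash, app_reindex_coe]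
  rw [N.app_powRetr, N.app_powRetr, app_whiskerRight_smash, N.powTime_comp g hF, N.powU_comp g hF,
    N.move_comp_equiv g b]
  congr 1

/-! ### With an extra factor -/

/-- the retraction, with an extra factor `V` -/
noncomputable def NicePair.powRetrV (F : Finset (Finset J)) (V : LC) :
    (powObj J B ⊗ V) ⊗ II ⟶ (powObj J B ⊗ V) ⊗ II :=
  (permIso (powObj J B) V).hom ≫ (N.powRetr F ▷ V) ≫ (permIso (powObj J B) V).inv

theorem NicePair.powRetrV_cases (F : Finset (Finset J)) (V : LC) (b : J → B) (v : V)
    (t : unitInterval) :
    (N.move b (N.powTime F b t) = ∞ ∧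
      app (N.powRetrV F V) (smash (smash (b : OnePoint (J → B)) (v : OnePoint V))
        (t : OnePoint unitInterval)) = ∞) ∨
    ∃ b' : J → B, N.move b (N.powTime F b t) = b' ∧
      app (N.powRetrV F V) (smash (smash (b : OnePoint (J → B)) (v : OnePoint V))
        (t : OnePoint unitInterval)) =
        smash (smash (b' : OnePoint (J → B)) (v : OnePoint V))
          ((tsub t (N.powU F b) : unitInterval) : OnePoint unitInterval) := by
  have key : app (N.powRetrV F V) (smash (smash (b : OnePoint (J → B)) (v : OnePoint V))
        (t : OnePoint unitInterval)) = app (permIso (powObj J B) V).inv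
        (smash (app (N.powRetr F) (smash (b : OnePoint (J → B)) (t : OnePoint unitInterval)))
          (v : OnePoint V)) := by
    unfold NicePair.powRetrV
    rw [app_comp, app_comp]
    congr 1
  rcases N.powRetr_cases F b t with ⟨h1, h2⟩ | ⟨b', h1, h2⟩
  · refine Or.inl ⟨h1, ?_⟩
    rw [key, h2, smash_infty_left]
    exact app_infty _
  · refine Or.inr ⟨b', h1, ?_⟩
    rw [key, h2]
    rfl

end pow

end Vale.Agent.P093.N2
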