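import Vale.Agent.P251.G.NDR
import Vale.Agent.P251.G.Glue
import Vale.Agent.P093.N2.QuotDefs

/-!
# P093, part N2 (block 2B): orbit spaces of finite groups in `LC`

For a finite group `G` acting on a locally compact Hausdorff space `Z` the orbit space
`Orb G Z = MulAction.orbitRel.Quotient G Z` is locally compact Hausdorff (Mathlib) and
`Z → Orb G Z` is proper.  Equivariant proper maps, closed embeddings, open embeddings and
homotopies pass to orbit spaces, and so do equivariant NDR pairs (`cofib_orb`).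
-/

open CategoryTheory MonoidalCategory Filter Topology OnePoint
open Vale.Agent.P251.G Vale.Agent.P251.G.LC

set_option linter.unusedSectionVars false

namespace Vale.Agent.P093.N2.SQ

section orb

variable {G : Type} [Group G] {Z W V : Type} [MulAction G Z] [MulAction G W] [MulAction G V]

theorem orb_eq_iff {z z' : Z} : orb (G := G) z = orb z' ↔ ∃ g : G, g • z' = z := by
  rw [Vale.Agent.P093.N2.orb_eq_iff]
  constructor
  · rintro ⟨g, rfl⟩
    exact ⟨g⁻¹, inv_smul_smul g z⟩
  · rintro ⟨g, rfl⟩
    exact ⟨g⁻¹, inv_smul_smul g z'⟩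

/-- the map of orbit spaces induced by an equivariant map -/
def orbMap (f : Z → W) (hf : ∀ (g : G) (z : Z), f (g • z) = g • f z) : Orb G Z → Orb G W :=
  Quotient.map f (by
    rintro _ b ⟨g, rfl⟩
    exact ⟨g, (hf g b).symm⟩)

@[simp] theorem orbMap_orb (f : Z → W) (hf : ∀ (g : G) (z : Z), f (g • z) = g • f z) (z : Z) :
    orbMap f hf (orb z) = orb (f z) := rfl

/-- the function on the orbit space induced by an invariant function -/
def orbLift {B : Type*} (f : Z → B) (hf : ∀ (g : G) (z : Z), f (g • z) = f z) : Orb G Z → B :=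
  Quotient.lift f (by
    rintro _ b ⟨g, rfl⟩
    exact hf g b)

@[simp] theorem orbLift_orb {B : Type*} (f : Z → B) (hf : ∀ (g : G) (z : Z), f (g • z) = f z)
    (z : Z) : orbLift f hf (orb z) = f z := rfl

variable [TopologicalSpace Z] [TopologicalSpace W] [TopologicalSpace V]

theorem cont_orb : Continuous (orb : Z → Orb G Z) := continuous_quot_mk

theorem continuous_orbMap {f : Z → W} (hc : Continuous f)
    (hf : ∀ (g : G) (z : Z), f (g • z) = g • f z) : Continuous (orbMap f hf) :=
  continuous_quot_lift _ (cont_orb.comp hc)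

theorem continuous_orbLift {B : Type*} [TopologicalSpace B] {f : Z → B} (hc : Continuous f)
    (hf : ∀ (g : G) (z : Z), f (g • z) = f z) : Continuous (orbLift f hf) :=
  continuous_quot_lift _ hc

theorem orb_preimage_image (S : Set Z) :
    (orb : Z → Orb G Z) ⁻¹' (orb '' S) = ⋃ g : G, (fun z => g • z) ⁻¹' S := by
  ext z
  simp only [Set.mem_preimage, Set.mem_image, Set.mem_iUnion, orb_eq_iff]
  constructor
  · rintro ⟨s, hs, g, hg⟩
    exact ⟨g, by rwa [hg]⟩
  · rintro ⟨g, hg⟩
    exact ⟨_, hg, g, rfl⟩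

section finite

variable [Finite G]

theorem isClosedMap_orb [ContinuousConstSMul G Z] : IsClosedMap (orb : Z → Orb G Z) := by
  intro C hC
  rw [← (isOpenQuotientMap_orb (G := G) (W := Z)).isQuotientMap.isClosed_preimage,
    orb_preimage_image]
  exact isClosed_iUnion_of_finite fun g => hC.preimage (continuous_const_smul g)

theorem isCompact_orb_preimage [ContinuousConstSMul G Z] {K : Set (Orb G Z)} (hK : IsCompact K) :
    IsCompact ((orb : Z → Orb G Z) ⁻¹' K) := by
  have hp : IsProperMap (orb : Z → Orb G Z) := by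
    rw [isProperMap_iff_isClosedMap_and_compact_fibers]
    refine ⟨cont_orb, isClosedMap_orb, ?_⟩
    intro b
    obtain ⟨z, rfl⟩ := orb_surjective b
    have : (orb : Z → Orb G Z) ⁻¹' {orb z} = Set.range (fun g : G => g • z) := by
      ext w
      simp only [Set.mem_preimage, Set.mem_singleton_iff, orb_eq_iff, Set.mem_range]
    rw [this]
    exact (Set.finite_range _).isCompact
  exact hp.isCompact_preimage hK

/-- the projection to the orbit space is proper -/
theorem tendsto_orb [ContinuousConstSMul G Z] :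
    Tendsto (orb : Z → Orb G Z) (cocompact Z) (cocompact (Orb G Z)) := by
  intro K hK
  obtain ⟨L, hL, hLK⟩ := mem_cocompact.mp hK
  refine mem_cocompact.mpr ⟨_, isCompact_orb_preimage hL, ?_⟩
  intro z hz
  exact hLK hz

/-- a map out of the orbit space is proper as soon as its pullback is -/
theorem tendsto_of_comp_orb {B : Type*} [TopologicalSpace B] {f : Orb G Z → B}
    (h : Tendsto (fun z => f (orb z)) (cocompact Z) (cocompact B)) :
    Tendsto f (cocompact (Orb G Z)) (cocompact B) := by
  intro K hK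
  obtain ⟨L, hL, hLK⟩ := mem_cocompact.mp (h hK)
  refine mem_cocompact.mpr ⟨orb '' L, hL.image cont_orb, ?_⟩
  intro b hb
  obtain ⟨z, rfl⟩ := orb_surjective b
  exact hLK fun hz => hb ⟨z, hz, rfl⟩

theorem tendsto_orbMap [ContinuousConstSMul G W] {f : Z → W}
    (ht : Tendsto f (cocompact Z) (cocompact W))
    (hf : ∀ (g : G) (z : Z), f (g • z) = g • f z) :
    Tendsto (orbMap f hf) (cocompact (Orb G Z)) (cocompact (Orb G W)) :=
  tendsto_of_comp_orb (tendsto_orb.comp ht)

theorem orbMap_injective {f : Z → W} (hi : Function.Injective f)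
    (hf : ∀ (g : G) (z : Z), f (g • z) = g • f z) : Function.Injective (orbMap f hf) := by
  intro a b hab
  obtain ⟨a, rfl⟩ := orb_surjective a
  obtain ⟨b, rfl⟩ := orb_surjective b
  rw [orbMap_orb, orbMap_orb, orb_eq_iff] at hab
  obtain ⟨g, hg⟩ := hab
  rw [← hf] at hg
  exact orb_eq_iff.mpr ⟨g, hi hg⟩

theorem isClosedEmbedding_orbMap [ContinuousConstSMul G Z] [ContinuousConstSMul G W] {f : Z → W}
    (he : IsClosedEmbedding f)
    (hf : ∀ (g : G) (z : Z), f (g • z) = g • f z) : IsClosedEmbedding (orbMap f hf) := by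
  refine IsClosedEmbedding.of_continuous_injective_isClosedMap
    (continuous_orbMap he.continuous hf) (orbMap_injective he.injective hf) ?_
  intro C hC
  have h1 : orbMap f hf '' C = orb '' (f '' (orb ⁻¹' C)) := by
    ext b
    constructor
    · rintro ⟨a, ha, rfl⟩
      obtain ⟨a, rfl⟩ := orb_surjective a
      exact ⟨f a, ⟨a, ha, rfl⟩, rfl⟩
    · rintro ⟨_, ⟨a, ha, rfl⟩, rfl⟩
      exact ⟨orb a, ha, rfl⟩
  rw [h1]
  exact isClosedMap_orb _ (he.isClosedMap _ (hC.preimage cont_orb))

theorem isOpenEmbedding_orbMap [ContinuousConstSMul G W] {f : Z → W}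
    (he : IsOpenEmbedding f)
    (hf : ∀ (g : G) (z : Z), f (g • z) = g • f z) : IsOpenEmbedding (orbMap f hf) := by
  refine IsOpenEmbedding.of_continuous_injective_isOpenMap
    (continuous_orbMap he.continuous hf) (orbMap_injective he.injective hf) ?_
  intro C hC
  have h1 : orbMap f hf '' C = orb '' (f '' (orb ⁻¹' C)) := by
    ext b
    constructor
    · rintro ⟨a, ha, rfl⟩
      obtain ⟨a, rfl⟩ := orb_surjective a
      exact ⟨f a, ⟨a, ha, rfl⟩, rfl⟩
    · rintro ⟨_, ⟨a, ha, rfl⟩, rfl⟩
      exact ⟨orb a, ha, rfl⟩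
  rw [h1]
  exact isOpenQuotientMap_orb.isOpenMap _ (he.isOpenMap _ (hC.preimage cont_orb))

end finite

/-- an open map `κ : S → Z` meeting every orbit in at most one point gives an open embedding in
the orbit space -/
theorem isOpenEmbedding_orb_comp [ContinuousConstSMul G Z] {S : Type*} [TopologicalSpace S]
    {κ : S → Z} (hκ : IsOpenEmbedding κ) (h : ∀ (g : G) (s s' : S), g • κ s = κ s' → s = s') :
    IsOpenEmbedding (fun s => (orb (κ s) : Orb G Z)) := by
  refine IsOpenEmbedding.of_continuous_injective_isOpenMap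
    (cont_orb.comp hκ.continuous) ?_ ?_
  · intro s s' hs
    obtain ⟨g, hg⟩ := orb_eq_iff.mp hs
    exact (h g s' s hg).symm
  · exact isOpenQuotientMap_orb.isOpenMap.comp hκ.isOpenMap

section homotopy

variable {I : Type*} [TopologicalSpace I]

/-- the homotopy of orbit spaces induced by an equivariant homotopy -/
def orbHtpy (h : Z × I → W) (he : ∀ (g : G) (z : Z) (t : I), h (g • z, t) = g • h (z, t)) :
    Orb G Z × I → Orb G W :=
  fun p => orbMap (fun z => h (z, p.2)) (fun g z => he g z p.2) p.1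

@[simp] theorem orbHtpy_orb (h : Z × I → W)
    (he : ∀ (g : G) (z : Z) (t : I), h (g • z, t) = g • h (z, t)) (z : Z) (t : I) :
    orbHtpy h he (orb z, t) = orb (h (z, t)) := rfl

theorem continuous_orbHtpy [ContinuousConstSMul G Z] {h : Z × I → W} (hc : Continuous h)
    (he : ∀ (g : G) (z : Z) (t : I), h (g • z, t) = g • h (z, t)) :
    Continuous (orbHtpy h he) := by
  have hq : IsOpenQuotientMap (Prod.map (orb : Z → Orb G Z) (id : I → I)) :=
    isOpenQuotientMap_orb.prodMap IsOpenQuotientMap.id
  rw [← hq.continuous_comp_iff]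
  exact cont_orb.comp hc

theorem tendsto_orbHtpy [Finite G] [ContinuousConstSMul G Z] [ContinuousConstSMul G W]
    {h : Z × I → W} (ht : Tendsto h (cocompact (Z × I)) (cocompact W))
    (he : ∀ (g : G) (z : Z) (t : I), h (g • z, t) = g • h (z, t)) :
    Tendsto (orbHtpy h he) (cocompact (Orb G Z × I)) (cocompact (Orb G W)) := by
  intro K hK
  obtain ⟨L, hL, hLK⟩ := mem_cocompact.mp (ht (tendsto_orb hK))
  refine mem_cocompact.mpr ⟨Prod.map (orb : Z → Orb G Z) (id : I → I) '' L,
    hL.image (cont_orb.prodMap continuous_id), ?_⟩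
  rintro ⟨b, t⟩ hb
  obtain ⟨z, rfl⟩ := orb_surjective b
  exact hLK fun hz => hb ⟨(z, t), hz, rfl⟩

end homotopy

end orb

section cofib

variable {G : Type} [Group G] [Finite G]
  {A Z : Type} [TopologicalSpace A] [LocallyCompactSpace A] [T2Space A] [MulAction G A]
  [ContinuousConstSMul G A] [TopologicalSpace Z] [LocallyCompactSpace Z] [T2Space Z]
  [MulAction G Z] [ContinuousConstSMul G Z]

variable (G) (Z) in
/-- the orbit space as an object of `LC` -/
abbrev orbLC : LC := LC.of (Orb G Z)

/-- An equivariant NDR pair gives a cofibration of orbit spaces. -/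
theorem cofib_orb {a : A → Z} (ha : IsClosedEmbedding a)
    (hae : ∀ (g : G) (z : A), a (g • z) = g • a z)
    (u : Z → ℝ) (hu : Continuous u) (hu0 : ∀ z, 0 ≤ u z) (hue : ∀ (g : G) z, u (g • z) = u z)
    (huA : ∀ z, u z = 0 ↔ z ∈ Set.range a)
    (h : Z × unitInterval → Z) (hc : Continuous h)
    (ht : Tendsto h (cocompact (Z × unitInterval)) (cocompact Z))
    (he : ∀ (g : G) (z : Z) (t : unitInterval), h (g • z, t) = g • h (z, t))
    (h0 : ∀ z, h (z, 0) = z) (hA : ∀ z t, u z = 0 → h (z, t) = z)
    (h1 : ∀ z, u z < 1 → h (z, 1) ∈ Set.range a) :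
    Cofib (ofClosed (X := orbLC G A) (Y := orbLC G Z) (orbMap a hae)
      (isClosedEmbedding_orbMap ha hae)) := by
  have hr : ∀ z : Z, ((orb z : Orb G Z) : OnePoint (Orb G Z)) ∈
      Set.range (app (ofClosed (X := orbLC G A) (Y := orbLC G Z) (orbMap a hae)
        (isClosedEmbedding_orbMap ha hae))) ↔ z ∈ Set.range a := by
    intro z
    constructor
    · rintro ⟨b, hb⟩
      induction b using OnePoint.rec with
      | infty => rw [app_infty] at hb; exact absurd hb.symm (OnePoint.coe_ne_infty _)
      | coe b =>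
        obtain ⟨b, rfl⟩ := orb_surjective b
        have h2 : (orb (a b) : Orb G Z) = orb z := OnePoint.coe_injective hb
        obtain ⟨g, hg⟩ := orb_eq_iff.mp h2
        refine ⟨g⁻¹ • b, ?_⟩
        rw [hae, ← hg, inv_smul_smul]
    · rintro ⟨b, rfl⟩
      exact ⟨((orb b : Orb G A) : OnePoint (Orb G A)), rfl⟩
  let H : orbLC G Z ⊗ II ⟶ orbLC G Z :=
    ofProper (X := LC.of (Orb G Z × unitInterval)) (Y := orbLC G Z) (orbHtpy h he)
      (continuous_orbHtpy hc he) (tendsto_orbHtpy ht he)
  have hH : ∀ (z : Z) (t : unitInterval),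
      app H (smash ((orb z : Orb G Z) : OnePoint (Orb G Z)) (t : OnePoint unitInterval)) =
        ((orb (h (z, t)) : Orb G Z) : OnePoint (Orb G Z)) := fun z t => rfl
  refine cofib_of_ndr (app_injective_ofClosed (X := orbLC G A) (Y := orbLC G Z) _)
    (orbLift u hue) (continuous_orbLift hu hue) ?_ ?_ H ?_ ?_ ?_
  · intro b
    obtain ⟨z, rfl⟩ := orb_surjective b
    exact hu0 z
  · intro b
    obtain ⟨z, rfl⟩ := orb_surjective b
    rw [hr z]
    exact huA z
  · apply hom_ext
    intro b
    obtain ⟨z, rfl⟩ := orb_surjective b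
    rw [app_comp, app_incl]
    exact (hH z 0).trans (by rw [h0]; rfl)
  · intro b t hb
    obtain ⟨z, rfl⟩ := orb_surjective b
    exact (hH z t).trans (by rw [hA z t hb])
  · intro b hb
    obtain ⟨z, rfl⟩ := orb_surjective b
    rw [hH z 1, hr]
    exact h1 z hb

end cofib

section product

variable {G : Type} [Group G] {Y P : Type} [MulAction G Y] [MulAction G P]
  [TopologicalSpace Y] [TopologicalSpace P]

/-- a continuous map over `Y` with compact fibres is proper -/
theorem tendsto_over {X' : Type*} [TopologicalSpace X'] {Y' P' : Type*} [TopologicalSpace Y']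
    [TopologicalSpace P'] [T2Space Y'] [T2Space X'] (f : X' → Y' × P') (hf : Continuous f)
    (hp : Tendsto (fun x => (f x).1) (cocompact X') (cocompact Y')) [T2Space P'] :
    Tendsto f (cocompact X') (cocompact (Y' × P')) := by
  intro K hK
  obtain ⟨L, hL, hLK⟩ := mem_cocompact.mp hK
  obtain ⟨M, hM, hML⟩ := mem_cocompact.mp (hp (hL.image continuous_fst).compl_mem_cocompact)
  refine mem_cocompact.mpr ⟨M ∩ f ⁻¹' L, hM.inter_right (hL.isClosed.preimage hf), ?_⟩
  intro x hx
  apply hLK
  intro hxL
  apply hx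
  refine ⟨?_, hxL⟩
  by_contra hxM
  exact hML hxM ⟨f x, hxL, rfl⟩

theorem tendsto_fst_of_compact {Y' P' : Type*} [TopologicalSpace Y'] [TopologicalSpace P']
    [CompactSpace P'] : Tendsto (Prod.fst : Y' × P' → Y') (cocompact (Y' × P')) (cocompact Y') := by
  intro K hK
  obtain ⟨L, hL, hLK⟩ := mem_cocompact.mp hK
  refine mem_cocompact.mpr ⟨L ×ˢ Set.univ, hL.prod isCompact_univ, ?_⟩
  intro x hx
  exact hLK fun h => hx ⟨h, Set.mem_univ _⟩

end product

end Vale.Agent.P093.N2.SQ
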