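import Vale.Agent.P093.N2.StarQuot

/-!
# P093, part N2 (block 2B): the orbit spaces `(Y × Z)/G` as functors of `Z`

`G` is a finite group, `Y` a locally compact Hausdorff `G`-space, `Z` a `G`-space.

* `isCompl_orbMap`: complementary equivariant embeddings stay complementary on orbit spaces;
* `cofib_side`, `cofib_sidePt`: equivariant NDR data in `Z` give cofibrations
  `(Y × Z₀)/G ⟶ (Y × Z)/G` and `Y/G ⟶ (Y × Z)/G`;
* `sideTensor`: `(Y × Z × T)/G = (Y × Z)/G × T` if `G` acts trivially on `T`;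
* `isOpenEmbedding_sideFree`, `sideFree`: `(Y × (G × T))/G = Y × T`.
-/

open CategoryTheory MonoidalCategory Filter Topology OnePoint
open Vale.Agent.P251.G Vale.Agent.P251.G.LC

set_option linter.unusedSectionVars false

namespace Vale.Agent.P093.N2.SQ

section compl

variable {G : Type} [Group G] {A B W : Type} [MulAction G A] [MulAction G B] [MulAction G W]

theorem orb_mem_range_orbMap {f : A → W} (hf : ∀ (g : G) (z : A), f (g • z) = g • f z) (w : W) :
    (orb w : Orb G W) ∈ Set.range (orbMap f hf) ↔ w ∈ Set.range f := by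
  constructor
  · rintro ⟨b, hb⟩
    obtain ⟨b, rfl⟩ := orb_surjective b
    obtain ⟨g, hg⟩ := orb_eq_iff.mp hb
    refine ⟨g⁻¹ • b, ?_⟩
    rw [hf, ← hg, inv_smul_smul]
  · rintro ⟨b, rfl⟩
    exact ⟨orb b, rfl⟩

/-- complementary equivariant maps stay complementary -/
theorem isCompl_orbMap {f : A → W} (hf : ∀ (g : G) (z : A), f (g • z) = g • f z) {k : B → W}
    (hk : ∀ (g : G) (z : B), k (g • z) = g • k z) (h : IsCompl (Set.range f) (Set.range k)) :
    IsCompl (Set.range (orbMap f hf)) (Set.range (orbMap k hk)) := by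
  have h1 : ∀ w : W, w ∈ Set.range f ↔ w ∉ Set.range k := by
    intro w
    rw [h.eq_compl]
    rfl
  have h2 : Set.range (orbMap f hf) = (Set.range (orbMap k hk))ᶜ := by
    ext b
    obtain ⟨w, rfl⟩ := orb_surjective b
    rw [Set.mem_compl_iff, orb_mem_range_orbMap, orb_mem_range_orbMap]
    exact h1 w
  rw [h2]
  exact isCompl_compl.symm

theorem isCompl_prodMap {Y Z₀ Z₁ Z : Type*} {a : Z₀ → Z} {b : Z₁ → Z}
    (h : IsCompl (Set.range a) (Set.range b)) :
    IsCompl (Set.range (Prod.map (id : Y → Y) a)) (Set.range (Prod.map (id : Y → Y) b)) := by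
  have h2 : Set.range (Prod.map (id : Y → Y) a) = (Set.range (Prod.map (id : Y → Y) b))ᶜ := by
    ext ⟨y, z⟩
    have h1 : z ∈ Set.range a ↔ z ∉ Set.range b := by
      rw [h.eq_compl]
      rfl
    rw [Set.mem_compl_iff]
    constructor
    · rintro ⟨⟨y', z'⟩, h⟩ ⟨⟨y'', z''⟩, h'⟩
      exact h1.mp ⟨z', congrArg Prod.snd h⟩ ⟨z'', congrArg Prod.snd h'⟩
    · intro h'
      obtain ⟨z', hz'⟩ := h1.mpr fun ⟨z'', hz''⟩ => h' ⟨(y, z''), Prod.ext rfl hz''⟩
      exact ⟨(y, z'), Prod.ext rfl hz'⟩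
  rw [h2]
  exact isCompl_compl.symm

end compl

section side

variable {G : Type} [Group G] [Finite G]
  (Y : Type) [TopologicalSpace Y] [LocallyCompactSpace Y] [T2Space Y] [MulAction G Y]
  [ContinuousConstSMul G Y]
  {Z₀ Z W : Type} [TopologicalSpace Z₀] [LocallyCompactSpace Z₀] [T2Space Z₀] [MulAction G Z₀]
  [ContinuousConstSMul G Z₀]
  [TopologicalSpace Z] [LocallyCompactSpace Z] [T2Space Z] [MulAction G Z]
  [ContinuousConstSMul G Z]
  [TopologicalSpace W] [LocallyCompactSpace W] [T2Space W] [MulAction G W]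
  [ContinuousConstSMul G W]

theorem prodMap_smul {a : Z₀ → Z} (hae : ∀ (g : G) (z : Z₀), a (g • z) = g • a z) (g : G)
    (w : Y × Z₀) : Prod.map (id : Y → Y) a (g • w) = g • Prod.map (id : Y → Y) a w :=
  Prod.ext rfl (hae g w.2)

/-- the map `(Y × Z₀)/G → (Y × Z)/G` -/
def sideMap (a : Z₀ → Z) (hae : ∀ (g : G) (z : Z₀), a (g • z) = g • a z) :
    Orb G (Y × Z₀) → Orb G (Y × Z) :=
  orbMap (Prod.map id a) (prodMap_smul Y hae)

@[simp] theorem sideMap_orb (a : Z₀ → Z) (hae : ∀ (g : G) (z : Z₀), a (g • z) = g • a z) (y : Y)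
    (z : Z₀) : sideMap Y a hae (orb (y, z)) = orb (y, a z) := rfl

theorem continuous_sideMap {a : Z₀ → Z} (hc : Continuous a)
    (hae : ∀ (g : G) (z : Z₀), a (g • z) = g • a z) : Continuous (sideMap Y a hae) :=
  continuous_orbMap (continuous_id.prodMap hc) _

theorem isClosedEmbedding_sideMap {a : Z₀ → Z} (ha : IsClosedEmbedding a)
    (hae : ∀ (g : G) (z : Z₀), a (g • z) = g • a z) : IsClosedEmbedding (sideMap Y a hae) :=
  isClosedEmbedding_orbMap (IsClosedEmbedding.id.prodMap ha) _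

theorem isOpenEmbedding_sideMap {a : Z₀ → Z} (ha : IsOpenEmbedding a)
    (hae : ∀ (g : G) (z : Z₀), a (g • z) = g • a z) : IsOpenEmbedding (sideMap Y a hae) :=
  isOpenEmbedding_orbMap (IsOpenEmbedding.id.prodMap ha) _

theorem isCompl_sideMap {Z₁ : Type} [TopologicalSpace Z₁] [LocallyCompactSpace Z₁] [T2Space Z₁]
    [MulAction G Z₁] [ContinuousConstSMul G Z₁] {a : Z₀ → Z}
    (hae : ∀ (g : G) (z : Z₀), a (g • z) = g • a z) {b : Z₁ → Z}
    (hbe : ∀ (g : G) (z : Z₁), b (g • z) = g • b z)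
    (h : IsCompl (Set.range a) (Set.range b)) :
    IsCompl (Set.range (sideMap Y a hae)) (Set.range (sideMap Y b hbe)) :=
  isCompl_orbMap _ _ (isCompl_prodMap h)

theorem tendsto_side {h : Z × unitInterval → Z}
    (ht : Tendsto h (cocompact (Z × unitInterval)) (cocompact Z)) :
    Tendsto (fun p : (Y × Z) × unitInterval => (p.1.1, h (p.1.2, p.2)))
      (cocompact ((Y × Z) × unitInterval)) (cocompact (Y × Z)) := by
  have h1 : Tendsto (Prod.map (id : Y → Y) h) (cocompact (Y × (Z × unitInterval)))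
      (cocompact (Y × Z)) := by
    rw [← coprod_cocompact (X := Y) (Y := Z × unitInterval), ← coprod_cocompact (X := Y) (Y := Z)]
    exact tendsto_id.prodMap_coprod ht
  have h2 : Tendsto (Homeomorph.prodAssoc Y Z unitInterval) (cocompact ((Y × Z) × unitInterval))
      (cocompact (Y × (Z × unitInterval))) :=
    (Homeomorph.prodAssoc Y Z unitInterval).isClosedEmbedding.tendsto_cocompact
  exact h1.comp h2

/-- equivariant NDR data in `Z` -/
structure GNDR (G : Type) [Group G] {Z₀ Z : Type} [TopologicalSpace Z] [MulAction G Z]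
    (a : Z₀ → Z) where
  /-- the distance function -/
  u : Z → ℝ
  /-- the homotopy -/
  h : Z × unitInterval → Z
  u_cont : Continuous u
  u_nonneg : ∀ z, 0 ≤ u z
  u_smul : ∀ (g : G) z, u (g • z) = u z
  u_eq_zero : ∀ z, u z = 0 ↔ z ∈ Set.range a
  h_cont : Continuous h
  h_proper : Tendsto h (cocompact (Z × unitInterval)) (cocompact Z)
  h_smul : ∀ (g : G) (z : Z) (t : unitInterval), h (g • z, t) = g • h (z, t)
  h_zero : ∀ z, h (z, 0) = z
  h_of_zero : ∀ z t, u z = 0 → h (z, t) = z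
  h_one : ∀ z, u z < 1 → h (z, 1) ∈ Set.range a

variable {Y} in
/-- the data for orbit spaces of products -/
theorem cofib_side {a : Z₀ → Z} (ha : IsClosedEmbedding a)
    (hae : ∀ (g : G) (z : Z₀), a (g • z) = g • a z) (N : GNDR G a) :
    Cofib (ofClosed (X := orbLC G (Y × Z₀)) (Y := orbLC G (Y × Z)) (sideMap Y a hae)
      (isClosedEmbedding_sideMap Y ha hae)) := by
  have hr : ∀ w : Y × Z, w ∈ Set.range (Prod.map (id : Y → Y) a) ↔ w.2 ∈ Set.range a := by
    rintro ⟨y, z⟩
    constructor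
    · rintro ⟨⟨y', z'⟩, h⟩
      exact ⟨z', congrArg Prod.snd h⟩
    · rintro ⟨z', rfl⟩
      exact ⟨(y, z'), rfl⟩
  exact cofib_orb (IsClosedEmbedding.id.prodMap ha) (prodMap_smul Y hae)
    (fun w => N.u w.2) (N.u_cont.comp continuous_snd) (fun w => N.u_nonneg w.2)
    (fun g w => N.u_smul g w.2)
    (fun w => by rw [hr]; exact N.u_eq_zero w.2)
    (fun p => (p.1.1, N.h (p.1.2, p.2)))
    ((continuous_fst.comp continuous_fst).prodMk
      (N.h_cont.comp ((continuous_snd.comp continuous_fst).prodMk continuous_snd)))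
    (tendsto_side Y N.h_proper)
    (fun g w t => Prod.ext rfl (N.h_smul g w.2 t))
    (fun w => Prod.ext rfl (N.h_zero w.2))
    (fun w t hw => Prod.ext rfl (N.h_of_zero w.2 t hw))
    (fun w hw => (hr _).mpr (N.h_one w.2 hw))

section point

theorem isClosedEmbedding_secPt (z₀ : Z) : IsClosedEmbedding (fun y : Y => (y, z₀)) :=
  (Topology.IsClosedEmbedding.of_continuous_injective_isClosedMap
    (continuous_id.prodMk continuous_const) (fun a b h => congrArg Prod.fst h) (by
      intro C hC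
      have : (fun y : Y => (y, z₀)) '' C = C ×ˢ {z₀} := by
        ext ⟨y, z⟩
        constructor
        · rintro ⟨y', hy', h⟩
          rw [Prod.mk.injEq] at h
          exact ⟨h.1 ▸ hy', h.2.symm⟩
        · rintro ⟨hy, rfl⟩
          exact ⟨y, hy, rfl⟩
      rw [this]
      exact hC.prod isClosed_singleton))

/-- the section `Y/G → (Y × Z)/G` given by a fixed point of `Z` -/
def sidePt {z₀ : Z} (hz : ∀ g : G, g • z₀ = z₀) : Orb G Y → Orb G (Y × Z) :=
  orbMap (fun y => (y, z₀)) (fun g _ => Prod.ext rfl (hz g).symm)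

@[simp] theorem sidePt_orb {z₀ : Z} (hz : ∀ g : G, g • z₀ = z₀) (y : Y) :
    sidePt Y hz (orb y) = orb (y, z₀) := rfl

theorem isClosedEmbedding_sidePt {z₀ : Z} (hz : ∀ g : G, g • z₀ = z₀) :
    IsClosedEmbedding (sidePt Y hz) :=
  isClosedEmbedding_orbMap (isClosedEmbedding_secPt Y z₀) _

/-- NDR data at a fixed point give a cofibration `Y/G ⟶ (Y × Z)/G` -/
theorem cofib_sidePt {z₀ : Z} (hz : ∀ g : G, g • z₀ = z₀) (N : GNDR G (fun _ : Unit => z₀)) :
    Cofib (ofClosed (X := orbLC G Y) (Y := orbLC G (Y × Z)) (sidePt Y hz)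
      (isClosedEmbedding_sidePt Y hz)) := by
  have hr : ∀ w : Y × Z, w ∈ Set.range (fun y : Y => (y, z₀)) ↔
      w.2 ∈ Set.range (fun _ : Unit => z₀) := by
    rintro ⟨y, z⟩
    constructor
    · rintro ⟨y', h⟩
      exact ⟨(), congrArg Prod.snd h⟩
    · rintro ⟨-, rfl⟩
      exact ⟨y, rfl⟩
  exact cofib_orb (isClosedEmbedding_secPt Y z₀) (fun g _ => Prod.ext rfl (hz g).symm)
    (fun w => N.u w.2) (N.u_cont.comp continuous_snd) (fun w => N.u_nonneg w.2)
    (fun g w => N.u_smul g w.2)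
    (fun w => by rw [hr]; exact N.u_eq_zero w.2)
    (fun p => (p.1.1, N.h (p.1.2, p.2)))
    ((continuous_fst.comp continuous_fst).prodMk
      (N.h_cont.comp ((continuous_snd.comp continuous_fst).prodMk continuous_snd)))
    (tendsto_side Y N.h_proper)
    (fun g w t => Prod.ext rfl (N.h_smul g w.2 t))
    (fun w => Prod.ext rfl (N.h_zero w.2))
    (fun w t hw => Prod.ext rfl (N.h_of_zero w.2 t hw))
    (fun w hw => (hr _).mpr (N.h_one w.2 hw))

theorem isCompl_sidePt {Z₁ : Type} [TopologicalSpace Z₁] [LocallyCompactSpace Z₁] [T2Space Z₁]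
    [MulAction G Z₁] [ContinuousConstSMul G Z₁] {z₀ : Z} (hz : ∀ g : G, g • z₀ = z₀) {b : Z₁ → Z}
    (hbe : ∀ (g : G) (z : Z₁), b (g • z) = g • b z)
    (h : Set.range b = {z₀}ᶜ) :
    IsCompl (Set.range (sidePt Y hz)) (Set.range (sideMap Y b hbe)) := by
  refine isCompl_orbMap _ _ ?_
  have h2 : Set.range (fun y : Y => (y, z₀)) = (Set.range (Prod.map (id : Y → Y) b))ᶜ := by
    ext ⟨y, z⟩
    rw [Set.mem_compl_iff]
    constructor
    · rintro ⟨y', h'⟩ ⟨⟨y'', z'⟩, h''⟩
      have h3 : z₀ = z := congrArg Prod.snd h'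
      have h4 : b z' = z := congrArg Prod.snd h''
      have h5 : b z' ∈ ({z₀}ᶜ : Set Z) := h ▸ ⟨z', rfl⟩
      exact h5 (h4.trans h3.symm)
    · intro h'
      have h3 : z ∉ Set.range b := fun ⟨z', hz'⟩ => h' ⟨(y, z'), Prod.ext rfl hz'⟩
      rw [h, Set.mem_compl_iff, not_not, Set.mem_singleton_iff] at h3
      exact ⟨y, Prod.ext rfl h3.symm⟩
  rw [h2]
  exact isCompl_compl.symm

end point

section tensor

variable {T : Type} [TopologicalSpace T] [LocallyCompactSpace T] [T2Space T]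

/-- `(Y × Z × T)/G = (Y × Z)/G × T` for a trivial `G`-space `T` -/
def sideTensorHomeo (e : W ≃ₜ Z × T) (he : ∀ (g : G) (w : W), e (g • w) = (g • (e w).1, (e w).2)) :
    Orb G (Y × W) ≃ₜ Orb G (Y × Z) × T where
  toFun := orbLift (fun w : Y × W => ((orb (w.1, (e w.2).1) : Orb G (Y × Z)), (e w.2).2)) (by
    rintro g ⟨y, w⟩
    refine Prod.ext ?_ ?_
    · change orb (g • y, (e (g • w)).1) = orb (y, (e w).1)
      rw [he]
      exact orb_smul g (y, (e w).1)
    · change (e (g • w)).2 = (e w).2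
      rw [he])
  invFun := orbHtpy (fun p : (Y × Z) × T => (p.1.1, e.symm (p.1.2, p.2))) (by
    rintro g ⟨y, z⟩ t
    refine Prod.ext rfl ?_
    change e.symm (g • z, t) = g • e.symm (z, t)
    rw [e.symm_apply_eq, he, e.apply_symm_apply])
  left_inv := by
    intro b
    obtain ⟨⟨y, w⟩, rfl⟩ := orb_surjective b
    change orb (y, e.symm ((e w).1, (e w).2)) = orb (y, w)
    rw [Prod.mk.eta, e.symm_apply_apply]
  right_inv := by
    rintro ⟨b, t⟩
    obtain ⟨⟨y, z⟩, rfl⟩ := orb_surjective b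
    change ((orb (y, (e (e.symm (z, t))).1) : Orb G (Y × Z)), (e (e.symm (z, t))).2) = _
    rw [e.apply_symm_apply]
  continuous_toFun := by
    refine continuous_orbLift ?_ _
    have h2 : Continuous fun w : Y × W => e w.2 := e.continuous.comp continuous_snd
    exact (continuous_orb.comp (continuous_fst.prodMk (continuous_fst.comp h2))).prodMk
      (continuous_snd.comp h2)
  continuous_invFun := by
    refine continuous_orbHtpy ?_ _
    exact (continuous_fst.comp continuous_fst).prodMk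
      (e.symm.continuous.comp ((continuous_snd.comp continuous_fst).prodMk continuous_snd))

/-- `(Y × Z × T)/G ≅ (Y × Z)/G ⊗ T` for a trivial `G`-space `T` -/
def sideTensor (T : LC) (e : W ≃ₜ Z × T)
    (he : ∀ (g : G) (w : W), e (g • w) = (g • (e w).1, (e w).2)) :
    orbLC G (Y × W) ≅ orbLC G (Y × Z) ⊗ T :=
  ofHomeo (X := orbLC G (Y × W)) (Y := LC.of (Orb G (Y × Z) × T)) (sideTensorHomeo Y e he)

end tensor

section free

variable {T : Type} [TopologicalSpace T] [LocallyCompactSpace T] [T2Space T]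

/-- a slice `κ : T → Z` meeting every orbit in at most one point, with trivial stabilisers, gives
an open embedding `Y × T → (Y × Z)/G` -/
theorem isOpenEmbedding_sideFree {κ : T → Z} (hκ : IsOpenEmbedding κ)
    (h : ∀ (g : G) (t t' : T), g • κ t = κ t' → g = 1) :
    IsOpenEmbedding (fun p : Y × T => (orb (p.1, κ p.2) : Orb G (Y × Z))) := by
  refine isOpenEmbedding_orb_comp (Z := Y × Z) (κ := Prod.map (id : Y → Y) κ)
    (IsOpenEmbedding.id.prodMap hκ) ?_
  rintro g ⟨y, t⟩ ⟨y', t'⟩ h'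
  have h1 : g • y = y' := congrArg Prod.fst h'
  have h2 : g • κ t = κ t' := congrArg Prod.snd h'
  obtain rfl := h g t t' h2
  rw [one_smul] at h1 h2
  rw [h1, hκ.injective h2]

/-- the complement of `(Y × Z₀)/G` in `(Y × Z)/G` if every point outside `Z₀` can be moved into
the slice -/
theorem isCompl_sideFree {a : Z₀ → Z} (hae : ∀ (g : G) (z : Z₀), a (g • z) = g • a z) {κ : T → Z}
    (h1 : ∀ t, κ t ∉ Set.range a) (h2 : ∀ z, z ∉ Set.range a → ∃ (g : G) (t : T), g • κ t = z) :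
    IsCompl (Set.range (sideMap Y a hae))
      (Set.range (fun p : Y × T => (orb (p.1, κ p.2) : Orb G (Y × Z)))) := by
  have h3 : Set.range (sideMap Y a hae) =
      (Set.range (fun p : Y × T => (orb (p.1, κ p.2) : Orb G (Y × Z))))ᶜ := by
    ext b
    obtain ⟨⟨y, z⟩, rfl⟩ := orb_surjective b
    have h4 : (orb (y, z) : Orb G (Y × Z)) ∈ Set.range (sideMap Y a hae) ↔ z ∈ Set.range a := by
      unfold sideMap
      rw [orb_mem_range_orbMap]
      constructor
      · rintro ⟨⟨y', z'⟩, h⟩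
        exact ⟨z', congrArg Prod.snd h⟩
      · rintro ⟨z', rfl⟩
        exact ⟨(y, z'), rfl⟩
    rw [h4, Set.mem_compl_iff]
    constructor
    · rintro ⟨z', rfl⟩ ⟨⟨y'', t⟩, h'⟩
      obtain ⟨g, hg⟩ := orb_eq_iff.mp h'
      have h5 : g • a z' = κ t := congrArg Prod.snd hg
      exact h1 t ⟨g • z', by rw [hae, h5]⟩
    · intro h'
      by_contra hz
      obtain ⟨g, t, hg⟩ := h2 z hz
      refine h' ⟨(g⁻¹ • y, t), ?_⟩
      refine orb_eq_iff.mpr ⟨g⁻¹, ?_⟩
      refine Prod.ext rfl ?_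
      change g⁻¹ • z = κ t
      rw [← hg, inv_smul_smul]
  rw [h3]
  exact isCompl_compl.symm

/-- `(Y × Z)/G = Y × T` if `Z = G × T` with `G` acting by translation -/
noncomputable def sideFreeHomeo {κ : T → Z} (hκ : IsOpenEmbedding κ)
    (h : ∀ (g : G) (t t' : T), g • κ t = κ t' → g = 1)
    (h2 : ∀ z, ∃ (g : G) (t : T), g • κ t = z) : Y × T ≃ₜ Orb G (Y × Z) :=
  (isOpenEmbedding_sideFree Y hκ h).toHomeomorphOfSurjective (by
    intro b
    obtain ⟨⟨y, z⟩, rfl⟩ := orb_surjective b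
    obtain ⟨g, t, hg⟩ := h2 z
    refine ⟨(g⁻¹ • y, t), ?_⟩
    refine orb_eq_iff.mpr ⟨g⁻¹, ?_⟩
    refine Prod.ext rfl ?_
    change g⁻¹ • z = κ t
    rw [← hg, inv_smul_smul])

end free

section prodT

variable {T : Type} [TopologicalSpace T] [LocallyCompactSpace T] [T2Space T]

/-- the map `(Y × Z)/G × T → (Y × W)/G` induced by an equivariant map `β : Z × T → W` -/
def sideProd (β : Z × T → W) (hβ : ∀ (g : G) (z : Z) (t : T), β (g • z, t) = g • β (z, t)) :
    Orb G (Y × Z) × T → Orb G (Y × W) :=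
  orbHtpy (fun p : (Y × Z) × T => (p.1.1, β (p.1.2, p.2)))
    (fun g z t => Prod.ext rfl (hβ g z.2 t))

@[simp] theorem sideProd_orb (β : Z × T → W)
    (hβ : ∀ (g : G) (z : Z) (t : T), β (g • z, t) = g • β (z, t)) (y : Y) (z : Z) (t : T) :
    sideProd Y β hβ (orb (y, z), t) = orb (y, β (z, t)) := rfl

/-- an equivariant open embedding `Z × T → W` gives an open embedding
`(Y × Z)/G × T → (Y × W)/G` -/
theorem isOpenEmbedding_sideProd {β : Z × T → W} (hb : IsOpenEmbedding β)
    (hβ : ∀ (g : G) (z : Z) (t : T), β (g • z, t) = g • β (z, t)) :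
    IsOpenEmbedding (sideProd Y β hβ) := by
  have h1 : IsOpenEmbedding (fun p : (Y × Z) × T => (p.1.1, β (p.1.2, p.2))) :=
    (IsOpenEmbedding.id.prodMap hb).comp (Homeomorph.prodAssoc Y Z T).isOpenEmbedding
  refine IsOpenEmbedding.of_continuous_injective_isOpenMap
    (continuous_orbHtpy h1.continuous _) ?_ ?_
  · rintro ⟨a, t⟩ ⟨b, t'⟩ hab
    obtain ⟨⟨y, z⟩, rfl⟩ := orb_surjective a
    obtain ⟨⟨y', z'⟩, rfl⟩ := orb_surjective b
    obtain ⟨g, hg⟩ := orb_eq_iff.mp hab
    have h2 : g • y' = y := congrArg Prod.fst hg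
    have h3 : g • β (z', t') = β (z, t) := congrArg Prod.snd hg
    rw [← hβ] at h3
    have h4 := hb.injective h3
    rw [Prod.mk.injEq] at h4
    refine Prod.ext ?_ h4.2.symm
    exact orb_eq_iff.mpr ⟨g, Prod.ext h2 h4.1⟩
  · have hq : IsOpenQuotientMap (Prod.map (orb : Y × Z → Orb G (Y × Z)) (id : T → T)) :=
      isOpenQuotientMap_orb.prodMap IsOpenQuotientMap.id
    rw [hq.isOpenMap_iff]
    exact isOpenQuotientMap_orb.isOpenMap.comp h1.isOpenMap

/-- the complement of the section given by a fixed point -/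
theorem isCompl_sideProd {β : Z × T → W}
    (hβ : ∀ (g : G) (z : Z) (t : T), β (g • z, t) = g • β (z, t)) {w₀ : W}
    (hw : ∀ g : G, g • w₀ = w₀) (h : Set.range β = {w₀}ᶜ) :
    IsCompl (Set.range (sidePt Y hw)) (Set.range (sideProd Y β hβ)) := by
  have h2 : Set.range (sidePt Y hw) = (Set.range (sideProd Y β hβ))ᶜ := by
    ext b
    obtain ⟨⟨y, w⟩, rfl⟩ := orb_surjective b
    rw [Set.mem_compl_iff]
    constructor
    · rintro ⟨b', h'⟩ ⟨⟨b'', t⟩, h''⟩
      obtain ⟨y', rfl⟩ := orb_surjective b'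
      obtain ⟨⟨y'', z⟩, rfl⟩ := orb_surjective b''
      obtain ⟨g, hg⟩ := orb_eq_iff.mp (h'.trans h''.symm)
      have h3 : g • β (z, t) = w₀ := congrArg Prod.snd hg
      have h4 : β (g • z, t) ∈ ({w₀}ᶜ : Set W) := h ▸ ⟨_, rfl⟩
      rw [← hβ] at h3
      exact h4 h3
    · intro h'
      by_contra h3
      have hw' : w ≠ w₀ := by
        rintro rfl
        exact h3 ⟨orb y, rfl⟩
      have h4 : w ∈ Set.range β := by
        rw [h]
        exact hw'
      obtain ⟨⟨z, t⟩, rfl⟩ := h4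
      exact h' ⟨(orb (y, z), t), rfl⟩
  rw [h2]
  exact isCompl_compl.symm

end prodT

end side

end Vale.Agent.P093.N2.SQ
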