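import Vale.Agent.P093.N2.StrataE
import Vale.Agent.P093.N2.HC

/-!
# P093, part N2: `HC` of the filtration of `RZ G X Z`
-/

open CategoryTheory MonoidalCategory Filter Topology OnePoint

set_option linter.unusedSectionVars false

namespace Vale.Agent.P093.N2

open Vale.Agent.P251.G Vale.Agent.P251.G.LC

variable {G : Type} [Group G] [Fintype G] [DecidableEq G] {X : LC} {S : Set X} {Z : Type}
  [TopologicalSpace Z] [T2Space Z] [LocallyCompactSpace Z] [MulAction G Z]
  [ContinuousConstSMul G Z] {a b c d e : ℕ} {m n z r s : ℤ}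

/-- `HC` of the closed subset `FD S D`. -/
def HCF (G Z : Type) [Group G] [Fintype G] [DecidableEq G]
    [TopologicalSpace Z] [T2Space Z] [LocallyCompactSpace Z] [MulAction G Z]
    [ContinuousConstSMul G Z] (N : NDR X S) (c e : ℕ) (D : Finset (Finset G)) (r : ℤ) : Prop :=
  ∃ hD : SFam D, HC c e (sub (Y := RZ G X Z) (N.isClosed_FD (Z := Z) hD)) r

/-- the first stratum -/
theorem HCF.bot (N : NDR X S) (h : HC c e (RZ G (sub N.isClosed) Z) r) :
    HCF G Z N c e {∅} r :=
  ⟨fam_bot, h.of_iso (isoSub (X := RZ G X Z) _ (homeoBot G Z N.isClosed))⟩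

/-- the last stratum -/
theorem HCF.top (N : NDR X S)
    (h : HCF G Z N c e ((Finset.univ : Finset (Finset G)).erase Finset.univ) r)
    (h' : HC c e (RZ G (opn N.isClosed.isOpen_compl) Z) s) : HC c e (RZ G X Z) (r + s) := by
  obtain ⟨hD, h⟩ := h
  exact HC.ext (N.fd' (Z := Z) hD) h
    (h'.of_iso (isoOpn (X := RZ G X Z) _ (homeoTop G Z N.isClosed)))

/-- the strata -/
theorem HC.str (N : NDR X S) (hA : HC a b (sub N.isClosed) m)
    (hU : HC a b (opn N.isClosed.isOpen_compl) n) (hZ : HC c d (LC.of Z) z) (W : Finset G)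
    (hce : Fintype.card G * b + d ≤ e) :
    HC c e ((powObj {g // g ∈ W} (opn N.isClosed.isOpen_compl) ⊗
      powObj {g // ¬ g ∈ W} (sub N.isClosed)) ⊗ LC.of Z)
      (z * (m ^ (Fintype.card G - W.card) * n ^ W.card)) := by
  have h1 : Nat.card {j // ¬ j ∈ W} = Fintype.card G - W.card := by
    rw [Nat.card_eq_fintype_card, Fintype.card_subtype_compl, Fintype.card_coe]
  have h2 : Nat.card {j // j ∈ W} = W.card := by
    rw [Nat.card_eq_fintype_card, Fintype.card_coe]
  have h3 : W.card + (Fintype.card G - W.card) = Fintype.card G :=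
    Nat.add_sub_cancel' (Finset.card_le_univ W)
  have hA' := hA.pow {j // ¬ j ∈ W}
  have hU' := hU.pow {j // j ∈ W}
  rw [h1] at hA'
  rw [h2] at hU'
  refine (((hU'.tensor hA').tensor hZ).mono (Nat.le_add_left _ _) ?_).cast (by ring)
  rw [← add_mul, h3]
  exact hce

/-- a closed subspace of a closed subspace -/
def homeoSubSub {Y : LC} {T T' : Set Y} (hT : IsClosed T) (hT' : IsClosed T') (h : T ⊆ T') :
    sub hT ≃ₜ {y : sub hT' | y.1 ∈ T} where
  toFun := fun y => ⟨⟨y.1, h y.2⟩, y.2⟩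
  invFun := fun y => ⟨y.1.1, y.2⟩
  left_inv := fun y => rfl
  right_inv := fun y => rfl
  continuous_toFun := by
    have h1 : Continuous (fun y : sub hT => (⟨y.1, h y.2⟩ : sub hT')) :=
      Continuous.subtype_mk continuous_subtype_val _
    exact h1.subtype_mk _
  continuous_invFun := by
    have h1 : Continuous (fun y : {y : sub hT' | y.1 ∈ T} => (y.1 : sub hT')) :=
      continuous_subtype_val
    have h2 : Continuous (fun y : sub hT' => (y.1 : Y)) := continuous_subtype_val
    exact (h2.comp h1).subtype_mk _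

/-- one step of the filtration -/
theorem HCF.step (N : NDR X S) (hA : HC a b (sub N.isClosed) m)
    (hU : HC a b (opn N.isClosed.isOpen_compl) n) (hZ : HC c d (LC.of Z) z)
    (hce : Fintype.card G * b + d ≤ e) {D D' : Finset (Finset G)} {W : Finset G}
    (h : FamStep D D' W) (hr : HCF G Z N c e D r) :
    HCF G Z N c e D' (r + z * (m ^ (Fintype.card G - W.card) * n ^ W.card)) := by
  obtain ⟨hD, hr⟩ := hr
  refine ⟨h.fam', ?_⟩
  let eA : sub (Y := RZ G X Z) (N.isClosed_FD (Z := Z) hD) ≃ₜ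
      {y : sub (Y := RZ G X Z) (N.isClosed_FD (Z := Z) h.fam') | y.1 ∈ FD G Z S D} :=
    homeoSubSub (Y := RZ G X Z) _ _ (by
      rintro _ ⟨p, hp, hp'⟩
      exact ⟨p, hp, h.sub hp'⟩)
  let eU : ((powObj {g // g ∈ W} (opn N.isClosed.isOpen_compl) ⊗
      powObj {g // ¬ g ∈ W} (sub N.isClosed)) ⊗ LC.of Z : LC) ≃ₜ
      ({y : sub (Y := RZ G X Z) (N.isClosed_FD (Z := Z) h.fam') | y.1 ∈ FD G Z S D}ᶜ :
        Set (sub (Y := RZ G X Z) (N.isClosed_FD (Z := Z) h.fam'))) :=
    (isOpenEmbedding_str (Z := Z) N.isClosed h).isEmbedding.toHomeomorph.trans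
      (Homeomorph.setCongr (range_str h))
  exact HC.of_pieces (N.fd (Z := Z) hD h.fam') eA eU hr (HC.str N hA hU hZ W hce)

end Vale.Agent.P093.N2
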