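import Vale.Agent.P093.N2.StrataU
import Vale.Agent.P093.N2.QuotMap
import Vale.Agent.P093.N2.OrbTop
import Mathlib.Topology.Homeomorph.Lemmas

/-!
# P093, part N2: the filtration of `RZ G X Z`

* `FD S D`: the closed subset of `RZ G X Z` of all `orb (x, s, z)` with `nonS S x ∈ D`;
* `NDR.fd`: `FD S D ⊆ FD S D'` is a neighbourhood deformation retract;
* `strMap`, `isOpenEmbedding_strMap`: the free stratum `(C^W × A^(W^c)) × Z`;
* `RT.inc`: the inclusion `RT G X' Z → RT G X Z` given by an embedding `X' → X`.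
-/

open CategoryTheory MonoidalCategory Filter Topology OnePoint

set_option linter.unusedSectionVars false

namespace Vale.Agent.P093.N2

open Vale.Agent.P251.G Vale.Agent.P251.G.LC

section filtration

variable {G : Type} [Group G] [Fintype G] [DecidableEq G] {X : LC} {S : Set X} {Z : Type}
  [TopologicalSpace Z] [T2Space Z] [LocallyCompactSpace Z] [MulAction G Z]
  [ContinuousConstSMul G Z]

/-- the distance function on the orbit space -/
noncomputable def NDR.uR (N : NDR X S) {D : Finset (Finset G)} (hD : SFam D) :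
    RT G X Z → unitInterval :=
  Quotient.lift (fun p : UT G X × Z => N.uT D p.1.x) (by
    rintro _ b ⟨g, rfl⟩
    exact N.uT_mul hD b.1.x g)

omit [T2Space Z] [LocallyCompactSpace Z] [ContinuousConstSMul G Z] in
@[simp] theorem NDR.uR_orb (N : NDR X S) {D : Finset (Finset G)} (hD : SFam D)
    (p : UT G X × Z) : N.uR hD (orb p) = N.uT D p.1.x := rfl

omit [T2Space Z] [LocallyCompactSpace Z] [ContinuousConstSMul G Z] in
theorem NDR.continuous_uR (N : NDR X S) {D : Finset (Finset G)} (hD : SFam D) :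
    Continuous (N.uR (Z := Z) hD) :=
  continuous_quot_lift _ ((N.continuous_uT D).comp (UT.continuous_x.comp continuous_fst))

variable (G Z) in
/-- the closed subset of all `orb (x, s, z)` with `nonS S x ∈ D` -/
def FD (S : Set X) (D : Finset (Finset G)) : Set (RT G X Z) :=
  {y | ∃ p : UT G X × Z, orb p = y ∧ nonS S p.1.x ∈ D}

omit [T2Space Z] [LocallyCompactSpace Z] [ContinuousConstSMul G Z] in
theorem orb_mem_FD {D : Finset (Finset G)} (hD : SFam D) (p : UT G X × Z) :
    (orb p : RT G X Z) ∈ FD G Z S D ↔ nonS S p.1.x ∈ D := by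
  constructor
  · rintro ⟨q, hq, h⟩
    obtain ⟨g, rfl⟩ := orb_eq_iff.mp hq
    have h1 : nonS S (g • q).1.x = trs g (nonS S q.1.x) := nonS_mul (S := S) (x := q.1.x) g
    rw [h1]
    exact hD.trs g h
  · intro h
    exact ⟨p, rfl, h⟩

omit [T2Space Z] [LocallyCompactSpace Z] [ContinuousConstSMul G Z] in
theorem NDR.fd_eq (N : NDR X S) {D : Finset (Finset G)} (hD : SFam D) :
    {y | N.uR (Z := Z) hD y = 0} = FD G Z S D := by
  ext y
  obtain ⟨p, rfl⟩ := orb_surjective y
  rw [orb_mem_FD hD, Set.mem_ofPred_eq, N.uR_orb, N.uT_eq_zero]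
  exact ⟨fun ⟨W, hW, h⟩ => hD.down hW h, fun h => ⟨_, h, le_rfl⟩⟩

omit [T2Space Z] [LocallyCompactSpace Z] [ContinuousConstSMul G Z] in
theorem NDR.isClosed_FD (N : NDR X S) {D : Finset (Finset G)} (hD : SFam D) :
    IsClosed (FD G Z S D) := by
  rw [← N.fd_eq hD]
  exact isClosed_singleton.preimage (N.continuous_uR hD)

/-- the homotopy -/
noncomputable def NDR.K (G Z : Type) [Group G] [Fintype G] [TopologicalSpace Z] [T2Space Z]
    [LocallyCompactSpace Z] [MulAction G Z] [ContinuousConstSMul G Z] (N : NDR X S) :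
    RZ G X Z ⊗ II ⟶ RZ G X Z := RZ.htpy G Z N.h

theorem NDR.K_zero (N : NDR X S) (y : RZ G X Z) :
    app (N.K G Z) (smash (y : OnePoint (RZ G X Z)) ((0 : unitInterval) : OnePoint unitInterval)) =
      y := by
  obtain ⟨⟨w, z⟩, rfl⟩ := orb_surjective (G := G) y
  exact RZ.app_htpy_coe N.h w z 0 w.x (fun g => N.h_zero _) w.cond

/-- the homotopy does not create coordinates outside `S` -/
theorem NDR.K_mem (N : NDR X S) {D : Finset (Finset G)} (hD : SFam D) (p : UT G X × Z)
    (t : unitInterval) (W : Finset G) (hW : W ∈ D)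
    (h : ∀ g, g ∉ W → app N.h (smash (p.1.x g : OnePoint X) (t : OnePoint unitInterval)) ∈
      ptd S) :
    app (N.K G Z) (smash ((orb p : RT G X Z) : OnePoint (RT G X Z))
      (t : OnePoint unitInterval)) ∈ ptd (FD G Z S D) := by
  obtain ⟨w, z⟩ := p
  rcases htpy_cases N.h w t with ⟨g, hg⟩ | ⟨y, hy, hc⟩
  · have h1 := RZ.app_htpy_infty (Z := Z) N.h w z t g hg
    unfold NDR.K
    rw [h1]
    exact infty_mem_ptd _
  · have h1 := RZ.app_htpy_coe N.h w z t y hy hc
    unfold NDR.K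
    rw [h1, coe_mem_ptd, orb_mem_FD hD]
    refine hD.down hW (nonS_subset.mpr fun g hg => ?_)
    have h2 := h g hg
    change app N.h (smash (w.x g : OnePoint X) (t : OnePoint unitInterval)) ∈ ptd S at h2
    rw [hy g, coe_mem_ptd] at h2
    exact h2

theorem NDR.K_FD (N : NDR X S) {D : Finset (Finset G)} (hD : SFam D) :
    ∀ y ∈ FD G Z S D, ∀ t : unitInterval,
      app (N.K G Z) (smash (y : OnePoint (RT G X Z)) (t : OnePoint unitInterval)) ∈
        ptd (FD G Z S D) := by
  intro y hy t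
  obtain ⟨p, rfl⟩ := orb_surjective y
  refine N.K_mem hD p t (nonS S p.1.x) ((orb_mem_FD hD p).mp hy) fun g hg => ?_
  rw [mem_nonS, not_not] at hg
  rw [N.h_mem _ hg]
  exact coe_mem_ptd.mpr hg

theorem NDR.K_lt (N : NDR X S) {D : Finset (Finset G)} (hD : SFam D) (y : RT G X Z)
    (t : unitInterval) (h : N.uR hD y < t) :
    app (N.K G Z) (smash (y : OnePoint (RT G X Z)) (t : OnePoint unitInterval)) ∈
        ptd (FD G Z S D) := by
  obtain ⟨p, rfl⟩ := orb_surjective y
  obtain ⟨W, hW, h1⟩ := N.uT_lt D p.1.x h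
  exact N.K_mem hD p t W hW fun g hg => N.h_lt _ _ (h1 g hg)

/-- The filtration: `FD S D ⊆ FD S D'`. -/
noncomputable def NDR.fd (N : NDR X S) {D D' : Finset (Finset G)} (hD : SFam D) (hD' : SFam D') :
    NDR (sub (Y := RZ G X Z) (N.isClosed_FD hD')) {y | y.1 ∈ FD G Z S D} :=
  (N.fd_eq (Z := Z) hD) ▸ NDR.ofHtpy (Y := RZ G X Z) (N.isClosed_FD hD') (N.K G Z)
    (N.uR hD) (N.continuous_uR hD) N.K_zero (N.K_FD hD')
    (fun y _ t ht => (N.fd_eq (Z := Z) hD).symm ▸ N.K_lt hD y t ht)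

/-- The filtration: `FD S D` in the whole space. -/
noncomputable def NDR.fd' (N : NDR X S) {D : Finset (Finset G)} (hD : SFam D) :
    NDR (RZ G X Z) (FD G Z S D) :=
  (N.fd_eq (Z := Z) hD) ▸ NDR.ofHtpy' (Y := RZ G X Z) (N.K G Z)
    (N.uR hD) (N.continuous_uR hD) N.K_zero
    (fun y t ht => (N.fd_eq (Z := Z) hD).symm ▸ N.K_lt hD y t ht)

end filtration

end Vale.Agent.P093.N2
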