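import Vale.Agent.P093.N2.StrataR
import Mathlib.Topology.Homeomorph.Lemmas

/-!
# P093, part N2: the strata of the filtration of `RZ G X Z`

* `strMap`, `isOpenEmbedding_strMap`: the free stratum `(C^W × A^(W^c)) × Z`;
* `RT.inc`: the inclusion `RT G X' Z → RT G X Z` given by an embedding `X' → X`.
-/

open CategoryTheory MonoidalCategory Filter Topology OnePoint

set_option linter.unusedSectionVars false

namespace Vale.Agent.P093.N2

open Vale.Agent.P251.G Vale.Agent.P251.G.LC

section free

variable {G : Type} [Group G] [Fintype G] [DecidableEq G] {X : LC} {S : Set X} {Z : Type}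
  [TopologicalSpace Z] [T2Space Z] [LocallyCompactSpace Z] [MulAction G Z]
  [ContinuousConstSMul G Z]

/-- the stratum of tuples with `nonS S x = W` -/
abbrev Str (S : Set X) (W : Finset G) : Type :=
  ({g // g ∈ W} → (Sᶜ : Set X)) × ({g // ¬ g ∈ W} → S)

/-- the tuple of a point of the stratum -/
def strGlue (S : Set X) (W : Finset G) (y : Str S W) (g : G) : X :=
  if h : g ∈ W then (y.1 ⟨g, h⟩ : X) else (y.2 ⟨g, h⟩ : X)

theorem strGlue_of_mem {W : Finset G} (y : Str S W) {g : G} (h : g ∈ W) :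
    strGlue S W y g = y.1 ⟨g, h⟩ := by
  unfold strGlue
  rw [dif_pos h]

theorem strGlue_of_notMem {W : Finset G} (y : Str S W) {g : G} (h : g ∉ W) :
    strGlue S W y g = y.2 ⟨g, h⟩ := by
  unfold strGlue
  rw [dif_neg h]

theorem isEmbedding_strGlue (W : Finset G) : IsEmbedding (strGlue S W) := by
  have h : strGlue S W = (Homeomorph.piEquivPiSubtypeProd (fun g => g ∈ W)
      (fun _ : G => (X : Type))).symm ∘ Prod.map
        (Pi.map fun _ => (Subtype.val : (Sᶜ : Set X) → X)) (Pi.map fun _ => (Subtype.val : S → X)) :=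
    rfl
  rw [h]
  exact (Homeomorph.isEmbedding _).comp ((IsEmbedding.piMap fun _ => IsEmbedding.subtypeVal).prodMap
    (IsEmbedding.piMap fun _ => IsEmbedding.subtypeVal))

@[simp] theorem nonS_strGlue (W : Finset G) (y : Str S W) : nonS S (strGlue S W y) = W := by
  ext g
  rw [mem_nonS]
  by_cases h : g ∈ W
  · rw [strGlue_of_mem y h]
    exact ⟨fun _ => h, fun _ => (y.1 ⟨g, h⟩).2⟩
  · rw [strGlue_of_notMem y h]
    exact ⟨fun h1 => absurd (y.2 ⟨g, h⟩).2 h1, fun h1 => absurd h1 h⟩

theorem exists_strGlue {W : Finset G} {x : G → X} (h : nonS S x = W) :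
    ∃ y, strGlue S W y = x := by
  have h1 : ∀ g, g ∈ W → x g ∈ Sᶜ := fun g hg => mem_nonS.mp (h ▸ hg)
  have h2 : ∀ g, ¬ g ∈ W → x g ∈ S := by
    intro g hg
    by_contra hx
    exact hg (h ▸ mem_nonS.mpr hx)
  refine ⟨(fun g => ⟨x g.1, h1 g.1 g.2⟩, fun g => ⟨x g.1, h2 g.1 g.2⟩), ?_⟩
  funext g
  by_cases hg : g ∈ W
  · rw [strGlue_of_mem _ hg]
  · rw [strGlue_of_notMem _ hg]

/-- the stratum in `UT G X × Z` -/
def strMap (S : Set X) (W : Finset G) (q : Str S W × Z) : UT G X × Z :=
  (UT.mk (strGlue S W q.1) 0 (Or.inl rfl), q.2)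

theorem continuous_strMap (W : Finset G) : Continuous (strMap (Z := Z) S W) :=
  (UT.continuous_mk ((isEmbedding_strGlue W).continuous.comp continuous_fst) continuous_const
    _).prodMk continuous_snd

theorem isEmbedding_strMap (W : Finset G) : IsEmbedding (strMap (Z := Z) S W) := by
  refine IsEmbedding.of_comp (continuous_strMap W)
    (g := fun p : UT G X × Z => (p.1.x, p.2))
    ((UT.continuous_x.comp continuous_fst).prodMk continuous_snd) ?_
  exact (isEmbedding_strGlue W).prodMap IsEmbedding.id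

/-- constant tuples -/
theorem nonS_const {x : G → X} (h : ∀ g k, x g = x k) :
    nonS S x = ∅ ∨ nonS S x = Finset.univ := by
  by_cases h1 : x 1 ∈ S
  · left
    ext g
    simp only [mem_nonS, Finset.notMem_empty, iff_false, not_not]
    rw [h g 1]
    exact h1
  · right
    ext g
    simp only [mem_nonS, Finset.mem_univ, iff_true]
    rw [h g 1]
    exact h1

theorem mem_range_strMap {W : Finset G} (h0 : W ≠ ∅) (h1 : W ≠ Finset.univ)
    (p : UT G X × Z) : p ∈ Set.range (strMap (Z := Z) S W) ↔ nonS S p.1.x = W := by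
  constructor
  · rintro ⟨q, rfl⟩
    exact nonS_strGlue W q.1
  · intro h
    obtain ⟨y, hy⟩ := exists_strGlue h
    refine ⟨(y, p.2), ?_⟩
    have hs : p.1.s = 0 := by
      rcases p.1.cond with hs | hc
      · exact hs
      · rcases nonS_const (S := S) hc with h2 | h2
        · exact absurd (h.symm.trans h2) h0
        · exact absurd (h.symm.trans h2) h1
    exact Prod.ext (UT.ext hy hs.symm) rfl

theorem orb_strMap_injective {W : Finset G} (hW : ∀ g, trs g W = W → g = 1) :
    Function.Injective (fun q : Str S W × Z => (orb (strMap S W q) : RT G X Z)) := by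
  intro a b hab
  obtain ⟨g, hg⟩ := orb_eq_iff.mp hab
  have h1 : nonS S (g • strMap S W a).1.x = nonS S (strMap S W b).1.x := by rw [hg]
  have h2 : nonS S (g • strMap S W a).1.x = trs g (nonS S (strMap S W a).1.x) :=
    nonS_mul (S := S) (x := (strMap S W a).1.x) g
  have h3 : nonS S (strMap S W a).1.x = W := nonS_strGlue W a.1
  have h4 : nonS S (strMap S W b).1.x = W := nonS_strGlue W b.1
  rw [h2, h3, h4] at h1
  have h5 := hW g h1
  subst h5
  rw [one_smul] at hg
  exact (isEmbedding_strMap W).injective hg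

/-- The data of one step of the filtration: `D' = D ∪ orbit of W`, the orbit of `W` is free. -/
structure FamStep (D D' : Finset (Finset G)) (W : Finset G) : Prop where
  fam : SFam D
  fam' : SFam D'
  notMem : W ∉ D
  mem : W ∈ D'
  sub : D ⊆ D'
  cases : ∀ V ∈ D', V ∈ D ∨ ∃ g, V = trs g W
  ne_empty : W ≠ ∅
  ne_univ : W ≠ Finset.univ
  free : ∀ g, trs g W = W → g = 1

theorem FamStep.eq_of_subset {D D' : Finset (Finset G)} {W V : Finset G} (h : FamStep D D' W)
    (hV : V ∈ D') (hWV : W ⊆ V) : V = W := by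
  rcases h.cases V hV with h1 | ⟨g, rfl⟩
  · exact absurd (h.fam.down h1 hWV) h.notMem
  · exact (Finset.eq_of_subset_of_card_le hWV (card_tr' g W).le).symm

theorem strMap_mem_FD {D D' : Finset (Finset G)} {W : Finset G} (h : FamStep D D' W)
    (q : Str S W × Z) : (orb (strMap S W q) : RT G X Z) ∈ FD G Z S D' := by
  rw [orb_mem_FD h.fam']
  have h3 : nonS S (strMap S W q).1.x = W := nonS_strGlue W q.1
  rw [h3]
  exact h.mem

theorem isOpenEmbedding_str (hS : IsClosed S) {D D' : Finset (Finset G)} {W : Finset G}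
    (h : FamStep D D' W) :
    IsOpenEmbedding (fun q : Str S W × Z =>
      (⟨orb (strMap S W q), strMap_mem_FD h q⟩ : FD G Z S D')) := by
  refine isOpenEmbedding_free isOpenQuotientMap_orb.isOpenMap continuous_orb
    (isEmbedding_strMap W) (orb_strMap_injective h.free) (strMap_mem_FD h)
    {p : UT G X × Z | ∀ g ∈ W, p.1.x g ∉ S} ?_ ?_
  · have h1 : {p : UT G X × Z | ∀ g ∈ W, p.1.x g ∉ S} =
        ⋂ g ∈ W, {p : UT G X × Z | p.1.x g ∉ S} := by
      ext p
      simp only [Set.mem_iInter]
      rfl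
    rw [h1]
    refine isOpen_biInter_finset fun g _ => ?_
    exact hS.isOpen_compl.preimage
      ((continuous_apply g).comp (UT.continuous_x.comp continuous_fst))
  · ext p
    rw [mem_range_strMap h.ne_empty h.ne_univ]
    constructor
    · intro hp
      refine ⟨fun g hg => mem_nonS.mp (hp ▸ hg), ?_⟩
      change (orb p : RT G X Z) ∈ FD G Z S D'
      rw [orb_mem_FD h.fam', hp]
      exact h.mem
    · rintro ⟨h1, h2⟩
      have h3 : (orb p : RT G X Z) ∈ FD G Z S D' := h2
      rw [orb_mem_FD h.fam'] at h3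
      exact h.eq_of_subset h3 fun g hg => mem_nonS.mpr (h1 g hg)

theorem range_str {D D' : Finset (Finset G)} {W : Finset G}
    (h : FamStep D D' W) :
    Set.range (fun q : Str S W × Z =>
      (⟨orb (strMap S W q), strMap_mem_FD h q⟩ : FD G Z S D')) =
      {y : FD G Z S D' | y.1 ∈ FD G Z S D}ᶜ := by
  ext ⟨y, hy⟩
  obtain ⟨p, rfl⟩ := orb_surjective y
  constructor
  · rintro ⟨q, hq⟩ h1
    have h2 : (orb (strMap S W q) : RT G X Z) = orb p := congrArg Subtype.val hq
    have h3 : (orb p : RT G X Z) ∈ FD G Z S D := h1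
    rw [← h2, orb_mem_FD h.fam] at h3
    have h4 : nonS S (strMap S W q).1.x = W := nonS_strGlue W q.1
    rw [h4] at h3
    exact h.notMem h3
  · intro h1
    have h2 : (orb p : RT G X Z) ∉ FD G Z S D := h1
    rw [orb_mem_FD h.fam] at h2
    have h3 := (orb_mem_FD h.fam' p).mp hy
    rcases h.cases _ h3 with h4 | ⟨g, h4⟩
    · exact absurd h4 h2
    · have h5 : nonS S (g⁻¹ • p).1.x = W := by
        have h6 : nonS S (g⁻¹ • p).1.x = trs g⁻¹ (nonS S p.1.x) :=
          nonS_mul (S := S) (x := p.1.x) g⁻¹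
        rw [h6, h4]
        ext k
        rw [mem_tr, mem_tr, inv_mul_cancel_right]
      obtain ⟨q, hq⟩ := (mem_range_strMap (Z := Z) h.ne_empty h.ne_univ (g⁻¹ • p)).mpr h5
      refine ⟨q, Subtype.ext ?_⟩
      change (orb (strMap S W q) : RT G X Z) = orb p
      rw [hq, orb_smul]

end free

end Vale.Agent.P093.N2
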