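import Vale.Agent.P093.N2.Strata0
import Vale.Agent.P093.N2.OrbitTr
import Mathlib.Topology.Order.Lattice

/-!
# P093, part N2: the filtration of `UT G X × Z` by the set of coordinates outside `S`

`X` an object of `LC`, `N : NDR X S`.  For `x : G → X` let `nonS x = {g | x g ∉ S}`; a family `D` of
subsets of `G` which is closed under subsets and translations defines the closed subset
`FD D = {orb (x, s, z) | nonS x ∈ D}` of `RZ G X Z`, the zero set of `uR D`.
-/

open CategoryTheory MonoidalCategory Filter Topology OnePoint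

namespace Vale.Agent.P093.N2

open Vale.Agent.P251.G Vale.Agent.P251.G.LC

section families

variable {G : Type} [Group G] [Fintype G] [DecidableEq G]

/-- a family of subsets closed under subsets and translations -/
structure SFam (D : Finset (Finset G)) : Prop where
  down : ∀ ⦃V W : Finset G⦄, W ∈ D → V ⊆ W → V ∈ D
  trs : ∀ ⦃W : Finset G⦄ (g : G), W ∈ D → trs g W ∈ D

theorem Fam.toSFam {D : Finset (Finset G)} (h : Fam D) : SFam D where
  down _ W hW hV := h.down W hW _ hV
  trs W g hW := h.trs W hW g

end families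

section nonS

variable {G : Type} [Fintype G] {X : Type}

open scoped Classical in
/-- the coordinates outside `S` -/
noncomputable def nonS (S : Set X) (x : G → X) : Finset G := Finset.univ.filter (fun g => x g ∉ S)

@[simp] theorem mem_nonS {S : Set X} {x : G → X} {g : G} : g ∈ nonS S x ↔ x g ∉ S := by
  simp [nonS]

theorem nonS_subset {S : Set X} {x : G → X} {W : Finset G} :
    nonS S x ⊆ W ↔ ∀ g, g ∉ W → x g ∈ S := by
  constructor
  · intro h g hg
    by_contra hx
    exact hg (h (mem_nonS.mpr hx))
  · intro h g hg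
    by_contra hW
    exact mem_nonS.mp hg (h g hW)

theorem nonS_mul [Group G] [DecidableEq G] {S : Set X} {x : G → X} (g : G) :
    nonS S (fun h => x (h * g)) = trs g (nonS S x) := by
  ext h
  simp

theorem nonS_mono {S : Set X} {x y : G → X} (h : ∀ g, x g ∈ S → y g ∈ S) :
    nonS S y ⊆ nonS S x := by
  intro g hg
  rw [mem_nonS] at hg ⊢
  exact fun hx => hg (h g hx)

end nonS

section uT

variable {G : Type} [Fintype G] [DecidableEq G] {X : LC} {S : Set X}

/-- the distance function of the filtration, on tuples -/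
noncomputable def NDR.uT (N : NDR X S) (D : Finset (Finset G)) (x : G → X) : unitInterval :=
  D.inf fun W => (Wᶜ).sup fun g => N.u (x g)

theorem NDR.continuous_uT (N : NDR X S) (D : Finset (Finset G)) : Continuous (N.uT D) := by
  unfold NDR.uT
  refine Continuous.finset_inf_apply fun W _ => ?_
  refine Continuous.finset_sup_apply fun g _ => ?_
  exact N.u_cont.comp (continuous_apply g)

theorem NDR.uT_lt (N : NDR X S) (D : Finset (Finset G)) (x : G → X) {t : unitInterval}
    (h : N.uT D x < t) : ∃ W ∈ D, ∀ g, g ∉ W → N.u (x g) < t := by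
  unfold NDR.uT at h
  obtain ⟨W, hW, h1⟩ := Finset.inf_lt_iff.mp h
  refine ⟨W, hW, fun g hg => ?_⟩
  have ht : (⊥ : unitInterval) < t := lt_of_le_of_lt bot_le h
  exact (Finset.sup_lt_iff ht).mp h1 g (Finset.mem_compl.mpr hg)

theorem NDR.uT_eq_zero (N : NDR X S) (D : Finset (Finset G)) (x : G → X) :
    N.uT D x = 0 ↔ ∃ W ∈ D, nonS S x ⊆ W := by
  have h0 : N.uT D x = 0 ↔ N.uT D x ≤ 0 := ⟨fun h => h.le, fun h => le_antisymm h bot_le⟩
  rw [h0]
  unfold NDR.uT
  rw [Finset.inf_le_iff (show (0 : unitInterval) < ⊤ from zero_lt_one)]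
  constructor
  · rintro ⟨W, hW, h⟩
    refine ⟨W, hW, nonS_subset.mpr fun g hg => ?_⟩
    have h1 := Finset.sup_le_iff.mp h g (Finset.mem_compl.mpr hg)
    exact (N.u_eq_zero _).mp (le_antisymm h1 bot_le)
  · rintro ⟨W, hW, h⟩
    refine ⟨W, hW, Finset.sup_le fun g hg => ?_⟩
    exact ((N.u_eq_zero _).mpr (nonS_subset.mp h g (Finset.mem_compl.mp hg))).le

theorem NDR.uT_mul_le [Group G] (N : NDR X S) {D : Finset (Finset G)} (hD : SFam D) (x : G → X)
    (g : G) : N.uT D (fun h => x (h * g)) ≤ N.uT D x := by
  unfold NDR.uT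
  refine Finset.le_inf fun W hW => ?_
  refine (Finset.inf_le (hD.trs g hW)).trans ?_
  refine Finset.sup_le fun h hh => ?_
  refine Finset.le_sup (f := fun g => N.u (x g)) ?_
  rw [Finset.mem_compl, mem_tr] at hh
  exact Finset.mem_compl.mpr hh

theorem NDR.uT_mul [Group G] (N : NDR X S) {D : Finset (Finset G)} (hD : SFam D) (x : G → X)
    (g : G) : N.uT D (fun h => x (h * g)) = N.uT D x := by
  apply le_antisymm (N.uT_mul_le hD x g)
  have h := N.uT_mul_le hD (fun h => x (h * g)) g⁻¹
  simp only [inv_mul_cancel_right] at h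
  exact h

end uT

end Vale.Agent.P093.N2
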