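import Vale.Agent.P093.N2.StrataH

/-!
# P093, part N2: Theorem A

`HC.rz`: if `X` is built from cells of dimensions `≤ b` with Euler characteristic `m` and `Z` is a
`G`-space, `G` of prime order `p`, built from cells of dimensions in `[c, d]` with Euler
characteristic `z`, then `RZ G X Z = (UT G X × Z) / G` is built from cells of dimensions in
`[c, p b + 1 + d]` and has Euler characteristic `z * (m ^ p - m) / p`.
-/

open CategoryTheory MonoidalCategory Filter Topology OnePoint

set_option linter.unusedSectionVars false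

namespace Vale.Agent.P093.N2

open Vale.Agent.P251.G Vale.Agent.P251.G.LC

variable {G : Type} [Group G] [Fintype G] [DecidableEq G] {X : LC} {S : Set X} {Z : Type}
  [TopologicalSpace Z] [T2Space Z] [LocallyCompactSpace Z] [MulAction G Z]
  [ContinuousConstSMul G Z] {a b c d e : ℕ} {m n z r s : ℤ}

/-- the union of all strata except the last one -/
theorem HCF.proper (hp : (Fintype.card G).Prime) (N : NDR X S) (hA : HC a b (sub N.isClosed) m)
    (hU : HC a b (opn N.isClosed.isOpen_compl) n) (hZ : HC c d (LC.of Z) z)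
    (hce : Fintype.card G * b + d ≤ e) (hbot : HC c e (RZ G (sub N.isClosed) Z) r) :
    HCF G Z N c e ((Finset.univ : Finset (Finset G)).erase Finset.univ)
      (r + z * (qchi (Fintype.card G) (m + n) - qchi (Fintype.card G) m -
        qchi (Fintype.card G) n)) := by
  refine Fam.induction hp (P := fun D s => HCF G Z N c e D s) (HCF.bot N hbot) ?_
  intro D W s hD hD' hW h0 h1 _ h3 hP
  refine HCF.step N hA hU hZ hce (W := W) ?_ hP
  exact
    { fam := hD.toSFam
      fam' := hD'.toSFam
      notMem := hW
      mem := Finset.mem_union_right _ (mem_orbS.mpr ⟨1, tr_one' W⟩)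
      sub := Finset.subset_union_left
      cases := by
        intro V hV
        rcases Finset.mem_union.mp hV with hV | hV
        · exact Or.inl hV
        · obtain ⟨g, hg⟩ := mem_orbS.mp hV
          exact Or.inr ⟨g, hg.symm⟩
      ne_empty := h0
      ne_univ := h1
      free := h3 }

/-- the extension step -/
theorem HC.rz_ext (hp : (Fintype.card G).Prime) (N : NDR X S) (hA : HC a b (sub N.isClosed) m)
    (hU : HC a b (opn N.isClosed.isOpen_compl) n) (hZ : HC c d (LC.of Z) z)
    (hce : Fintype.card G * b + d ≤ e)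
    (hbot : HC c e (RZ G (sub N.isClosed) Z) (z * qchi (Fintype.card G) m))
    (htop : HC c e (RZ G (opn N.isClosed.isOpen_compl) Z) (z * qchi (Fintype.card G) n)) :
    HC c e (RZ G X Z) (z * qchi (Fintype.card G) (m + n)) :=
  (HCF.top N (HCF.proper hp N hA hU hZ hce hbot) htop).cast (by ring)

/-- the last stratum of a contractible space -/
theorem HC.rz_open (hp : (Fintype.card G).Prime) (N : NDR X S) (hX : Contr X)
    (hA : HC a b (sub N.isClosed) m)
    (hU : HC a b (opn N.isClosed.isOpen_compl) n) (hZ : HC c d (LC.of Z) z)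
    (hce : Fintype.card G * b + d ≤ e)
    (hbot : HC c e (RZ G (sub N.isClosed) Z) (z * qchi (Fintype.card G) m))
    (hmn : m + n = 0) :
    HC (c + 1) (e + 1) (RZ G (opn N.isClosed.isOpen_compl) Z) (z * qchi (Fintype.card G) n) := by
  obtain ⟨hD, h⟩ := HCF.proper hp N hA hU hZ hce hbot
  have h1 := HC.open_of_contr (N.fd' (Z := Z) hD) (RZ.contr hX) h
  refine (h1.of_homeo (Y := RZ G (opn N.isClosed.isOpen_compl) Z)
    (homeoTop G Z N.isClosed).symm).cast ?_
  rw [hmn, qchi_zero hp]
  ring

/-- the half space data -/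
structure HalfData (n : ℕ) where
  /-- the half space -/
  H : LC
  /-- the boundary -/
  S : Set H
  /-- the deformation retract data -/
  N : NDR H S
  contr : Contr H
  bot : HEquiv (sub N.isClosed) (Sph n)
  top : HEquiv (opn N.isClosed.isOpen_compl) (Sph (n + 1))

/-- the spheres -/
theorem HC.rz_sph (hH : ∀ n, Nonempty (HalfData n)) (hp : (Fintype.card G).Prime)
    (hZ : HC c d (LC.of Z) z) (n : ℕ) :
    HC c (Fintype.card G * n + 1 + d) (RZ G (Sph n) Z)
      (z * qchi (Fintype.card G) ((-1) ^ n)) := by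
  induction n with
  | zero =>
    have : Unique (Sph 0 : LC) := inferInstanceAs (Unique (Fin 0 → ℝ))
    refine (HC.of_contr (RZ.contr_of_unique (Sph 0))).cast ?_
    rw [pow_zero, qchi_one hp, mul_zero]
  | succ n ih =>
    obtain ⟨D⟩ := hH n
    have h1 : HC 0 (n + 1) (sub D.N.isClosed) ((-1) ^ n) :=
      (HC.sph n (Nat.zero_le _) (Nat.le_succ _)).hequiv D.bot.symm
    have h2 : HC 0 (n + 1) (opn D.N.isClosed.isOpen_compl) ((-1) ^ (n + 1)) :=
      (HC.sph (n + 1) (Nat.zero_le _) le_rfl).hequiv D.top.symm
    have h3 := HC.rz_open hp D.N D.contr h1 h2 hZ (e := Fintype.card G * (n + 1) + d) le_rfl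
      ((ih.mono le_rfl (by nlinarith [hp.one_le])).hequiv (RZ.hequiv D.bot.symm)) (by ring)
    refine (h3.hequiv (RZ.hequiv D.top)).mono (Nat.le_succ _) (by omega)

/-- **Theorem A.** -/
theorem HC.rz' (hH : ∀ n, Nonempty (HalfData n)) (hp : (Fintype.card G).Prime)
    (hX : HC a b X m) (hZ : HC c d (LC.of Z) z) :
    HC c (Fintype.card G * b + 1 + d) (RZ G X Z) (z * qchi (Fintype.card G) m) := by
  induction hX with
  | empty =>
    have := RT.isEmpty (G := G) (X := LC.of Empty) (Z := Z)
    exact (HC.of_isEmpty (RZ G (LC.of Empty) Z)).cast (by rw [qchi_zero hp, mul_zero])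
  | sph n _ hn =>
    refine (HC.rz_sph hH hp hZ n).mono le_rfl ?_
    have := Nat.mul_le_mul_left (Fintype.card G) hn
    omega
  | hequiv _ h ih => exact ih.hequiv (RZ.hequiv h)
  | ext N hA hU ihA ihU =>
    exact HC.rz_ext hp N hA hU hZ (by omega) ihA ihU

end Vale.Agent.P093.N2
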