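import Vale.Agent.P093.N2.QuotDefs
import Vale.Agent.P093.N2.Asm

/-!
# P093, part N2: `UT G X` is the mapping cone of the diagonal of `X`
-/

open CategoryTheory MonoidalCategory Limits Topology OnePoint

namespace Vale.Agent.P093.N2

open Vale.Agent.P251.G Vale.Agent.P251.G.LC Vale.Agent.P251.I Vale.Agent.P251.T

/-- pushout squares of closed embeddings -/
theorem isPushout_ofClosed {A B C D : LC} (a : A → B) (ha : IsClosedEmbedding a) (f : A → C)
    (hf : IsClosedEmbedding f) (g : B → D) (hg : IsClosedEmbedding g) (j : C → D)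
    (hj : IsClosedEmbedding j) (w : ∀ x, g (a x) = j (f x))
    (hcov : ∀ d, d ∈ Set.range g ∨ d ∈ Set.range j)
    (hint : ∀ b c, g b = j c → b ∈ Set.range a) :
    IsPushout (ofClosed a ha) (ofClosed f hf) (ofClosed g hg) (ofClosed j hj) := by
  refine isPushout_of ?_ (injective_app_ofClosed j hj) ⟨?_, ?_, ?_⟩
  · apply hom_ext
    intro x
    rw [app_comp, app_comp, app_ofClosed_coe, app_ofClosed_coe, app_ofClosed_coe,
      app_ofClosed_coe, w]
  · intro b hb hb'
    induction b using OnePoint.rec with
    | infty => exact hb ⟨∞, app_infty _⟩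
    | coe b =>
      rw [app_ofClosed_coe, coe_mem_range_app_ofClosed] at hb'
      obtain ⟨c, hc⟩ := hb'
      exact hb ((coe_mem_range_app_ofClosed a ha b).mpr (hint b c hc.symm))
  · exact (injective_app_ofClosed g hg).injOn
  · intro d hd
    induction d using OnePoint.rec with
    | infty => exact absurd ⟨∞, app_infty _⟩ hd
    | coe d =>
      have h1 : d ∉ Set.range j := fun h => hd ((coe_mem_range_app_ofClosed j hj d).mpr h)
      obtain ⟨b, rfl⟩ := (hcov d).resolve_right h1
      refine ⟨(b : OnePoint B), ?_, app_ofClosed_coe g hg b⟩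
      intro hb
      obtain ⟨x, rfl⟩ := (coe_mem_range_app_ofClosed a ha b).mp hb
      exact h1 ⟨f x, (w x).symm⟩

section

variable (G : Type) [Finite G] (X : LC)

/-- `UT G X` as an object of `LC` -/
abbrev UTo : LC := LC.of (UT G X)

omit [Finite G] in
/-- the diagonal -/
theorem isClosedEmbedding_diag [Nonempty G] :
    IsClosedEmbedding (fun (x : X) (_ : G) => x) := by
  obtain ⟨g⟩ := ‹Nonempty G›
  have hl : Function.LeftInverse (fun y : G → X => y g) (fun (x : X) (_ : G) => x) := fun _ => rfl
  exact hl.isClosedEmbedding (continuous_apply g) (continuous_pi fun _ => continuous_id)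

omit [Finite G] in
theorem isClosedEmbedding_utBase :
    IsClosedEmbedding (fun y : G → X => (UT.mk y 0 (Or.inl rfl) : UT G X)) := by
  have hl : Function.LeftInverse (fun z : UT G X => z.x)
    (fun y : G → X => (UT.mk y 0 (Or.inl rfl) : UT G X)) := fun _ => rfl
  exact hl.isClosedEmbedding UT.continuous_x
    (UT.continuous_mk continuous_id continuous_const _)

omit [Finite G] in
theorem isClosedEmbedding_utCyl [Nonempty G] :
    IsClosedEmbedding (fun p : X × NNReal =>
      (UT.mk (fun _ => p.1) p.2 (Or.inr fun _ _ => rfl) : UT G X)) := by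
  obtain ⟨g⟩ := ‹Nonempty G›
  have hl : Function.LeftInverse (fun z : UT G X => (z.x g, z.s))
    (fun p : X × NNReal => (UT.mk (fun _ => p.1) p.2 (Or.inr fun _ _ => rfl) : UT G X)) :=
    fun _ => rfl
  exact hl.isClosedEmbedding (((continuous_apply g).comp UT.continuous_x).prodMk UT.continuous_s)
    (UT.continuous_mk (continuous_pi fun _ => continuous_fst) continuous_snd _)

/-- the diagonal as a morphism -/
def diag [Nonempty G] : X ⟶ powObj G X := ofClosed _ (isClosedEmbedding_diag G X)

/-- the inclusion of `X^G` -/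
def utBase : powObj G X ⟶ UTo G X := ofClosed _ (isClosedEmbedding_utBase G X)

/-- the cylinder of the diagonal -/
def utCyl [Nonempty G] : X ⊗ HH ⟶ UTo G X :=
  ofClosed (X := (X ⊗ HH : LC)) _ (isClosedEmbedding_utCyl G X)

theorem isPushout_UT [Nonempty G] :
    IsPushout (coneBase X) (diag G X) (utCyl G X) (utBase G X) := by
  have hl : Function.LeftInverse (fun p : X × NNReal => p.1) (fun x : X => (x, (0 : NNReal))) :=
    fun _ => rfl
  have h0 : IsClosedEmbedding (fun x : X => (x, (0 : NNReal))) :=
    hl.isClosedEmbedding continuous_fst (continuous_id.prodMk continuous_const)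
  have h1 : coneBase X = ofClosed (Y := (X ⊗ HH : LC)) (fun x : X => (x, (0 : NNReal))) h0 := by
    apply hom_ext
    intro x
    rw [app_coneBase]
    rfl
  rw [h1]
  obtain ⟨g⟩ := ‹Nonempty G›
  refine isPushout_ofClosed (B := (X ⊗ HH : LC)) _ h0 _ _ _ _ _ _ ?_ ?_ ?_
  · intro x
    rfl
  · intro z
    rcases z.cond with h | h
    · exact Or.inr ⟨z.x, UT.ext rfl h.symm⟩
    · exact Or.inl ⟨(z.x g, z.s), UT.ext (funext fun k => h g k) rfl⟩
  · rintro ⟨x, s⟩ y hxy
    have h2 : s = 0 := congrArg UT.s hxy
    exact ⟨x, by rw [h2]⟩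

/-- `UT G X` is the mapping cone of the diagonal -/
noncomputable def utIso [Nonempty G] : LC.cone (diag G X) ≅ UTo G X :=
  (isPushout_cone (diag G X)).isoIsPushout _ _ (isPushout_UT G X)

variable {X}

theorem fc_UT [Nonempty G] (hX : FC X) : FC (UTo G X) :=
  (FC.cone hX (fc_powObj G hX) (diag G X)).of_iso (utIso G X)

universe v u

variable {T : Type u} [Category.{v} T] [Preadditive T] [HasZeroObject T]
    [HasShift T ℤ] [∀ n : ℤ, (shiftFunctor T n).Additive] [Pretriangulated T]
    [MonoidalCategory T] [SymmetricCategory T] [TensorTriangulated T] {P : T → Prop}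
    (F : SpaceFunctor T)

theorem Cl.UT [Nonempty G] (hP : Cl P) {X : FCat} (hX : P (F.S.obj X)) :
    P (F.S.obj ⟨UTo G X.obj, fc_UT G X.property⟩) :=
  hP.cone₃ F (X := X) (Y := ⟨powObj G X.obj, fc_powObj G X.property⟩)
    (FCat.hom (diag G X.obj)) (HEquiv.of_iso (utIso G X.obj)) hX (hP.pow F G hX)

end

end Vale.Agent.P093.N2
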